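import Mathlib

/-!
# Row 212 (helper29): the Ω-lemma; smooth families of continuous functions on a compact space
-/

set_option autoImplicit false
set_option linter.unusedSectionVars false
noncomputable section
open scoped ContDiff Topology InnerProductSpace
open MeasureTheory Set Function Filter Metric

namespace Crest.Agent.X212.St29

variable {K K' : Type} [TopologicalSpace K] [CompactSpace K] [TopologicalSpace K'] [CompactSpace K']
  {P P' B N N' : Type} [NormedAddCommGroup P] [NormedSpace ℝ P] [NormedAddCommGroup P']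
  [NormedSpace ℝ P'] [NormedAddCommGroup B] [NormedSpace ℝ B] [NormedAddCommGroup N]
  [NormedSpace ℝ N] [NormedAddCommGroup N'] [NormedSpace ℝ N'] {W : Set B} {φ : B → N}

/-- composition with `φ` -/
def om (φ : B → N) (u : C(K, B)) : C(K, N) := ContinuousMap.mkD (fun x => φ (u x)) 0

variable (K) in
/-- maps into `W` -/
def mp (W : Set B) : Set C(K, B) := {u | range u ⊆ W}

theorem isOpen_mp (hW : IsOpen W) : IsOpen (mp K W) := ContinuousMap.isOpen_setOfPred_range_subset hW

theorem om_apply (h : ContinuousOn φ W) {u : C(K, B)} (hu : u ∈ mp K W) (x : K) :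
    om φ u x = φ (u x) :=
  ContinuousMap.mkD_apply_of_continuous (h.comp_continuous u.continuous fun x => hu ⟨x, rfl⟩)

theorem cont_om (h : ContinuousOn φ W) : ContinuousOn (om φ) (mp K W) :=
  continuousOn_iff_continuous_domRestrict.2 (ContinuousMap.continuous_of_continuous_uncurry _
    ((h.comp_continuous (f := fun z : mp K W × K => z.1.1 z.2) (by fun_prop)
      fun z => z.1.2 ⟨z.2, rfl⟩).congr fun z => (om_apply h z.1.2 z.2).symm))

variable (K B N) in
/-- pointwise application -/
def apL : C(K, B →L[ℝ] N) →L[ℝ] C(K, B) →L[ℝ] C(K, N) :=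
  LinearMap.mkContinuous₂ (E := C(K, B →L[ℝ] N)) (F := C(K, B)) (G := C(K, N)) (LinearMap.mk₂ ℝ
    (fun (A : C(K, B →L[ℝ] N)) (u : C(K, B)) =>
      (⟨fun x => A x (u x), A.continuous.clm_apply u.continuous⟩ : C(K, N)))
    (fun _ _ _ => by ext; simp) (fun _ _ _ => by ext; simp) (fun _ _ _ => by ext; simp)
    fun _ _ _ => by ext; simp) 1 fun A u => (ContinuousMap.norm_le _ (by positivity)).2 fun x => by
      rw [one_mul]
      exact (A x).le_of_opNorm_le_of_le (A.norm_coe_le_norm x) (u.norm_coe_le_norm x)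

theorem apL_apply (A : C(K, B →L[ℝ] N)) (u : C(K, B)) (x : K) : apL K B N A u x = A x (u x) := rfl

theorem der_om (hW : IsOpen W) (h : DifferentiableOn ℝ φ W) (h' : ContinuousOn (fderiv ℝ φ) W)
    {u : C(K, B)} (hu : u ∈ mp K W) : HasFDerivAt (om φ) (apL K B N (om (fderiv ℝ φ) u)) u := by
  refine hasFDerivAt_iff_isLittleO_nhds_zero.2 (Asymptotics.isLittleO_iff.2 fun c hc => ?_)
  have n := (isOpen_mp hW).mem_nhds hu
  obtain ⟨δ, hδ, H⟩ := Metric.eventually_nhds_iff_ball.1
    ((((cont_om h').continuousAt n).eventually (closedBall_mem_nhds _ hc)).and n)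
  filter_upwards [ball_mem_nhds 0 hδ] with v hv
  have m : ∀ θ ∈ Icc (0 : ℝ) 1, u + θ • v ∈ ball u δ := fun θ hθ => by
    simpa using (convex_ball u δ).add_smul_mem (mem_ball_self hδ) (y := v) (by simpa using hv) hθ
  refine (ContinuousMap.norm_le _ (by positivity)).2 fun x => ?_
  have s : ∀ b ∈ segment ℝ (u x) (u x + v x), ∃ w ∈ ball u δ, w x = b := fun b hb => by
    rw [segment_eq_image'] at hb
    obtain ⟨θ, hθ, rfl⟩ := hb
    exact ⟨_, m θ hθ, by simp⟩
  have := (convex_segment (u x) (u x + v x)).norm_image_sub_le_of_norm_fderiv_le' (𝕜 := ℝ) (f := φ)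
    (φ := fderiv ℝ φ (u x)) (C := c) (fun b hb => by
      obtain ⟨w, hw, rfl⟩ := s b hb
      exact h.differentiableAt (hW.mem_nhds ((H w hw).2 ⟨x, rfl⟩))) (fun b hb => by
      obtain ⟨w, hw, rfl⟩ := s b hb
      rw [← om_apply h' (H w hw).2, ← om_apply h' hu]
      exact ((om (fderiv ℝ φ) w - om (fderiv ℝ φ) u).norm_coe_le_norm x).trans
        (mem_closedBall_iff_norm.1 (H w hw).1)) (left_mem_segment _ _ _) (right_mem_segment _ _ _)
  have e := (H _ (m 1 ⟨zero_le_one, le_rfl⟩)).2
  rw [one_smul] at e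
  rw [add_sub_cancel_left] at this
  simp only [ContinuousMap.sub_apply, apL_apply, om_apply h.continuousOn e,
    om_apply h.continuousOn hu, om_apply h' hu]
  exact this.trans (by gcongr; exact v.norm_coe_le_norm x)

theorem cd_om (hW : IsOpen W) (n : ℕ) : ∀ {N : Type} [NormedAddCommGroup N] [NormedSpace ℝ N]
    {φ : B → N}, ContDiffOn ℝ n φ W → ContDiffOn ℝ n (om φ) (mp K W) := by
  induction n with
  | zero => exact fun h => contDiffOn_zero.2 (cont_om h.continuousOn)
  | succ n ih =>
    intro N _ _ φ h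
    push_cast at h ⊢
    obtain ⟨h1, -, h2⟩ := (contDiffOn_succ_iff_fderiv_of_isOpen hW).1 h
    have d := fun u (hu : u ∈ mp K W) => der_om hW h1 h2.continuousOn hu
    exact (contDiffOn_succ_iff_fderiv_of_isOpen (isOpen_mp hW)).2
      ⟨fun u hu => (d u hu).differentiableAt.differentiableWithinAt, by simp,
        (ContDiff.comp_contDiffOn (g := apL K B N) (ContinuousLinearMap.contDiff _) (ih h2)).congr
          fun u hu => (d u hu).fderiv⟩

/-- **Ω-lemma** -/
theorem sm_om (hW : IsOpen W) (h : ContDiffOn ℝ ∞ φ W) : ContDiffOn ℝ ∞ (om φ) (mp K W) :=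
  contDiffOn_infty.2 fun n => cd_om hW n (contDiffOn_infty.1 h n)

/-- smooth families of continuous functions -/
def SF (O : Set P) (f : P → K → N) : Prop :=
  ∃ g : P → C(K, N), ContDiffOn ℝ ∞ g O ∧ ∀ p ∈ O, ∀ x, g p x = f p x

namespace SF
variable {O : Set P} {f f' : P → K → N} {g : P → K → N'}

theorem congr (h : SF O f) (e : ∀ p ∈ O, ∀ x, f' p x = f p x) : SF O f' :=
  let ⟨g, h1, h2⟩ := h
  ⟨g, h1, fun p hp x => (h2 p hp x).trans (e p hp x).symm⟩

theorem fix {u : K → N} (h : Continuous u) : SF O fun _ => u := ⟨fun _ => ⟨u, h⟩, contDiffOn_const, fun _ _ _ => rfl⟩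

theorem par {c : P → N} (h : ContDiffOn ℝ ∞ c O) : SF O fun p (_ : K) => c p :=
  ⟨_, (ContinuousLinearMap.const ℝ K).contDiff.comp_contDiffOn h, fun _ _ _ => rfl⟩

theorem const (c : N) : SF O fun _ (_ : K) => c := fix continuous_const

theorem cont (h : SF O f) {p : P} (hp : p ∈ O) : Continuous (f p) :=
  let ⟨g, _, h2⟩ := h
  (g p).continuous.congr (h2 p hp)

theorem ev (h : SF O f) (x : K) : ContDiffOn ℝ ∞ (fun p => f p x) O :=
  let ⟨_, h1, h2⟩ := h
  ((ContinuousMap.evalCLM ℝ x : C(K, N) →L[ℝ] N).contDiff.comp_contDiffOn h1).congr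
    fun p hp => (h2 p hp x).symm

theorem reparam {O' : Set P'} {π : P' → P} (h : SF O f) (hπ : ContDiffOn ℝ ∞ π O') (hm : MapsTo π O' O) :
    SF O' fun p => f (π p) :=
  let ⟨_, h1, h2⟩ := h
  ⟨_, h1.comp hπ hm, fun _ hp => h2 _ (hm hp)⟩

theorem mono {O' : Set P} (h : SF O f) (hO : O' ⊆ O) : SF O' f := h.reparam contDiffOn_id hO

theorem pull (h : SF O f) {a : K' → K} (ha : Continuous a) : SF O fun p x => f p (a x) :=
  let ⟨_, h1, h2⟩ := h
  ⟨_, (ContinuousMap.compCLM ℝ N ⟨a, ha⟩).contDiff.comp_contDiffOn h1, fun p hp _ => h2 p hp _⟩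

theorem prod (h : SF O f) (h' : SF O g) : SF O fun p x => (f p x, g p x) :=
  let ⟨_, h1, h2⟩ := h
  let ⟨_, h3, h4⟩ := h'
  ⟨_, (((ContinuousLinearMap.inl ℝ N N').compLeftContinuous ℝ K).contDiff.comp_contDiffOn h1).add
    (((ContinuousLinearMap.inr ℝ N N').compLeftContinuous ℝ K).contDiff.comp_contDiffOn h3),
    fun p hp x => Prod.ext ((add_zero _).trans (h2 p hp x)) ((zero_add _).trans (h4 p hp x))⟩

theorem compOn {W : Set N} {φ : N → N'} (hW : IsOpen W) (hφ : ContDiffOn ℝ ∞ φ W) (h : SF O f)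
    (hm : ∀ p ∈ O, ∀ x, f p x ∈ W) : SF O fun p x => φ (f p x) := by
  obtain ⟨g, h1, h2⟩ := h
  have m : MapsTo g O (mp K W) := fun p hp => range_subset_iff.2 fun x => h2 p hp x ▸ hm p hp x
  exact ⟨_, (sm_om hW hφ).comp h1 m, fun p hp x =>
    (om_apply hφ.continuousOn (m hp) x).trans (congrArg φ (h2 p hp x))⟩

theorem comp {φ : N → N'} (hφ : ContDiff ℝ ∞ φ) (h : SF O f) : SF O fun p x => φ (f p x) :=
  compOn isOpen_univ hφ.contDiffOn h fun _ _ _ => trivial

theorem clm (L : N →L[ℝ] N') (h : SF O f) : SF O fun p x => L (f p x) := comp L.contDiff h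

theorem fst {f : P → K → N × N'} (h : SF O f) : SF O fun p x => (f p x).1 := comp contDiff_fst h

theorem snd {f : P → K → N × N'} (h : SF O f) : SF O fun p x => (f p x).2 := comp contDiff_snd h

theorem add (h : SF O f) (h' : SF O f') : SF O fun p x => f p x + f' p x :=
  comp (contDiff_fst.add contDiff_snd) (h.prod h')

theorem sub (h : SF O f) (h' : SF O f') : SF O fun p x => f p x - f' p x :=
  comp (contDiff_fst.sub contDiff_snd) (h.prod h')

theorem neg (h : SF O f) : SF O fun p x => -f p x := comp contDiff_neg h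

theorem smul {c : P → K → ℝ} (hc : SF O c) (h : SF O f) : SF O fun p x => c p x • f p x :=
  comp (contDiff_fst.smul contDiff_snd) (hc.prod h)

theorem mul {A : Type} [NormedRing A] [NormedAlgebra ℝ A] {u v : P → K → A} (h : SF O u)
    (h' : SF O v) : SF O fun p x => u p x * v p x := comp (contDiff_fst.mul contDiff_snd) (h.prod h')

theorem app {A : P → K → N →L[ℝ] N'} (hA : SF O A) (h : SF O f) : SF O fun p x => A p x (f p x) :=
  comp (contDiff_fst.clm_apply contDiff_snd) (hA.prod h)

theorem inner {V : Type} [NormedAddCommGroup V] [InnerProductSpace ℝ V] {u v : P → K → V}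
    (h : SF O u) (h' : SF O v) : SF O fun p x => ⟪u p x, v p x⟫_ℝ :=
  comp (contDiff_fst.inner ℝ contDiff_snd) (h.prod h')

theorem fsum {ι : Type} (s : Finset ι) {u : ι → P → K → N} (h : ∀ i, SF O (u i)) :
    SF O fun p x => ∑ i ∈ s, u i p x := by
  choose g h1 h2 using h
  exact ⟨_, ContDiffOn.sum (s := s) fun i _ => h1 i, fun p hp x => by simp [h2 _ p hp]⟩

theorem pi {ι : Type} [Fintype ι] {u : P → K → ι → N} (h : ∀ i, SF O fun p x => u p x i) : SF O u := by
  classical
  exact (fsum Finset.univ fun i => (h i).clm (ContinuousLinearMap.single ℝ (fun _ => N) i)).congr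
    fun p _ x => (Finset.univ_sum_single _).symm

theorem apply {ι : Type} [Fintype ι] {u : P → K → ι → N} (h : SF O u) (i : ι) :
    SF O fun p x => u p x i := h.clm (ContinuousLinearMap.proj i)

theorem toLp {ι : Type} [Fintype ι] {u : P → K → ι → N} (h : ∀ i, SF O fun p x => u p x i) :
    SF O fun p x => (WithLp.toLp 2 (u p x) : PiLp 2 fun _ : ι => N) :=
  (pi h).clm (PiLp.continuousLinearEquiv 2 ℝ fun _ : ι => N).symm.toContinuousLinearMap

theorem ofLp {ι : Type} [Fintype ι] {u : P → K → PiLp 2 fun _ : ι => N} (h : SF O u) (i : ι) :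
    SF O fun p x => u p x i := h.clm (PiLp.proj 2 _ i)

/-- bounded linear maps -/
theorem lin {f : P → K → N} (hc : ∀ p, Continuous (f p)) (ha : ∀ p q x, f (p + q) x = f p x + f q x)
    (hs : ∀ (r : ℝ) p x, f (r • p) x = r • f p x) {C : ℝ} (hb : ∀ p x, ‖f p x‖ ≤ C * ‖p‖) : SF O f :=
  ⟨_, (LinearMap.mkContinuous (E := P) (F := C(K, N)) (σ := RingHom.id ℝ)
    { toFun := fun p => ⟨f p, hc p⟩
      map_add' := fun p q => ContinuousMap.ext (ha p q)
      map_smul' := fun r p => ContinuousMap.ext (hs r p) } |C|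
    fun p => (ContinuousMap.norm_le _ (by positivity)).2 fun x => (hb p x).trans (by
      gcongr; exact le_abs_self C)).contDiff.contDiffOn, fun _ _ _ => rfl⟩

theorem self : SF univ fun (u : C(K, N)) => u := ⟨id, contDiffOn_id, fun _ _ _ => rfl⟩

variable [CompleteSpace N]

/-- fibre integrals -/
theorem int [MeasurableSpace K'] [OpensMeasurableSpace K'] [SecondCountableTopology K']
    (μ : Measure K') [IsFiniteMeasure μ]
    {f : P → K × K' → N} (h : SF O f) : SF O fun p x => ∫ y, f p (x, y) ∂μ := by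
  obtain ⟨g, h1, h2⟩ := h
  have i : ∀ (w : C(K', N)), Integrable (fun y => w y) μ := fun w =>
    .of_bound w.continuous.aestronglyMeasurable ‖w‖ (.of_forall w.norm_coe_le_norm)
  let I : C(K', N) →L[ℝ] N := LinearMap.mkContinuous
    { toFun := fun w => ∫ y, w y ∂μ
      map_add' := fun u v => integral_add (i u) (i v)
      map_smul' := fun r u => integral_smul r _ } (μ.real univ) fun u =>
    (norm_integral_le_of_norm_le_const (.of_forall fun y => u.norm_coe_le_norm _)).trans_eq
      (mul_comm _ _)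
  have : SF univ fun (u : C(K × K', N)) x => ∫ y, u (x, y) ∂μ := lin
    (fun u => I.continuous.comp u.curry.continuous)
    (fun u v x => integral_add (i (u.curry x)) (i (v.curry x))) (fun r u x => integral_smul r _)
    (C := μ.real univ) fun u x => (norm_integral_le_of_norm_le_const
      (.of_forall fun y => u.norm_coe_le_norm _)).trans_eq (mul_comm _ _)
  exact (this.reparam h1 fun _ _ => trivial).congr fun p hp x => by simp only [h2 p hp]

theorem intI {a b : ℝ} {F : P → K → ℝ → N} (h : SF O fun p (z : K × Icc a b) => F p z.1 z.2) :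
    SF O fun p x => ∫ r in Icc a b, F p x r :=
  have : IsFiniteMeasure (volume.comap (Subtype.val : Icc a b → ℝ)) := ⟨by
    rw [comap_subtype_coe_apply measurableSet_Icc, image_univ, Subtype.range_coe]
    exact measure_Icc_lt_top⟩
  (h.int (volume.comap Subtype.val)).congr fun p _ x =>
    (integral_subtype_comap measurableSet_Icc (F p x)).symm

theorem intI0 {a b : ℝ} {F : P → ℝ → N} (h : SF O fun p (z : Icc a b) => F p z) :
    ContDiffOn ℝ ∞ (fun p => ∫ r in Icc a b, F p r) O :=
  (intI (K := Unit) (F := fun p _ => F p) (h.pull continuous_snd)).ev ()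

end SF

end Crest.Agent.X212.St29
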