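import Crest.Agent.X212.St29.SbD
import Crest.Agent.X212.Sb84.Defs

/-!
# Row 212, SB (helper29): the statement of AN for one job
-/

set_option autoImplicit false
set_option linter.unusedSectionVars false
noncomputable section
open scoped Manifold ContDiff Topology InnerProductSpace Classical
open MeasureTheory Set Function Filter

namespace Crest.Agent.X212.St29.Sb
open An M Nd18
open An.Job (Sol)
open Loc8 (hb)
open Cht98 (hZ)

variable {κ lam : Type} [Fintype κ] [Fintype lam] [DecidableEq lam]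

/-- the order of the walls `a` (cut), `x true`, `x false` -/
structure Ps {X : Mf 4} {A : Type} [Fintype A] {M : Mark X A κ} (C : Caps M) (c : M.Cl) (a : A)
    (x : Bool → A) : Prop where
  ac : a ∈ c.1
  np : ¬M.pin a
  ne : ∀ e, x e ≠ a
  dis : ∀ z, hb C c (x true) true z < 1 → ¬hb C c (x false) false z < 1
  pos : ∀ e z, |hZ C c (x e) z| < 1 → 0 < hZ C c a z

variable (κ lam) in
/-- **AN for one job** -/
def AnJ : Prop := ∀ v K C : ℝ, 1 ≤ K → 0 ≤ C → ∃ C' δ : ℝ, ∀ (X : Mf 4) (A : Type) [Fintype A]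
  (M : Mark X A κ) (Wi : Type) (W : World M) (N : ML M lam) (Λ : Lns W N) (A' h : Type) [Fintype A']
  [DecidableEq A'] [Fintype h] (r n : ℕ) (J : Job Wi Λ A' h r n) (c : M.Cl) σ q (y : J.Obc c) a x,
  J.OK → σ ∈ J.𝒦 → Sol σ q y → Ps W.toCaps c a x → Ge J c y.s (Rs W.toCaps c a x) v →
  (∃ σ, ∀ z, ‖y.x.Φ z‖ ^ 2 ≤ σ) → Nm (J.G c y.s) y.x (J.τ c q y.s) K → Nl a C y →
  (∀ e, Wi1 (x e) e y) → ∃ w : Sb84.Wd, w.OK (fun e => (J.Θ y.s).2 (x e)) δ ∧
    ∫ z in w.K W.toCaps c (fun e => (J.Θ y.s).2 (x e)) x,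
      ‖y.x.m.Fg (J.G c y.s).F y.x.W z‖ ^ 2 ∂(J.G c y.s).F.μ ≤ C' ∧
    ∀ U, IsClopen U → (∀ z ∈ U, 0 < hZ W.toCaps c a z) → -C' ≤ ∫ z in U,
      (1 - w.g W.toCaps c (fun e => (J.Θ y.s).2 (x e)) x z) * y.kd z ∂(J.G c y.s).F.μ

end Crest.Agent.X212.St29.Sb
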