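import Crest.Agent.X212.St29.SbA
import Crest.Agent.X212.Nd18.Fk
import Crest.Agent.X212.Fin37.Nk
import Crest.Agent.X212.Loc8.Wld
import Crest.Agent.X212.Dgr80.E1b

/-!
# Row 212, SB (helper29): the analytic leaves
-/

set_option autoImplicit false
set_option linter.unusedSectionVars false
noncomputable section
open scoped Manifold ContDiff Topology InnerProductSpace Classical
open MeasureTheory Set Function Filter

namespace Crest.Agent.X212.St29.Sb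
open An M G75 Nd18 Fk18 Nka63
open An.Job (Sol)
open Loc8 (hb)
open Cht98 (hZ)
open Fin37 (Ix nk core th)
open Dgr80 (LB θc)
open Br55 (CN)

variable {κ lam : Type} [Fintype κ] [Fintype lam] [DecidableEq lam]

section job
variable {X : Mf 4} {A : Type} [Fintype A] {M : Mark X A κ}

/-- head, tail and the necks `a` (right end), `x true`, `x false` -/
def Rs (C : Caps M) (c : M.Cl) (a : A) (x : Bool → A) : Set (C.Z c).M :=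
  {z | 0 < hZ C c a z ∧ ∃ e, hb C c (x e) e z < 1}

variable {Wi : Type} {W : World M} {N : ML M lam} {Λ : Lns W N} {A' h : Type} [Fintype A']
  [DecidableEq A'] [Fintype h] {r n : ℕ} (J : Job Wi Λ A' h r n) (c : M.Cl) (s : A' → ℝ)

/-- bounded geometry of `R` -/
structure Ge (R : Set (W.Z c).M) (v : ℝ) : Prop where
  cv : ∀ z ∈ R, √(∑ i, Wz78.fP (J.B c) (J.G c s) z i ^ 2) - Wz78.sc (J.G c s) z / 4 ≤ v
  vol : (J.G c s).F.μ.real (R ∩ core J c s 0) ≤ v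
  nk : ∑ i : Ix J c s with ¬Disjoint (nk J i).ψ.target R, (1 + vY (J.xs i.1.1).D) ≤ v

variable {J c}

/-- levels of necks and of windows on necks -/
def Nl (a : A) (C : ℝ) (y : J.Obc c) : Prop := ∀ (i : Ix J c y.s) (U : ℝ), 1 ≤ U →
  (∀ z ∈ O (nk J i) 2, ‖y.x.Φ z‖ ^ 2 ≤ U) →
  -(C * U ^ 2 * (1 + vY (J.xs i.1.1).D)) ≤ ∫ z, th J 3 i z * y.kd z ∂(J.G c y.s).F.μ ∧
  (i.1.1 ≠ a → ∀ p q, Dgr80.Sb (nk J i).p (nk J i).q p q → -(C * U ^ 2 * (1 + vY (J.xs i.1.1).D)) ≤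
    ∫ z, θc p q ((nk J i).τ z) * y.kd z ∂(J.G c y.s).F.μ)

/-- a window of length one with bounded curvature in the half `e` of the neck of `x` -/
def Wi1 (x : A) (e : Bool) (y : J.Obc c) : Prop :=
  ∃ (hx : Act J.m c x none (J.Θ y.s)) (s : ℝ), 10 ≤ s ∧ s + 11 ≤ nl ((J.Θ y.s).2 x) ∧
    (bif e then nl ((J.Θ y.s).2 x) / 2 < s else s + 1 < nl ((J.Θ y.s).2 x) / 2) ∧
    ∀ γ, (∀ z ∈ O (nk J ⟨(x, none), hx⟩) 2, ‖y.x.Φ z‖ ^ 2 ≤ γ) →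
      LB ((J.G c y.s).F.μ.restrict ((nk J ⟨(x, none), hx⟩).tm ⁻¹' Icc s (s + 1)))
        (fun z => ‖y.x.m.Fg (J.G c y.s).F y.x.W z‖ ^ 2) (192 * γ ^ 2 * vY (J.xs x).D + 44)

end job

variable (Lm : LM κ lam)

/-- **AN-GEO** -/
def GeoStmt : Prop := ∀ (y₀ : G75.YD κ lam) (P : Pk y₀), P.OK → ∃ v : ℝ,
  ∀ (S : Scene Lm) (t : TD y₀ S) R c d, t.OK R c → CN S d c → c ≠ 0 → ∃ D, ∀ n m k T
    (Z : Z1 (⟨t, c, d, n, D, m, k⟩ : Z0 P S)), Z.OK T → ∀ q (y : Z.Ob), Sol Z.ce q y →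
      Ge Z.J Z.e y.s (Rs D.W.toCaps Z.e t.a fun e => bif e then t.h else t.b) v

/-- **AN-NM** -/
def NmStmt : Prop := ∀ (y₀ : G75.YD κ lam) (P : Pk y₀), P.OK → ∃ K, 1 ≤ K ∧
  ∀ (S : Scene Lm) (t : TD y₀ S) R c d D n m k T (Z : Z1 (⟨t, c, d, n, D, m, k⟩ : Z0 P S)),
    t.OK R c → CN S d c → Z.OK T → (An.Sml fun Adm => Fin37.ELM Z.J Adm ∧ Fin37.CHH Z.J Adm) →
    An.Sml fun Adm => ∀ q (y : Z.Ob), Adm q → Sol Z.ce q y →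
      (∃ σ, ∀ z, ‖y.x.Φ z‖ ^ 2 ≤ σ) ∧ Nm (Z.J.G Z.e y.s) y.x (Z.J.τ Z.e q y.s) K

/-- **AN-NKL** -/
def NlStmt : Prop := ∀ (y₀ : G75.YD κ lam) (P : Pk y₀), P.OK → ∃ C, 0 ≤ C ∧
  ∀ (S : Scene Lm) (t : TD y₀ S) R c d D n m k T (Z : Z1 (⟨t, c, d, n, D, m, k⟩ : Z0 P S)),
    t.OK R c → CN S d c → Z.OK T → (An.Sml fun Adm => Fin37.ELM Z.J Adm ∧ Fin37.CHH Z.J Adm) →
    An.Sml fun Adm => ∀ q (y : Z.Ob), Adm q → Sol Z.ce q y → Nl t.a C y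

/-- **AN-WIN** -/
def WinStmt : Prop := ∀ (y₀ : G75.YD κ lam) (P : Pk y₀), P.OK →
  ∀ (S : Scene Lm) (t : TD y₀ S) R c d D n m k, t.OK R c → CN S d c → ∀ᶠ T in 𝓝[<] (1 : ℝ),
    ∀ Z : Z1 (⟨t, c, d, n, D, m, k⟩ : Z0 P S), Z.OK T →
    (An.Sml fun Adm => Fin37.ELM Z.J Adm ∧ Fin37.CHH Z.J Adm) →
    An.Sml fun Adm => ∀ q (y : Z.Ob), Adm q → Sol Z.ce q y → Wi1 t.h true y ∧ Wi1 t.b false y

end Crest.Agent.X212.St29.Sb
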