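import Crest.Agent.X212.Dec35.Cyl
import Crest.Agent.X212.Op78.Sym
import Crest.Agent.X212.Hm83.Llw
import Crest.Agent.X212.Hm83.Poi

/-!
# Row 212, KP-LAP (helper29): the gauge condition on the cross-section
-/

set_option autoImplicit false
set_option linter.unusedSectionVars false
noncomputable section
open scoped Manifold ContDiff Topology InnerProductSpace
open MeasureTheory Set Function Filter Real

namespace Crest.Agent.X212.St29.Lap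
open An Map77 Sob92 Nd18 Dec35 Cyf70 Ell97
open Op78 (Iv iv iv_dv in_bz)

variable {E3 : Type} [NormedAddCommGroup E3] [NormedSpace ℝ E3] [FiniteDimensional ℝ E3]
  [MeasurableSpace E3] [BorelSpace E3]
  {H3 : Type} [TopologicalSpace H3] {I3 : ModelWithCorners ℝ E3 H3} [I3.Boundaryless]
  {Y : Type} [TopologicalSpace Y] [ChartedSpace H3 Y] [IsManifold I3 ∞ Y] [T2Space Y]
  [MeasurableSpace Y] [BorelSpace Y] [SecondCountableTopology Y] [CompactSpace Y]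
  {κ : Type} [Fintype κ] {lam : Type} [Fintype lam]
  {V W : Type} [NormedAddCommGroup V] [InnerProductSpace ℝ V] [FiniteDimensional ℝ V]
  [NormedAddCommGroup W] [InnerProductSpace ℝ W] [FiniteDimensional ℝ W]

section gen
variable {F : Fr I3 Y κ} {A : Op (Y × ℝ) (Option κ) V W}

/-- the operator induced on `t`-invariant sections -/
def slc (A : Op (Y × ℝ) (Option κ) V W) : Op Y κ V W :=
  ⟨fun y => A.p (y, 0), fun y => A.q (y, 0), fun a y => A.σ (some a) (y, 0), fun y => A.B (y, 0)⟩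

theorem app_slc (h : (iv F.toPre).op fun _ => A) {w : Y → V} (hw : Sm I3 w) (x : Y × ℝ) :
    A.app (cyl F) (fun x => w x.1) x = (slc A).app F w x.1 := by
  have e1 := congrFun (D_none_fst F.toPre hw) x
  have e2 := fun a => congrFun (D_some_fst F.toPre hw a) x
  have e3 := fun a => congrFun (Iv.eq (h.σ a)) x
  have e4 := congrFun (Iv.eq h.B) x
  simp only [Op.app, Pre.op, Fintype.sum_option, cyl, e1, e2, Pi.zero_apply, map_zero, zero_add,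
    slc, e3, e4]

theorem slc_adj (h : (iv F.toPre).op fun _ => A) : slc (A.adj (cyl F)) = (slc A).adj F := by
  have s : ∀ a, Iv I3 fun x => Op.tr (A.σ a x) := fun a => by
    obtain ⟨g, hg, e⟩ : Iv I3 (A.σ a) := h.σ a
    exact ⟨fun y => Op.tr (g y), (trL V W).contMDiff.comp hg, by rw [e]⟩
  have e1 : ∀ x, (cyl F).D none (fun x => Op.tr (A.σ none x)) x = 0 := fun x => by
    obtain ⟨g, hg, e⟩ := s none
    rw [e]; exact congrFun (D_none_fst F.toPre hg) x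
  have e2 : ∀ a y, (cyl F).D (some a) (fun x => Op.tr (A.σ (some a) x)) (y, 0) =
      F.D a (fun z => Op.tr (A.σ (some a) (z, 0))) y := fun a y => by
    obtain ⟨g, hg, e⟩ := s (some a)
    exact D_some F.toPre (e ▸ sm_fst hg) a (y, 0)
  have e3 : ∀ x, (cyl F).dv none x = 0 := fun _ => rfl
  have e4 : ∀ a y, (cyl F).dv (some a) (y, 0) = F.dv a y := fun _ _ => rfl
  simp only [slc, Op.adj, Fintype.sum_option, e1, e2, e3, e4, zero_smul, zero_add]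

theorem good_slc {C : ℕ → ℝ} (g : A.Good (cyl F) C) : ∃ C', (slc A).Good F C' := by
  refine good_of_cb (Cb_of_compact (sm_slice_fst g.p.cb.1 0)) (Cb_of_compact (sm_slice_fst g.q.cb.1 0))
    (fun a => Cb_of_compact (sm_slice_fst (g.σ (some a)).1 0)) (Cb_of_compact (sm_slice_fst g.B.1 0))
    (fun y => g.p.idem (y, 0)) (fun y => g.p.symm (y, 0)) (fun y => g.q.idem (y, 0))
    (fun y => g.q.symm (y, 0)) (fun a y => g.σp (some a) (y, 0)) (fun a y => g.qσ (some a) (y, 0))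
    (fun y => g.qB (y, 0)) fun a y => ?_
  have := g.Pσ (some a) (y, 0)
  rw [Fintype.sum_option] at this
  change (0 : ℝ) • _ + _ = _ at this
  rw [zero_smul, zero_add] at this
  exact this

theorem cliff_slc (c : A.CliffL (cyl F)) : (slc A).CliffL F := fun a b y =>
  c (some a) (some b) (y, 0)

end gen

variable {D : YD I3 Y κ lam} {β : YC Y κ lam} (hD : D.OK) (hβ : D.Adm β) (l : ℝ)

variable (D β) in
/-- the gauge operator on the cross-section -/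
abbrev sO : Op Y κ β.m.A (Cv (cy β)) := slc (dO D.B D.Z (cy β) l)

variable (β) in
/-- the rescaling of the spinor -/
def rs (v : Cv (cy β)) : Cv (cy β) := i1 _ _ (fa v) + i2 _ _ (l • fp v)

theorem rs_add (v w : Cv (cy β)) : rs β l (v + w) = rs β l v + rs β l w := by
  simp only [rs, map_add, smul_add]; abel

theorem sm_rs {b : Y → Cv (cy β)} (hb : Sm I3 b) : Sm I3 fun y => rs β l (b y) :=
  (sm_clm _ (sm_clm fa hb)).add
    (sm_clm _ ((contMDiff_const (I' := 𝓘(ℝ, ℝ)) (c := l)).smul (sm_clm fp hb)))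

theorem rs_dg (ξ : Y × ℝ → β.m.A) (x : Y × ℝ) :
    rs β l (dg D.Z (cy β) 1 ξ x) = dg D.Z (cy β) l ξ x := by simp [rs, dg]

include hD hβ

theorem in_dO : (iv D.F.toPre).op fun _ => dO D.B D.Z (cy β) l :=
  Bd.In.d0 (F := fun _ => D.Z) (in_bz hD hβ) (Cls.base (K := iv D.F.toPre) (W := fun _ => (cy β).W)
    (Φ := fun _ x => l • (cy β).Φ x) (fun a => Iv.of (Hm83.sm_W hβ a) fun _ => rfl)
    (Iv.of ((contMDiff_const (I' := 𝓘(ℝ, ℝ)) (c := l)).smul hβ.adm.sm) fun _ => rfl))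

theorem good_sO : ∃ C, (sO D β l).Good D.F C :=
  let ⟨_, _, h⟩ := (bs_cyl hD hβ).good_dO l
  good_slc h

theorem adj_slc {w : Y → Cv (cy β)} (hw : Sm I3 w) (x : Y × ℝ) :
    ((dO D.B D.Z (cy β) l).adj D.Z).app D.Z (fun x => w x.1) x = ((sO D β l).adj D.F).app D.F w x.1 := by
  exact (app_slc (Cls.op.adj (F := fun _ => D.Z) (in_dO hD hβ l) iv_dv) hw x).trans
    (congrArg (fun B : Op Y κ (Cv (cy β)) β.m.A => B.app D.F w x.1) (slc_adj (in_dO hD hβ l)))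

theorem dg_slc {ξ : Y → β.m.A} (hξ : Sm I3 ξ) (hg : ∀ y, ξ y ∈ β.m.gS y) (x : Y × ℝ) :
    dg D.Z (cy β) l (fun z => ξ z.1) x = (sO D β l).app D.F ξ x.1 :=
  (congrFun (dO_app hD.B hD.G hβ.adm l (sm_fst hξ) fun x => hg x.1).1 x).symm.trans
    (app_slc (in_dO hD hβ l) hξ x)

theorem lap1 {b : Y → Cv (cy β)} {ξ : Y → β.m.A} (hb : Sm I3 b) (hξ : Sm I3 ξ)
    (hg : ∀ y, ξ y ∈ β.m.gS y) :
    ∫ y, ⟪sig D.B D.Z (cy β) l (fun x => b x.1) (y, 0), ξ y⟫_ℝ ∂D.F.μ =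
      ∫ y, ⟪i1 _ _ (fa (b y)) + i2 _ _ (l • fp (b y)),
        dg D.Z (cy β) l (fun x => ξ x.1) (y, 0)⟫_ℝ ∂D.F.μ := by
  obtain ⟨C, hC⟩ := good_sO hD hβ l
  have h := adj_ip hC ⟨ξ, hξ, .of_compactSpace _, fun y => Wz78.pg_of_mem (hg y)⟩
    (tst _ (sm_rs l hb) (.of_compactSpace _))
  rw [D.F.ip_comm, D.F.ip_comm 0 ξ] at h
  refine Eq.trans ?_ (h.symm.trans ?_)
  · exact integral_congr_ae (.of_forall fun y => congrArg (⟪·, ξ y⟫_ℝ) (adj_slc hD hβ l (sm_rs l hb) (y, 0)))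
  · exact integral_congr_ae (.of_forall fun y => congrArg (⟪rs β l (b y), ·⟫_ℝ)
      (dg_slc hD hβ l hξ hg (y, 0)).symm)

theorem poi_sO (hI : Irr D β) (hl : l ≠ 0) : ∃ c : ℝ, ∀ ξ : Sec I3 (sO D β l).p,
    D.F.nrm 0 ξ.1 ≤ c * D.F.nrm 0 ((sO D β l).app D.F ξ.1) := by
  obtain ⟨C, hC⟩ := good_sO hD hβ l
  obtain ⟨c, c0, h⟩ := Hm83.poiY hD hβ hI hl
  refine ⟨√c, fun ξ => ?_⟩
  have hg : ∀ y, ξ.1 y ∈ β.m.gS y := fun y => ξ.2.2.2 y ▸ Wz78.pg_mem y _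
  rw [nrm_eq, nrm_eq, ← sqrt_mul c0]
  refine sqrt_le_sqrt (h ξ.1 (fun y => ‖(sO D β l).app D.F ξ.1 y‖ ^ 2) ξ.2.1
    ((sm_app hC ξ.2.1).continuous.norm.pow 2) hg fun y => ?_)
  rw [← dg_slc hD hβ l ξ.2.1 hg (y, 0)]
  exact (add_le_add (Hm83.sum_sl (sm_fst ξ.2.1) (y, 0)) le_rfl).trans_eq
    (Hm83.sq_dg (c := cy β) (y, 0)).symm

theorem lap2 (hI : Irr D β) (hl : l ≠ 0) {b : Y → Cv (cy β)} (hb : Sm I3 b) :
    ∃ ξ : Y → β.m.A, Sm I3 ξ ∧ (∀ y, ξ y ∈ β.m.gS y) ∧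
      sig D.B D.Z (cy β) l (fun x => b x.1 + dg D.Z (cy β) 1 (fun z => ξ z.1) x) = 0 := by
  rcases isEmpty_or_nonempty Y with _ | ⟨⟨y₀⟩⟩
  · exact ⟨0, contMDiff_const, fun y => isEmptyElim y, funext fun x => isEmptyElim x⟩
  obtain ⟨C, hF⟩ := Cht98.exists_tame D.F (Hm83.dimY hD y₀)
  obtain ⟨C', hC⟩ := good_sO hD hβ l
  obtain ⟨C'', hA⟩ := good_adj hF hC
  obtain ⟨c, hc⟩ := poi_sO hD hβ l hI hl
  obtain ⟨d, -, h⟩ := Hm83.llw D.F C C' hF _ _ (sO D β l) hC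
    (cliff_slc ((bs_cyl hD hβ).cliff_dO l)) c hc
  obtain ⟨K, -, h⟩ := h 0 0
  have hw := sm_rs l hb
  have hf := (sm_app hA hw).neg
  obtain ⟨ξ, h1, h2, h3, -⟩ := h _ ⟨hf, fun k => FL_of_hcs k hf (.of_compactSpace _)⟩ fun y => by
    rw [map_neg]; exact congrArg _ (q_app hA _ y)
  have hg : ∀ y, ξ y ∈ β.m.gS y := fun y => h2 y ▸ Wz78.pg_mem y _
  refine ⟨ξ, h1.sm, hg, funext fun x => ?_⟩
  have e : (fun x : Y × ℝ => rs β l (b x.1 + dg D.Z (cy β) 1 (fun z => ξ z.1) x)) =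
      fun x => ((fun y => rs β l (b y)) + (sO D β l).app D.F ξ) x.1 := funext fun x => by
    rw [rs_add, rs_dg, dg_slc hD hβ l h1.sm hg]; rfl
  refine (congrArg (fun w => ((dO D.B D.Z (cy β) l).adj D.Z).app D.Z w x) e).trans ?_
  refine (adj_slc hD hβ l (hw.add (sm_app hC h1.sm)) x).trans ?_
  rw [app_add hw (sm_app hC h1.sm), h3]
  exact add_neg_cancel _

omit hD hβ

/-- **KP-LAP** (the text of `Cyf70.LapStmt`) -/
theorem lap : ∀ (D : YD I3 Y κ lam) (β : YC Y κ lam), D.OK → D.Adm β → ∀ l : ℝ,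
  (∀ (b : Y → Cv (cy β)) (ξ : Y → β.m.A), Sm I3 b → Tg D.B (cy β) (fun x => b x.1) → Sm I3 ξ →
    (∀ y, ξ y ∈ β.m.gS y) →
    ∫ y, ⟪sig D.B D.Z (cy β) l (fun x => b x.1) (y, 0), ξ y⟫_ℝ ∂D.F.μ =
      ∫ y, ⟪i1 _ _ (fa (b y)) + i2 _ _ (l • fp (b y)),
        dg D.Z (cy β) l (fun x => ξ x.1) (y, 0)⟫_ℝ ∂D.F.μ) ∧
  (Irr D β → l ≠ 0 → ∀ b : Y → Cv (cy β), Sm I3 b → Tg D.B (cy β) (fun x => b x.1) →
    ∃ ξ : Y → β.m.A, Sm I3 ξ ∧ (∀ y, ξ y ∈ β.m.gS y) ∧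
      sig D.B D.Z (cy β) l (fun x => b x.1 + dg D.Z (cy β) 1 (fun z => ξ z.1) x) = 0) :=
  fun _ _ hD hβ l => ⟨fun _ _ hb _ hξ hg => lap1 hD hβ l hb hξ hg,
    fun hI hl _ hb _ => lap2 hD hβ l hI hl hb⟩

end Crest.Agent.X212.St29.Lap
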