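import Crest.Agent.X212.St29.SbE
import Crest.Agent.X212.Fin37.Nk

/-!
# Row 212, SB (helper29): the level of a cut-off, up to the windows on the necks
-/

set_option autoImplicit false
set_option linter.unusedSectionVars false
noncomputable section
open scoped Manifold ContDiff Topology InnerProductSpace Classical
open MeasureTheory Set Function Filter

namespace Crest.Agent.X212.St29.Sb
open An Wz78 Sob92 Mp86
open Dgr80 (LB Ts)

variable {E : Type} [NormedAddCommGroup E] [NormedSpace ℝ E] [FiniteDimensional ℝ E]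
  [MeasurableSpace E] [BorelSpace E]
  {HM : Type} [TopologicalSpace HM] {I : ModelWithCorners ℝ E HM} [I.Boundaryless]
  {M : Type} [TopologicalSpace M] [ChartedSpace HM M] [IsManifold I ∞ M]
  [MeasurableSpace M] [T2Space M] [BorelSpace M] {ι : Type} [Fintype ι]
  {lam : Type} [Fintype lam] {r n : ℕ} {B : Base M ι lam}
  {G : Geo I M ι lam} {c : Cfg M ι lam r} {τ : Pt M ι lam r n} {K N e v : ℝ}

/-- a cut-off with small support -/
theorem Chi.lb {F : Fr I M ι} {φ : M → ℝ} (h : Chi F N φ) (N1 : 1 ≤ N) {L : Set M} (hL : F.μ L ≠ ⊤)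
    (hv : F.μ.real L ≤ v) (h0 : ∀ x ∉ L, φ x = 0) :
    LB F.μ (fun x => (φ x * φ x) ^ 2) (4 * N * v) ∧
      LB F.μ (fun x => ∑ i, F.D i (fun x => φ x * φ x) x ^ 2) (4 * N * v) := by
  have k := h.mul h
  have m := fun x => (h.sm x).mdifferentiableAt (by simp)
  have z : ∀ x ∉ toMeasurable F.μ L, φ x = 0 := fun x hx => h0 x fun e => hx (subset_toMeasurable _ _ e)
  have l := fun {f : M → ℝ} (c : Continuous f) => Fin37.lb_supp (f := f) (C := 4 * N) (k := v)
    (measurableSet_toMeasurable F.μ L) (by rwa [measure_toMeasurable])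
    (by rwa [measureReal_def, measure_toMeasurable]) c.aestronglyMeasurable
  have c := fun a => (F.sm_D k.sm a).continuous
  refine ⟨l (k.sm.continuous.pow 2) (fun _ => sq_nonneg _) (by linarith) (fun x =>
    ((sq_le_one_iff_abs_le_one _).2 (k.le x)).trans (by linarith)) fun x hx => by simp [z x hx],
    l (by fun_prop) (fun _ => by positivity) (by linarith) k.d1 fun x hx =>
      Finset.sum_eq_zero fun i _ => ?_⟩
  have e : F.D i (fun x => φ x * φ x) x = F.D i φ x * φ x + φ x * F.D i φ x :=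
    Mp86.dv_mul (v := F.e i) (m x) (m x)
  simp [e, z x hx]

/-- **the level of `f` up to the windows `a i`** -/
theorem part (hB : B.OK I) (hG : G.OK B) (h : c.Sol B G τ) (k : Nm G c τ K) (K1 : 1 ≤ K)
    (ik : Integrable (c.m.kd B G.F c.W) G.F.μ) {J : Type} [Fintype J] (T : Finset J)
    {a b : J → M → ℝ} {S : J → Set M} {f ψ : M → ℝ} {L C : Set M} (N1 : 1 ≤ N)
    (hS : Pairwise fun i j => Disjoint (S i) (S j)) (ca : ∀ i, Continuous (a i))
    (a0 : ∀ i x, a i x ∈ Icc (0 : ℝ) 1) (aS : ∀ i x, x ∉ S i → a i x = 0)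
    (af : ∀ i ∈ T, ∀ x, a i x ≠ 0 → f x = 1) (hb : ∀ i, Chi G.F N (b i)) (b0 : ∀ i x, 0 ≤ b i x)
    (ba : ∀ i x, b i x ≠ 0 → a i x = 1) (cf : Continuous f) (f0 : ∀ x, f x ∈ Icc (0 : ℝ) 1)
    (hψ : Chi G.F N ψ) (fψ : ∀ x, f x ≠ 0 → ψ x = 1 ∧ ‖c.Φ x‖ ^ 2 ≤ e) (hC : IsCompact C)
    (hL : G.F.μ L ≠ ⊤) (hv : G.F.μ.real L ≤ v)
    (sup : ∀ x, ψ x ≠ 0 → (∀ i ∈ T, b i x ≠ 1) → x ∈ C ∧ x ∈ L) :
    -((64 * e ^ 2 + 10 * K) * (4 * (4 * (4 ^ T.card * N)) * v)) ≤ 64 * Real.pi ^ 2 *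
      (∫ x, f x * c.m.kd B G.F c.W x ∂G.F.μ - ∑ i ∈ T, ∫ x, a i x * c.m.kd B G.F c.W x ∂G.F.μ) := by
  have p1 : (1 : ℝ) ≤ 4 ^ T.card := one_le_pow₀ (by norm_num)
  have N2 : N ≤ 4 ^ T.card * N := le_mul_of_one_le_left (by linarith) p1
  have hφ := (hψ.mono N2).mul (Chi.prod T (by linarith) fun i => (hb i).one_sub (b0 i))
  have z : ∀ x, ¬(x ∈ C ∧ x ∈ L) → ψ x * ∏ i ∈ T, (1 - b i x) = 0 := fun x hx => by_contra fun u =>
    hx (sup x (left_ne_zero_of_mul u) fun i hi e => right_ne_zero_of_mul u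
      (Finset.prod_eq_zero hi (by rw [e, sub_self])))
  obtain ⟨l0, l1⟩ := hφ.lb (by linarith) hL hv fun x hx => z x fun u => hx u.2
  have s0 : ∀ x, 0 ≤ ∑ i ∈ T, a i x := fun x => Finset.sum_nonneg fun i _ => (a0 i x).1
  have s1 : ∀ x, ∑ i ∈ T, a i x ≤ f x := fun x => by
    by_cases u : ∃ i ∈ T, a i x ≠ 0
    · obtain ⟨i, hi, u⟩ := u
      exact ((Finset.sum_le_univ_sum_of_nonneg fun i => (a0 i x).1).trans (Fin37.sum_le_one hS
        (fun i => aS i x) fun i => (a0 i x).2)).trans_eq (af i hi x u).symm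
    · push Not at u
      exact (Finset.sum_eq_zero u).trans_le (f0 x).1
  have i1 : ∀ {g : M → ℝ}, Continuous g → (∀ x, g x ∈ Icc (0 : ℝ) 1) →
      Integrable (fun x => g x * c.m.kd B G.F c.W x) G.F.μ := fun h1 h2 =>
    ik.bdd_mul (c := 1) h1.aestronglyMeasurable
      (.of_forall fun x => (Real.norm_of_nonneg (h2 x).1).trans_le (h2 x).2)
  refine (kd_loc (η := fun x => f x - ∑ i ∈ T, a i x) hB hG h k K1 ik (by fun_prop)
    (fun x => sub_nonneg.2 (s1 x)) (fun x => by linarith [(f0 x).2, s0 x])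
    ⟨hφ.sm.mul hφ.sm, .intro hC fun x hx => by simp [z x fun u => hx u.1], subset_univ _⟩ l0 l1
    fun x hx => ?_).2.trans_eq ?_
  · have u : f x ≠ 0 := fun u => hx (by linarith [s0 x, s1 x])
    refine ⟨?_, (fψ x u).2⟩
    rw [Pi.mul_apply, (fψ x u).1, Finset.prod_eq_one fun i hi => ?_]
    · simp
    · refine sub_eq_self.2 (by_contra fun w => hx ?_)
      linarith [s1 x, (f0 x).2, ba i x w, Finset.single_le_sum (fun i _ => (a0 i x).1) hi]
  · rw [← integral_finsetSum _ fun i _ => i1 (ca i) (a0 i),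
      ← integral_sub (i1 cf f0) (integrable_finsetSum _ fun i _ => i1 (ca i) (a0 i))]
    simp only [sub_mul, Finset.sum_mul]

end Crest.Agent.X212.St29.Sb
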