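import Crest.Agent.X212.St29.SbF
import Crest.Agent.X212.St29.SbH
import Crest.Agent.X212.Sb67.Ar

/-!
# Row 212, SB (helper29): AN for one job
-/

set_option autoImplicit false
set_option linter.unusedSectionVars false
noncomputable section
open scoped Manifold ContDiff Topology InnerProductSpace Classical
open MeasureTheory Set Function Filter

namespace Crest.Agent.X212.St29.Sb
open An M Nd18 Nka63
open An.Job (Sol)
open Loc8 (hb)
open Cht98 (hZ)
open Fin37 (Ix nk core th Pm)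
open Dgr80 (LB θc cA)

/-- the whole interval or a window -/
def Wk (p q : Option ℝ) (h : Prop) (p' q' : Option ℝ) : Prop :=
  p' = p ∧ q' = q ∨ h ∧ ∃ u v, p' = some u ∧ q' = some v ∧ Dgr80.Sb p q u v

theorem Wk.sub {p q p' q' : Option ℝ} {h : Prop} (w : Wk p q h p' q') (d : ℝ) :
    Dq p' q' d ⊆ Dq p q d := by
  rcases w with ⟨rfl, rfl⟩ | ⟨-, u, v, rfl, rfl, w⟩
  exacts [subset_rfl, fun _ k => mem_Dq.2 ⟨fun a ha => by linarith [w.1 a ha, (mem_Dq.1 k).1 u rfl],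
    fun a ha => by linarith [w.2 a ha, (mem_Dq.1 k).2 v rfl]⟩]

theorem rf_Dq {e : Bool} {L d k r : ℝ} :
    r ∈ Dq (some (bif e then 0 else d - 2)) (some (bif e then L - d + 2 else L)) k ↔
      d - 2 + k < rf e L r ∧ rf e L r < L - k := by
  cases e <;> simp only [mem_Dq, rf, Option.mem_def, Option.some.injEq, forall_eq', cond_true,
    cond_false]
  exact ⟨fun h => ⟨by linarith [h.2], by linarith [h.1]⟩, fun h => ⟨by linarith [h.2], by linarith [h.1]⟩⟩

variable {κ lam : Type} [Fintype κ] [Fintype lam] [DecidableEq lam]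
  {X : Mf 4} {A : Type} [Fintype A] {M : Mark X A κ}
  {Wi : Type} {W : World M} {N : ML M lam} {Λ : Lns W N} {A' h : Type} [Fintype A']
  [DecidableEq A'] [Fintype h] {r n : ℕ} {J : Job Wi Λ A' h r n} {c : M.Cl} {s : A' → ℝ}
  {a : A} {x : Bool → A} {U : Set (W.Z c).M} {d : Bool → ℝ}

theorem τ_mem {i : Ix J c s} {k : Prop} {p q : Option ℝ} (w : Wk (nk J i).p (nk J i).q k p q) {d : ℝ}
    (hd : 1 ≤ d) {z : (W.Z c).M} (hz : (nk J i).τ z ∈ Dq p q d) : z ∈ O (nk J i) 1 :=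
  by_contra fun u => (ct_pos (w.sub 1 (Dq_mono hd hz))).ne' (cut_τ_zero _ le_rfl u)

/-- **the windows** -/
theorem exists_win (hx : ∀ e, Act J.m c (x e) none (J.Θ s)) (hJ : J.OK) (p : Pm J c s)
    (P : Ps W.toCaps c a x) (hU : IsClopen U) (hd : ∀ e, 10 ≤ d e ∧ d e + 11 ≤ nl ((J.Θ s).2 (x e)))
    (i : Ix J c s) : ∃ u v, Wk (nk J i).p (nk J i).q (i.1.1 ≠ a) u v ∧
    (¬Disjoint (nk J i).ψ.target (U ∩ Rs W.toCaps c a x) → (nk J i).ψ.target ⊆ U ∧
      (∀ z ∈ O (nk J i) 2, ∃ e, 2 ≤ dp J c s (x e) e z) ∧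
      (∀ z ∈ (nk J i).ψ.target, (nk J i).tm z ∈ Dq u v 3 → ∃ e, d e + 1 ≤ dp J c s (x e) e z) ∧
      (∀ z ∈ (nk J i).ψ.target, ∀ e, d e - 1 < dp J c s (x e) e z → (nk J i).tm z ∈ Jv u v) ∧
      ∀ z ∈ O (nk J i) (5 + ∑ e, nl ((J.Θ s).2 (x e))), (nk J i).tm z ∈ Dq u v 5) := by
  have := J.conn_xs i.1.1
  have hu := fun hi : ¬Disjoint (nk J i).ψ.target (U ∩ Rs W.toCaps c a x) =>
    (Eqv71.nk_dich (nk J i) hU).resolve_right fun k => hi (disjoint_left.2 fun z hz hz' => k hz'.1 hz)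
  have s0 : ∀ e, nl ((J.Θ s).2 (x e)) ≤ ∑ e, nl ((J.Θ s).2 (x e)) := fun e =>
    Finset.single_le_sum (f := fun e => nl ((J.Θ s).2 (x e))) (fun e _ => by linarith [hd e])
      (Finset.mem_univ e)
  by_cases sp : ∃ e, i = ix (hx e)
  · obtain ⟨e, rfl⟩ := sp
    have t := fun {z} => dp_tm (e := e) (z := z) (hx e) hJ
    refine ⟨_, _, .inr ⟨P.ne e, bif e then 0 else d e - 2, bif e then nl ((J.Θ s).2 (x e)) - d e + 2
      else nl ((J.Θ s).2 (x e)), rfl, rfl, ?_⟩, fun hi => ⟨hu hi, fun z hz => ⟨e,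
        ((mem_O (hx e) hJ zero_le_two).1 hz).1.le⟩, fun z hz k => ⟨e, ?_⟩, fun z hz e' k => ?_,
      fun z hz => ?_⟩⟩
    · rw [Dgr80.Sb, ix_p (hx e) hJ, ix_q (hx e) hJ]
      cases e <;> simp <;> linarith [hd true, hd false]
    · linarith [(rf_Dq.1 k).1, t hz]
    · have m := (mem_tgt (e := e) (hx e) hJ).1 hz
      have m1 := (dp_pos (hx e)).1 m.1
      have m2 := (dp_pos (hx e')).1 (show 0 < dp J c s (x e') e' z by linarith [hd e'])
      obtain rfl : e = e' := by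
        cases e <;> cases e'
        exacts [rfl, (P.dis z m2 m1).elim, (P.dis z m1 m2).elim, rfl]
      exact Dq_zero.subset (rf_Dq.2 ⟨by linarith [t hz], by linarith [t hz, m.2]⟩)
    · have := (mem_O (e := e) (hx e) hJ (by linarith [s0 e, hd e])).1 hz
      linarith [this.1, this.2, s0 e, hd e]
  · refine ⟨_, _, .inl ⟨rfl, rfl⟩, fun hi => ?_⟩
    obtain ⟨z₀, h0, -, -, e, h1⟩ := not_disjoint_iff.1 hi
    have k : ∀ z ∈ (nk J i).ψ.target, 0 < dp J c s (x e) e z →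
        nl ((J.Θ s).2 (x e)) ≤ dp J c s (x e) e z := fun z hz u => not_lt.1 fun u' =>
      disjoint_left.1 (Pat85.dj hJ c s p fun w => sp ⟨e, w⟩) hz ((mem_tgt (hx e) hJ).2 ⟨u, u'⟩)
    have k' : ∀ z ∈ (nk J i).ψ.target, nl ((J.Θ s).2 (x e)) ≤ dp J c s (x e) e z := fun z hz =>
      k z hz (not_le.1 fun u => by
        obtain ⟨w, hw, w1⟩ := (Eqv71.preconn_nk (nk J i)).intermediate_value hz h0
          (sm_dp (e := e) (hx e)).continuous.continuousOn (show (1 : ℝ) ∈ Icc _ _ from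
            ⟨by linarith, by linarith [k z₀ h0 ((dp_pos (hx e)).2 h1), hd e]⟩)
        linarith [k w hw (by linarith), hd e])
    exact ⟨hu hi, fun z hz => ⟨e, by linarith [k' z (O_sub _ zero_le_two hz), hd e]⟩,
      fun z hz _ => ⟨e, by linarith [k' z hz, hd e]⟩, fun z hz _ _ => (nk J i).tgt.le hz,
      fun z hz => O_mono _ (by linarith [s0 e, hd e]) hz⟩

/-- the constant -/
def cH (v K C u : ℝ) : ℝ := (64 * u ^ 2 + 10 * K) * (4 * (4 * (4 ^ ⌈v⌉₊ * (4 * nA))) * (11 * v)) /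
  (64 * Real.pi ^ 2) + C * u ^ 2 * v

/-- **head and tail have bounded negative level** -/
theorem ht {σ q} {y : J.Obc c} {v K C u : ℝ} (hJ : J.OK) (hσ : σ ∈ J.𝒦)
    (S : Sol σ q y) (P : Ps W.toCaps c a x) (g : Ge J c y.s (Rs W.toCaps c a x) v)
    (nm : Nm (J.G c y.s) y.x (J.τ c q y.s) K) (K1 : 1 ≤ K) (C0 : 0 ≤ C) (nl' : Nl a C y) (u1 : 1 ≤ u)
    (hx : ∀ e, Act J.m c (x e) none (J.Θ y.s))
    (hd : ∀ e, 10 ≤ d e ∧ d e + 11 ≤ nl ((J.Θ y.s).2 (x e)))
    (hΦ : ∀ z e, 0 < hZ W.toCaps c a z → 2 ≤ dp J c y.s (x e) e z → ‖y.x.Φ z‖ ^ 2 ≤ u)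
    (hU : IsClopen U) (U0 : ∀ z ∈ U, 0 < hZ W.toCaps c a z) :
    -cH v K C u ≤ ∫ z, Y2 J c y.s x U (fun e => d e + 1) z * y.kd z ∂(J.G c y.s).F.μ := by
  have p : Pm J c y.s := ⟨σ, hσ, S.cell, S.inf⟩
  have hG := (p.ok hJ).1
  choose a₁ a₂ w hw using exists_win hx hJ p P hU hd
  set T := Finset.univ.filter fun i : Ix J c y.s =>
    ¬Disjoint (nk J i).ψ.target (U ∩ Rs W.toCaps c a x) with hT
  replace hw := fun i (hi : i ∈ T) => hw i (Finset.mem_filter.1 hi).2
  have y0 := fun i : Ix J c y.s => vY_nonneg (J.xs i.1.1).D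
  have sT : ∑ i ∈ T, (1 + vY (J.xs i.1.1).D) ≤ v := (Finset.sum_le_sum_of_subset_of_nonneg
    (Finset.monotone_filter_right _ fun i _ k k' => k (k'.mono_right inter_subset_right))
    fun i _ _ => by linarith [y0 i]).trans g.nk
  have v0 : 0 ≤ v := measureReal_nonneg.trans g.vol
  have cT : T.card ≤ ⌈v⌉₊ := (Nat.cast_le (α := ℝ)).1 (by
    have := Finset.sum_nonneg (s := T) fun i _ => y0 i
    rw [Finset.sum_add_distrib, Finset.sum_const, nsmul_one] at sT
    linarith [Nat.le_ceil v])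
  have n1 : 1 ≤ nA := by have := Dgr80.one_le_cA; unfold nA; nlinarith
  have m : ∀ i : Ix J c y.s, (J.G c y.s).F.μ ((nk J i).tm ⁻¹' (Jv (a₁ i) (a₂ i) \ Dq (a₁ i) (a₂ i) 5)) =
      _ := fun i => measure_slab (nk J i) (isOpen_Jv.measurableSet.diff isOpen_Dq.measurableSet)
        (sdiff_subset.trans (Dq_zero.superset.trans (((w i).sub 0).trans Dq_zero.subset)))
  have vc := fun i : Ix J c y.s => Fin37.vol_collar (a₁ i) (a₂ i) (d := 5) (by norm_num)
  have k := part (Λ.B_ok _ _) hG S.sol nm K1 S.int T (N := 4 * nA) (e := u) (v := 11 * v)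
    (a := fun i z => ct (a₁ i) (a₂ i) 3 ((nk J i).τ z)) (b := fun i z => ct (a₁ i) (a₂ i) 4 ((nk J i).τ z))
    (f := Y2 J c y.s x U fun e => d e + 1) (ψ := Y2 J c y.s x U d)
    (L := Rs W.toCaps c a x ∩ core J c y.s 0 ∪
      ⋃ i ∈ T, (nk J i).tm ⁻¹' (Jv (a₁ i) (a₂ i) \ Dq (a₁ i) (a₂ i) 5))
    (by linarith) (Pat85.dj hJ c _ p) (fun i => (sm_time _ contDiff_ct).continuous) (fun _ _ => ct_mem)
    (fun i z hz => ct_zero' fun k => hz (O_sub _ zero_le_one (τ_mem (w i) (by norm_num) k)))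
    (fun i hi z hz => ?_) (fun i => (chi_ct (nk J i).sm_τ fun z k _ => arc_prd (pn (nk J i)
      (hJ.xs _).1.yd (Λ.B_ok _ _) hG le_rfl).toPrd (τ_mem (w i) (by norm_num) k)).mono (by linarith))
    (fun _ _ => ct_mem.1) (fun i z hz => ct_one (Dq_sub_Dp (by_contra fun k => hz (ct_zero'
      (by norm_num at k; exact k)))))
    (chi_Y2 hx hJ p hU fun e => ⟨by linarith [hd e], by linarith [hd e]⟩).sm.continuous
    (fun _ => Y2_mem) (chi_Y2 hx hJ p hU fun e => ⟨by linarith [hd e], by linarith [hd e]⟩)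
    (fun z hz => ?_) (Pat85.cpt hJ c _ p (5 + ∑ e, nl ((J.Θ y.s).2 (x e))))
    (measure_union_ne_top (measure_ne_top_of_subset inter_subset_right
      (Pat85.cpt hJ c _ p 0).measure_ne_top) (measure_biUnion_lt_top T.finite_toSet fun i _ =>
        (m i).trans_lt (ENNReal.mul_lt_top (measure_lt_top _ _)
          ((vc i).trans_lt ENNReal.ofReal_lt_top))).ne)
    ((measureReal_union_le _ _).trans ?_) fun z hz hb => ?_
  · have k1 : ∑ i ∈ T, -(C * u ^ 2 * (1 + vY (J.xs i.1.1).D)) ≤ ∑ i ∈ T,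
        ∫ z, ct (a₁ i) (a₂ i) 3 ((nk J i).τ z) * y.kd z ∂(J.G c y.s).F.μ :=
      Finset.sum_le_sum fun i hi => by
        have l := nl' i u u1 fun z hz => ((hw i hi).2.1 z hz).elim fun e =>
          hΦ z e (U0 z ((hw i hi).1 (O_sub _ zero_le_two hz)))
        rcases w i with ⟨e1, e2⟩ | ⟨ne, _, _, e1, e2, k⟩ <;> rw [e1, e2]
        exacts [l.1, l.2 ne _ _ k]
    rw [Finset.sum_neg_distrib, ← Finset.mul_sum] at k1
    have k2 := mul_le_mul_of_nonneg_left sT (by positivity : 0 ≤ C * u ^ 2)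
    have k3 := (div_le_iff₀' (by positivity)).2 ((neg_le_neg (show _ ≤ (64 * u ^ 2 + 10 * K) *
      (4 * (4 * (4 ^ ⌈v⌉₊ * (4 * nA))) * (11 * v)) by gcongr; norm_num)).trans k)
    rw [neg_div] at k3
    unfold cH
    linarith
  · have k : (nk J i).τ z ∈ Dq (a₁ i) (a₂ i) 3 := by_contra fun k => hz (ct_zero' k)
    have o := τ_mem (w i) (by norm_num) k
    have t := O_sub _ zero_le_one o
    obtain ⟨e, he⟩ := (hw i hi).2.2.1 z t (τ_eq _ o ▸ k)
    exact Y2_one ((hw i hi).1 t) he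
  · obtain ⟨k, e, he⟩ := Y2_ne hz
    exact ⟨Y2_one (e := e) k (by linarith), hΦ z e (U0 z k) (by linarith [hd e])⟩
  · have := (measureReal_biUnion_finset_le (μ := (J.G c y.s).F.μ) T _).trans (Finset.sum_le_sum
      (g := fun i => 10 * (1 + vY (J.xs i.1.1).D)) fun i _ => by
        rw [measureReal_def, m, ENNReal.toReal_mul, mul_comm]
        exact mul_le_mul (ENNReal.toReal_le_of_le_ofReal (by norm_num) ((vc i).trans_eq (by norm_num)))
          (le_add_of_nonneg_left zero_le_one) (y0 i) (by norm_num))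
    rw [← Finset.mul_sum] at this
    linarith [g.vol]
  · obtain ⟨k, e, he⟩ := Y2_ne hz
    have R : z ∈ Rs W.toCaps c a x := ⟨U0 z k, e, (dp_pos (hx e)).1 (by linarith [hd e])⟩
    have hi : ∀ i : Ix J c y.s, z ∈ (nk J i).ψ.target → i ∈ T ∧ (nk J i).tm z ∉ Dq (a₁ i) (a₂ i) 5 :=
      fun i t => have hi : i ∈ T := Finset.mem_filter.2 ⟨Finset.mem_univ _,
          not_disjoint_iff.2 ⟨z, t, k, R⟩⟩
        ⟨hi, fun k => hb i hi (ct_one (Dq_sub_Dp (by
          rw [τ_eq _ ((w i).sub 1 (Dq_mono (by norm_num) k))]; norm_num; exact k)))⟩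
    refine ⟨fun i o => ?_, by_contra fun u => u (.inl ⟨R, fun i o => u (.inr ?_)⟩)⟩
    · have t := O_sub _ (add_nonneg (by norm_num) (Finset.sum_nonneg fun e _ => by linarith [hd e])) o
      exact (hi i t).2 ((hw i (hi i t).1).2.2.2.2 z o)
    · have t := O_sub _ le_rfl o
      exact mem_biUnion (hi i t).1 ⟨(hw i (hi i t).1).2.2.2.1 z t e he, (hi i t).2⟩

variable (κ lam) in
/-- **AN for one job** -/
theorem anJ : AnJ κ lam := fun v K C K1 C0 => by
  set u := max 1 (kL v K (4 * nA)) with hu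
  refine ⟨max (cH v K C u) (2 * (192 * u ^ 2 * v + 44)), cA,
    fun X A _ M Wi W N Λ A' h _ _ _ r n J c σ q y a x hJ hσ S P g hb nm nl' w => ?_⟩
  choose hx s s0 s1 _ hw using w
  have hΦ : ∀ z e, 0 < hZ W.toCaps c a z → 2 ≤ dp J c y.s (x e) e z → ‖y.x.Φ z‖ ^ 2 ≤ u :=
    fun z e h0 h2 => (c0_two hJ hσ S P g hb nm K1 hx (fun e => by linarith [s0 e, s1 e]) h0 h2).trans
      (le_max_right _ _)
  have pos : ∀ e, ∀ z ∈ (nk J (ix (hx e))).ψ.target, 0 < hZ W.toCaps c a z := fun e z hz =>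
    P.pos e z (Cht98.isNk_sub (hx e) (hJ.nk _ _ _ _ (hx e)) hz)
  set d : Bool → ℝ := fun e => bif e then nl ((J.Θ y.s).2 (x e)) - s e - 1 else s e with hd
  refine ⟨⟨fun e r => dn (d e + 1) (rf e (nl ((J.Θ y.s).2 (x e))) r), s, fun e => s e + 1⟩,
    ⟨fun e => by linarith [s0 e], fun e => by linarith [s1 e], fun e => ?_, fun e r hr => ?_,
      fun e r hr => ?_, fun _ _ => ct_mem, fun e r => ?_⟩, le_max_of_le_right ?_, fun U hU U0 =>
    (neg_le_neg (le_max_left _ _)).trans ((ht (d := d) hJ hσ S P g nm K1 C0 nl' (le_max_left _ _) hx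
      (fun e => ?_) hΦ hU U0).trans_eq ?_)⟩
  · cases e
    exacts [contDiff_ct, contDiff_ct.comp (contDiff_const.sub contDiff_id)]
  · cases e
    exacts [dn_one (by simpa [hd, rf] using hr), dn_zero (by
      simp only [hd, rf, cond_true] at hr ⊢; linarith)]
  · cases e
    exacts [dn_zero (by simpa [hd, rf] using hr), dn_one (by simp only [hd, rf, cond_true]; linarith)]
  · cases e
    exacts [Dgr80.dct_le, by simpa [rf, deriv_comp_const_sub] using Dgr80.dct_le]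
  · have l : ∀ e, LB ((J.G c y.s).F.μ.restrict (Sb84.ar W.toCaps c ((J.Θ y.s).2 (x e)) (x e) ⁻¹'
        Icc (s e) (s e + 1))) (fun z => ‖y.x.m.Fg (J.G c y.s).F y.x.W z‖ ^ 2)
        (192 * u ^ 2 * v + 44) := fun e => by
      have := J.conn_xs (x e)
      have t := O_sub _ le_rfl (ψ_mem_O (nk J (ix (hx e))) (z := (Classical.arbitrary _, 1)) le_rfl (by
        rw [ix_p (hx e) hJ, ix_q (hx e) hJ, mem_Dq]; simp; linarith [s0 e, s1 e]))
      have R : ¬Disjoint (nk J (ix (hx e))).ψ.target (Rs W.toCaps c a x) := not_disjoint_iff.2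
        ⟨_, t, pos e _ t, e, (dp_pos (hx e)).1 ((mem_tgt (hx e) hJ).1 t).1⟩
      have := le_trans (Finset.single_le_sum (f := fun i : Ix J c y.s => 1 + vY (J.xs i.1.1).D)
        (fun i _ => add_nonneg zero_le_one (vY_nonneg _)) (Finset.mem_filter.2
          ⟨Finset.mem_univ (ix (hx e)), R⟩)) g.nk
      rw [show Sb84.ar W.toCaps c _ _ ⁻¹' _ = _ from
        Sb67.ar_eq hJ (hx e) (by linarith [s0 e]) (by linarith [s1 e])]
      exact (hw e u fun z hz => hΦ z e (pos e z (O_sub _ zero_le_two hz))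
        ((mem_O (hx e) hJ zero_le_two).1 hz).1.le).le (by gcongr; linarith)
    have a := (l true).1.add_measure (l false).1
    refine (integral_mono_measure ((Measure.restrict_mono_set _ (iUnion_subset fun b => by
      cases b; exacts [subset_union_right, subset_union_left])).trans (Measure.restrict_union_le _ _))
      (.of_forall fun _ => sq_nonneg _) a).trans ?_
    rw [integral_add_measure (l true).1 (l false).1]
    linarith [(l true).2, (l false).2]
  · cases e <;> simp only [hd, cond_true, cond_false] <;> constructor <;>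
      linarith [s0 true, s1 true, s0 false, s1 false]
  · rw [← integral_indicator hU.2.measurableSet]
    exact congrArg _ (funext fun z => (indicator_mul_left _ _ _).symm)

end Crest.Agent.X212.St29.Sb
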