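import Crest.Agent.X212.Tl47.Defs
import Crest.Agent.X212.Clr59.Ys

/-!
# Row 212, P-TAIL, TL-IDF and TL-IDM (helper29): harmonic deformations of flat limits
-/

set_option autoImplicit false
set_option linter.unusedSectionVars false
noncomputable section
open scoped Manifold ContDiff Topology InnerProductSpace
open MeasureTheory Set Function Filter

namespace Crest.Agent.X212.St29.Id
open An An.Pre Sob92 Wz78 Nd18 Cyf70 Rdc90 Rf65 Clr59

variable {E3 : Type} [NormedAddCommGroup E3] [NormedSpace ℝ E3] [FiniteDimensional ℝ E3]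
  [MeasurableSpace E3] [BorelSpace E3]
  {H3 : Type} [TopologicalSpace H3] {I3 : ModelWithCorners ℝ E3 H3} [I3.Boundaryless]
  {Y : Type} [TopologicalSpace Y] [ChartedSpace H3 Y] [IsManifold I3 ∞ Y] [T2Space Y]
  [MeasurableSpace Y] [BorelSpace Y] [SecondCountableTopology Y] [CompactSpace Y]
  {κ : Type} [Fintype κ] {lam : Type} [Fintype lam]

section gen
variable {V : Type} [NormedAddCommGroup V] [InnerProductSpace ℝ V] [FiniteDimensional ℝ V]
  {F : Fr I3 Y κ} {A : κ → Y → V →L[ℝ] V} {ν : κ → Y → ℝ} {r : ℝ}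

theorem div_nu (S : Psc F (fun _ : Fin 1 => ν) r) (hR : Riem F) (f : Y → ℝ) (hf : Sm I3 f) (y : Y) :
    dvg I3 F.e F.dv (fun k y => ν k y * f y) y = ∑ k, ν k y * dv I3 (F.e k) f y := by
  have h := (lc_gam F).div_sum (frm F) (hR.hg (lc_gam F) y) (T := fun k => ν k y) fun k => S.P 0 k y
  have e : ∀ k, dv I3 (F.e k) (ν k) y = ∑ l, F.Gam k k l y • ν l y := fun k => S.par 0 k k y
  simp only [dvg, dv_mul (S.sm 0 _ y) (hf y), Finset.sum_add_distrib, ← Finset.sum_mul, e, ← mul_assoc,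
    smul_eq_mul]
  simp only [smul_eq_mul] at h
  rw [h]; ring

/-- a small parallel twist kills the sections it makes parallel -/
theorem key (S : Psc F (fun _ : Fin 1 => ν) r) (hR : Riem F) (hn : Module.finrank ℝ E3 ≤ 4)
    (hA : ∀ a, Sm I3 (A a)) (hs : ∀ a x, Skew (A a x)) : ∃ δ > 0, ∀ (T : Y → V →L[ℝ] V) (ζ : Y → V),
      Sm I3 T → (∀ k y, nabE I3 F.e A k T y = 0) → (∀ k y, ‖ν k y • T y‖ ≤ δ) → Sm I3 ζ →
      (∀ k y, nab I3 F.e A k ζ y = -(ν k y • T y) (ζ y)) → ∀ y, T y (ζ y) = 0 := by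
  obtain ⟨c, hc, hp⟩ := poincare F hn hA hs
  set n : ℝ := Fintype.card κ + 1
  have n0 : 0 < n := by positivity
  refine ⟨√(1 / (2 * c * n)), by positivity, fun T ζ hT pT bT hζ pζ => ?_⟩
  set g : Y → V := fun y => T y (ζ y)
  have sg : Sm I3 g := fun y => SA.app (hT y) (hζ y)
  have ng : ∀ k y, nab I3 F.e A k g y = -(ν k y • T y) (g y) := fun k y => by
    rw [nab_app' k (hT y) (hζ y), pT, pζ]; simp [g]
  have h1 := hp g sg fun η hη pη => by
    have sf : Sm I3 fun y => ⟪ζ y, η y⟫_ℝ := fun y => SA.inner (hζ y) (hη y)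
    have := integral_dvg (F := F) (f := fun k y => ν k y * ⟪ζ y, η y⟫_ℝ) (fun k y => SA.mul (S.sm 0 k y) (sf y))
      fun _ => .of_compactSpace _
    rw [← neg_eq_zero, ← integral_neg, ← this]
    refine integral_congr_ae (.of_forall fun y => ?_)
    simp only [div_nu S hR _ sf, dv_inner _ (hs _ y) (hζ y) (hη y), pη, pζ, inner_zero_right, add_zero,
      smul_apply, inner_neg_left, real_inner_smul_left, mul_neg, ← mul_assoc,
      Finset.sum_neg_distrib, ← Finset.sum_mul, S.ort 0 0 y, if_true, one_mul, g]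
  have cg : Continuous fun y => ‖g y‖ ^ 2 := sg.continuous.norm.pow 2
  have ig : Integrable (fun y => ‖g y‖ ^ 2) F.μ := cg.integrable_of_hasCompactSupport (.of_compactSpace _)
  have h2 : ∫ y, ∑ k, ‖nab I3 F.e A k g y‖ ^ 2 ∂F.μ ≤ ∫ y, 1 / (2 * c) * ‖g y‖ ^ 2 ∂F.μ :=
    integral_mono_of_nonneg (.of_forall fun _ => by positivity) (ig.const_mul _) (.of_forall fun y => by
      have b : ∀ k, ‖nab I3 F.e A k g y‖ ^ 2 ≤ 1 / (2 * c * n) * ‖g y‖ ^ 2 := fun k => by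
        rw [ng, norm_neg, ← Real.sq_sqrt (show 0 ≤ 1 / (2 * c * n) by positivity), ← mul_pow]
        exact pow_le_pow_left₀ (norm_nonneg _) (((ν k y • T y).le_opNorm _).trans
          (mul_le_mul_of_nonneg_right (bT k y) (norm_nonneg _))) 2
      refine (Finset.sum_le_card_nsmul _ _ _ fun k _ => b k).trans ?_
      rw [nsmul_eq_mul, Finset.card_univ, ← mul_assoc]
      refine mul_le_mul_of_nonneg_right ?_ (sq_nonneg _)
      rw [mul_one_div, div_le_div_iff₀ (by positivity) (by positivity)]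
      simp only [n]; nlinarith)
  rw [integral_const_mul] at h2
  have h3 : c * (1 / (2 * c) * ∫ y, ‖g y‖ ^ 2 ∂F.μ) = 1 / 2 * ∫ y, ‖g y‖ ^ 2 ∂F.μ := by field_simp
  have h0 : 0 ≤ ∫ y, ‖g y‖ ^ 2 ∂F.μ := integral_nonneg fun _ => sq_nonneg _
  have := openPos F.toPre
  have e := (cg.ae_eq_iff_eq F.μ continuous_zero).1 ((integral_eq_zero_iff_of_nonneg (fun _ => sq_nonneg _) ig).1
    (le_antisymm (by linarith [mul_le_mul_of_nonneg_left h2 hc.le]) h0))
  exact fun y => norm_eq_zero.1 (pow_eq_zero_iff two_ne_zero |>.1 (congrFun e y))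

end gen

variable {D : YD I3 Y κ lam} {β : YC Y κ lam} {ξ ζ : Y → β.m.A} {ν : κ → Y → ℝ} {r : ℝ}

theorem nab_bh (a : κ → Y → β.m.A) (k : κ) (y : Y) : nab I3 D.F.e (A0 (bh β a 0)) k ζ y =
    nab I3 D.F.e (A0 β) k ζ y + adc (opL (a k y)) (ζ y) := by
  have : A0 (bh β a 0) k y = A0 β k y + adc (opL (a k y)) := adcL.map_add _ _
  exact (congrArg (fun T : En (Fin β.m.N × Fin β.m.N) => dv I3 (D.F.e k) ζ y + T (ζ y)) this).trans
    (add_assoc _ _ _).symm

theorem par_bh (p : ParY D β ξ) (s : ℝ) : ParY D (bh β (tY ν (s • ξ)) 0) ξ :=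
  ⟨p.sm, p.mem, fun k y => (nab_bh _ k y).trans (show _ = (0 : β.m.A) by
    rw [p.par, adc_apply, tY_apply]; simp)⟩

theorem bh_bh (a a' : κ → Y → β.m.A) : bh (bh β a 0) a' 0 = bh β (a + a') 0 := by
  obtain ⟨m, W, Φ, z⟩ := β
  simp only [bh, vr, Cfg.mk.injEq, heq_eq_eq, true_and, and_true, Pi.zero_apply, add_zero]
  refine ⟨funext₂ fun o y => ?_, funext fun _ => add_zero _⟩
  cases o <;> simp [Md.addC, add_assoc] <;> first | exact map_zero _ | rfl

theorem har0 {ν : Fin 0 → κ → Y → ℝ} (S : Psc D.F ν r) (b : Bs D β) {η} (hh : Har D β η) : η = 0 := by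
  obtain ⟨f, hf, e⟩ := Rd78.en_eq (Rd78.riem_Y b.ok) (Rd78.con_A0 b.adm) (Rd78.skew_A0 b.adm) hh.sm hh.P hh.ed
    hh.dv fun a c x => Rd78.curv_A0 b.ok b.adm b.flat a c x (hh.mem c x)
  have := openPos D.F.toPre
  have c := (sm_dvg (F := D.F) hf).continuous.neg
  have e0 : ∀ x, 0 ≤ -dvg I3 D.F.e D.F.dv f x := fun x => e x ▸ S.en_nonneg (fun b => hh.sm b x) (hh.P · x)
  have e1 := (c.ae_eq_iff_eq D.F.μ continuous_zero).1 ((integral_eq_zero_iff_of_nonneg e0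
    (c.integrable_of_hasCompactSupport (.of_compactSpace _))).1 (by
      rw [integral_neg, integral_dvg hf fun _ => .of_compactSpace _, neg_zero]))
  exact funext₂ fun k y => (S.of_en (fun b => hh.sm b y) (hh.P · y) ((e y).trans (congrFun e1 y)).le).1 k

theorem psc1 {ν : Fin 1 → κ → Y → ℝ} (S : Psc D.F ν r) : Psc D.F (fun _ : Fin 1 => ν 0) r :=
  (funext fun i => congrArg ν (Subsingleton.elim i 0) : ν = fun _ => ν 0) ▸ S

variable [ConnectedSpace Y]

variable (D β) in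
/-- evaluation of parallel sections -/
def ev (y : Y) : parS D β →ₗ[ℝ] β.m.A := ⟨⟨fun ξ => ξ.1 y, fun _ _ => rfl⟩, fun _ _ => rfl⟩

theorem ev_inj (b : Bs D β) (y : Y) : Injective (ev D β y) :=
  (injective_iff_map_eq_zero _).2 fun ξ e => Subtype.ext (funext fun y' =>
    norm_eq_zero.1 ((Clr59.norm_par b.ok b.adm ξ.2 y' y).trans (norm_eq_zero.2 e)))

theorem g3 (b : Bs D β) (y : Y) : Module.finrank ℝ (β.m.gS y) = 3 := by
  have := Std94.finrank_g b.ok.B (Std94.pmx b.adm.adm.ok (y, 0))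
  exact this

theorem ev_sur (b : Bs D β) (h : dz D β = 3) (y : Y) {v} (hv : v ∈ β.m.gS y) : ∃ ζ, ParY D β ζ ∧ ζ y = v := by
  have e : (ev D β y).range = β.m.gS y := Submodule.eq_of_le_of_finrank_eq
    (by rintro _ ⟨ξ, rfl⟩; exact ξ.2.mem y)
    (by rw [LinearMap.finrank_range_of_inj (ev_inj b y), ← dz_def, h, g3 b])
  obtain ⟨ζ, e⟩ := e.ge hv
  exact ⟨ζ, ζ.2, e⟩

theorem ev_sur' {a : κ → Y → β.m.A} (b : Bs D (bh β a 0)) (h : dz D (bh β a 0) = 3) (y : Y) {v : β.m.A}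
    (hv : v ∈ β.m.gS y) : ∃ ζ : Y → β.m.A, ParY D (bh β a 0) ζ ∧ ζ y = v :=
  ev_sur b h y ⟨hv.1, hv.2.1, hv.2.2.1, hv.2.2.2.1, hv.2.2.2.2⟩

theorem dz0 (b : Bs D β) (h : dz D β = 0) (p : ParY D β ξ) : ξ = 0 :=
  have := Module.Finite.of_injective _ (ev_inj b (Classical.arbitrary Y))
  congrArg Subtype.val ((finrank_zero_iff_forall_zero.1 (dz_def.symm.trans h)) (⟨ξ, p⟩ : parS D β))

theorem dz1 (h : dz D β = 1) (p : ParY D β ξ) (n : ξ ≠ 0) (q : ParY D β ζ) : ∃ s : ℝ, s • ξ = ζ :=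
  ((finrank_eq_one_iff_of_nonzero' (⟨ξ, p⟩ : parS D β) fun e => n (congrArg Subtype.val e)).1
    (dz_def.symm.trans h) ⟨ζ, q⟩).imp fun _ => congrArg Subtype.val

theorem cen (b : Bs D β) {y : Y} {x : β.m.A} (hx : x ∈ β.m.gS y) (h : ∀ v ∈ β.m.gS y, adc (opL x) v = 0) :
    x = 0 := by
  by_contra n
  have k : β.m.gS y ≤ .span ℝ {x} := fun v hv => by
    have e := Std94.adc_adc b.ok.B (Std94.pmx b.adm.adm.ok (y, 0)) hx hv
    have e' : (1 / 4 : ℝ) • (⟪x, v⟫_ℝ • x - ‖x‖ ^ 2 • v) = 0 :=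
      e.symm.trans ((congrArg (adc (opL x)) (h v hv)).trans (map_zero _))
    rw [smul_eq_zero, sub_eq_zero] at e'
    exact (Submodule.smul_mem_iff _ (pow_ne_zero 2 (norm_ne_zero_iff.2 n))).1
      (e'.resolve_left (by norm_num) ▸ Submodule.smul_mem _ _ (Submodule.mem_span_singleton_self _))
  have := Submodule.finrank_mono k
  rw [g3 b, finrank_span_singleton n] at this
  omega

theorem nab_L (p : ParY D β ξ) (k : κ) (y : Y) : nabE I3 D.F.e (A0 β) k (fun y => adc (opL (ξ y))) y = 0 := by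
  have := nab_map (I := I3) (e := D.F.e) (A := A0 β) (A' := fun a y => ad _ (A0 β a y)) (adcL.comp opL) k
    (by rw [ad_apply, ContinuousLinearMap.comp_apply, ContinuousLinearMap.comp_apply, adcL_apply, adcL_apply,
      A0, opL_adc, adc_lie]) (p.sm y)
  rw [p.par, map_zero] at this
  exact this

theorem small (S : Psc D.F (fun _ : Fin 1 => ν) r) (B : Bs D β) : ∃ ε > 0, ∀ ξ, ParY D β ξ →
    (∀ k y, ‖tY ν ξ k y‖ ≤ ε) → ∀ ζ, ParY D (bh β (tY ν ξ) 0) ζ → ∀ y, adc (opL (ξ y)) (ζ y) = 0 := by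
  obtain ⟨δ, d0, hδ⟩ := key S (Rd78.riem_Y B.ok) (B.dim.trans_le (by norm_num)) (Rd78.con_A0 B.adm).sm
    (Rd78.skew_A0 B.adm)
  let L : CL β.m.A (En (Fin β.m.N × Fin β.m.N)) := adcL.comp opL
  have e : ∀ (ξ : Y → β.m.A) k y, ν k y • adc (opL (ξ y)) = L (tY ν ξ k y) := fun ξ k y =>
    (L.map_smul _ _).symm
  refine ⟨δ / (‖L‖ + 1), by positivity, fun ξ p bd ζ q => hδ _ ζ (fun y => SA.clm L (p.sm y)) (nab_L p)
    (fun k y => ?_) q.sm fun k y => ?_⟩
  · rw [e]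
    refine (L.le_opNorm _).trans ((mul_le_mul_of_nonneg_left (bd k y) (norm_nonneg _)).trans ?_)
    rw [mul_div_assoc', div_le_iff₀ (by positivity)]
    nlinarith
  · rw [e, eq_neg_iff_add_eq_zero]
    exact (nab_bh _ k y).symm.trans (q.par k y)

variable (D)

/-- **TL-IDF** -/
theorem idF : Tl47.IdF D := by
  intro b ⟨b1, _, ν, r, S⟩ β B
  obtain rfl | rfl : b = 0 ∨ b = 1 := by omega
  · exact ⟨1, one_pos, fun h hh _ _ => har0 S B hh⟩
  have S := psc1 S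
  obtain ⟨ε, e0, H⟩ := small S B
  refine ⟨ε, e0, fun h hh bd hz => ?_⟩
  have B' := bs_bh S B hh
  obtain ⟨ξ, p, rfl⟩ := (har_iff S B).1 hh
  have p' := par_bh (ν := ν 0) p 1
  rw [one_smul] at p'
  suffices ξ = 0 by rw [this, map_zero]
  rcases hz with hz | hz | hz
  · exact (dz0 B' hz p' :)
  · refine funext fun y => cen B (p.mem y) fun v hv => ?_
    obtain ⟨ζ, q, rfl⟩ := ev_sur' B' hz y hv
    exact H ξ p bd ζ q y
  · omega

/-- **TL-IDM** -/
theorem idM : Tl47.IdM D := by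
  intro ⟨_, _, ν, r, S⟩ β h l₀ B hh h0 hz ε e0
  have S := psc1 S
  obtain ⟨k, y, n⟩ : ∃ k y, h k y ≠ 0 := by
    by_contra! k
    exact h0 (funext₂ k)
  obtain ⟨ξ, p, rfl⟩ := (har_iff S B).1 hh
  have B' := bs_tw S B p l₀
  have p' := par_bh (ν := ν 0) p l₀
  rw [map_smul] at p'
  refine ⟨ε * ‖tY (ν 0) ξ k y‖, by positivity, fun h' hh' bd => ?_⟩
  obtain ⟨ξ', q, rfl⟩ := (har_iff S B').1 hh'
  obtain ⟨s, rfl⟩ := dz1 hz p' (fun e => h0 (by rw [show ξ = 0 from e, map_zero])) q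
  have e' : tY (ν 0) (s • ξ) = s • tY (ν 0) ξ := map_smul _ _ _
  refine ⟨l₀ + s, ?_, (bh_bh _ _).trans (congrArg (bh β · 0) (by rw [add_smul]; exact congrArg _ e'))⟩
  have : ‖s • tY (ν 0) ξ k y‖ ≤ _ := (congrArg (‖· k y‖) e').symm.trans_le (bd k y)
  rw [norm_smul] at this
  rw [add_sub_cancel_left]
  exact le_of_mul_le_mul_right this (norm_pos_iff.2 n)

end Crest.Agent.X212.St29.Id
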