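import Crest.Agent.X212.Wal14.Defs
import Crest.Agent.X212.Cay24.GlB
import Crest.Agent.X212.Clr59.Ys
import Crest.Agent.X212.Gb50.Geo

/-!
# Row 212, WALL (helper29): the rows at a wall are admissible data
-/

set_option autoImplicit false
set_option linter.unusedSectionVars false
noncomputable section
open scoped Manifold ContDiff Topology InnerProductSpace
open MeasureTheory Set Function Filter Real

namespace Crest.Agent.X212.St29.Rw
open An An.Job M Sob92 Cyf70 Nd18 Gj67 Cay24 Wz78 Wal14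
open Rdc90 (Bs Har bh A0)
open Rf65 (Psc ParY kk cν kk_t)
open Gl67 (ka ka_deriv cd_ka)
open Map77 (Cf fa i1)
open Iz83 (bm bm_cd bm_zero hcs_bm)
open Nk89 (drZ)

section cyl
variable {E3 : Type} [NormedAddCommGroup E3] [NormedSpace ℝ E3] [FiniteDimensional ℝ E3]
  [MeasurableSpace E3] [BorelSpace E3]
  {H3 : Type} [TopologicalSpace H3] {I3 : ModelWithCorners ℝ E3 H3} [I3.Boundaryless]
  {Y : Type} [TopologicalSpace Y] [ChartedSpace H3 Y] [IsManifold I3 ∞ Y] [T2Space Y]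
  [MeasurableSpace Y] [BorelSpace Y] [SecondCountableTopology Y] [CompactSpace Y]
  {κ : Type} [Fintype κ] {lam : Type} [Fintype lam] {D : YD I3 Y κ lam} {β : YC Y κ lam}
  {V : Type} [Fintype V] [DecidableEq V] {ν : V → κ → Y → ℝ} {ξ : Y → β.m.A} {ρ : ℝ}

/-- the forms `∑ u i ν i ⊗ ξ` -/
def fV {F : Type} [NormedAddCommGroup F] [NormedSpace ℝ F] (ν : V → κ → Y → ℝ) (ξ : Y → F)
    (u : V → ℝ) (k : κ) (y : Y) : F := ∑ i, ν i k y • u i • ξ y

theorem crit_bs {N : ND Y lam} (hN : Ink3.Nil N) (H : Bs D β) : N.Crit D β := by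
  have z : (cy β).Φ = 0 := funext fun x => H.zr x.1
  refine hN.crit.2 ⟨⟨H.adm.adm, fun x => ?_, fun x => ?_, fun i => i.elim0⟩, H.adm.tmp⟩
  · simp [Cfg.eD, z, Ink3.pz, dir, nab, Pi.zero_def]
  · rw [Cfg.eC, show (cy β).m.Fg D.G.F (cy β).W x = 0 from H.flat x, z]
    simp [Md.mu, Md.q, Ink3.pz, rk1, ← Pi.zero_def]

variable (S : Psc D.F ν ρ) (H : Bs D β) (p : ParY D β ξ)
include S p

theorem sm_eV (i : V) : Sm I3 fun y => fa (kk ν (some i) ξ (y, 0)) := fun y => SA.toLp fun o => by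
  cases o
  exacts [((contMDiff_const : Sm I3 fun _ : Y => (0 : ℝ)).smul p.sm) y, ((S.sm i _).smul p.sm) y]

include H

theorem har_fV (u : V → ℝ) : Har D β (fV ν ξ u) := by
  have q := fun i => (Clr59.parS D β).smul_mem (u i) p
  have P : ∀ k y, ∑ l, D.F.P k l y • fV ν ξ u l y = fV ν ξ u k y := fun k y => by
    simp only [fV, Finset.smul_sum, ← mul_smul]
    rw [Finset.sum_comm]
    simp only [← Finset.sum_smul, ← mul_assoc, ← Finset.sum_mul, S.P]
  have c : ∀ j k y, cov I3 D.F.e D.F.Gam (A0 β) (fV ν ξ u) j k y = 0 := fun j k y =>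
    (S.cov_sum (A := A0 β) (ξ := fun i => u i • ξ) (fun i => (q i).sm y) j k).trans
      (Finset.sum_eq_zero fun i _ => by rw [(q i).par, smul_zero])
  exact ⟨⟨fun k => contMDiff_finsetSum fun i _ => (S.sm i k).smul (q i).sm,
    fun k y => sum_mem fun i _ => (β.m.gS y).smul_mem _ ((q i).mem y), P⟩,
    fun j k y => by rw [Rd78.ed_cov (P · y), c, c, sub_zero],
    fun y => by simp only [Rd78.dv1_cov (Rd78.riem_Y H.ok) (P · y), c, Finset.sum_const_zero]⟩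

theorem bs_fV [Subsingleton V] (u : V → ℝ) : Bs D (bh β (fV ν ξ u) 0) :=
  have h := har_fV S H p u
  ⟨H.ok, H.dim, Rd78.adm_bh H.adm h.toFo ⟨contMDiff_const, fun _ => map_zero _⟩,
    fun y => (add_zero _).trans (H.zr y), Rd78.flt_bh H.ok H.adm H.flat 0 h.toFo fun j k y => by
      rw [Rdc90.By, h.ed, Rd78.hc _ _ _ _ D β H _ _ _ S _ h, add_zero]⟩

end cyl

variable {Wi : Type} {X : Mf 4} {A κ lam : Type} [Fintype A] [Fintype κ] [Fintype lam]
  [DecidableEq lam] {M : Mark X A κ} {W : World M} {L : ML M lam} {Λ : Lns W L}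
  {A' h : Type} [Fintype A'] [DecidableEq A'] [Fintype h] {r n : ℕ}
  {J : Job Wi Λ A' h r n} {σ : Cel A'} {a : A'} {q₀ : Wi →₀ ℝ} {δ η : ℝ}
  {V : Type} [Fintype V] [DecidableEq V] {d : DV J σ a V} {ν : V → κ → d.Y → ℝ}
  {ξ : d.Y → HS (Fin d.N)}

theorem bV_eq (u : V → ℝ) (y : d.Y) :
    bV d ν ξ y u = WithLp.toLp 2 fun o => o.elim 0 fun k => fV ν ξ u k y :=
  PiLp.ext fun o => by cases o <;> simp [bV, Rf65.fa_kk, cν, fV, smul_comm (u _)]

theorem D_gS (i : Option κ) (z : (W.Z (J.cf a)).M) : (J.G _ d.y.s).F.D i (gS d δ η) z =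
    (J.G _ d.y.s).F.D i (d.KS false).τ z • (η - δ) • smoothTransition ((d.KS false).τ z + -(d.R0 - 1)) +
    (J.G _ d.y.s).F.D i (d.KS true).τ z • (η + δ) • smoothTransition (-(d.R0 - 1) - (d.KS true).τ z) := by
  have c1 : ContDiff ℝ ∞ fun u => (η - δ) * ka (u - (d.R0 - 1)) :=
    contDiff_const.mul (cd_ka.comp (contDiff_id.sub contDiff_const))
  have c2 : ContDiff ℝ ∞ fun u => -((η + δ) * ka (-u - (d.R0 - 1))) :=
    (contDiff_const.mul (cd_ka.comp (contDiff_neg.sub contDiff_const))).neg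
  have e := congrFun (Pre.D_add (F := (J.G _ d.y.s).F.toPre) (sm_comp c1 (d.KS false).sm_τ)
    (sm_comp c2 (d.KS true).sm_τ) i) z
  have d1 : ∀ t, deriv (fun u => (η - δ) * ka (u - (d.R0 - 1))) t = _ := fun t =>
    (((ka_deriv _).comp t ((hasDerivAt_id t).sub_const _)).const_mul _).deriv
  have d2 : ∀ t, deriv (fun u => -((η + δ) * ka (-u - (d.R0 - 1)))) t = _ := fun t =>
    ((((ka_deriv _).comp t ((hasDerivAt_neg t).sub_const _)).const_mul _).neg).deriv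
  rw [Nka63.D_time (d.KS false).sm_τ c1, Nka63.D_time (d.KS true).sm_τ c2, Pi.add_apply, d1, d2] at e
  refine (congrArg (fun f => (J.G _ d.y.s).F.D i f z) (funext fun w => sub_eq_add_neg _ _)).trans
    (e.trans ?_)
  simp only [smul_eq_mul, id, sub_eq_add_neg, add_comm (-(d.KS true).τ z)]
  ring

theorem cb_gS (i : Option κ) : (J.G _ d.y.s).F.Cb ((J.G _ d.y.s).F.D i (gS d δ η)) :=
  have b := bd_st.choose_spec
  funext (D_gS (d := d) i) ▸ Cb_add (Cb_smul ((d.KS false).cd_τ.2 i) (Cb_smul (Cb_const _)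
    (Nka63.cb_time _ (b.shift _).1 (b.shift _).2))) (Cb_smul ((d.KS true).cd_τ.2 i)
      (Cb_smul (Cb_const _) (Nka63.cb_time _ (b.refl _).1 (b.refl _).2)))

section ok
variable (H : d.OK q₀ δ) {e : Bool} {z : d.Y × ℝ}
include H

theorem dp_of {t : ℝ} (hz : t ≤ -pm e * z.2) : z.2 ∈ Dp (d.KS e).p (d.KS e).q t := by
  have k := H.ok.nk _ _ _ _ (d.hb e)
  rw [k.lo, k.hi]
  cases e <;> simpa [Dp, pm, le_neg] using hz

variable (R : 2 ≤ d.R0) (hz : d.R0 < -pm e * z.2)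
include R hz

theorem off : (d.KS e).ψ z ∉ (d.KS !e).ψ.target := fun k => by
  have t := (d.KS e).ψ.map_source (src_of H hz)
  cases e
  exacts [KS_dj H.ok t k, KS_dj H.ok k t]

theorem sum_ext {F : Type} [NormedAddCommGroup F] [NormedSpace ℝ F] (b : d.Y → F) :
    ∑ e', (d.KS e').ext b ((d.KS e).ψ z) = b z.1 := by
  have k := (d.KS e).ext_ψ b (src_of H hz)
  have k' := (d.KS !e).ext_zero b fun k => off H R hz ((d.KS !e).dp_sub one_pos k)
  rw [Nk.cut, ct_one (dp_of H (by linarith)), one_smul] at k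
  rw [Fintype.sum_bool, ← k]
  cases e
  exacts [(congrArg (· + _) k').trans (zero_add _), (congrArg (_ + ·) k').trans (add_zero _)]

theorem lit_gS : (J.G _ d.y.s).F.D none (gS d δ η) ((d.KS e).ψ z) = η + pm e * δ := by
  have t := (d.KS e).tm_ψ z (src_of H hz)
  have k1 : (J.G _ d.y.s).F.D none (d.KS e).τ ((d.KS e).ψ z) = 1 := by
    rw [Nk.D_τ_none]
    exact (congrArg _ t).trans (dtf_one one_lt_two (dp_of H (by linarith)))
  have k2 : (J.G _ d.y.s).F.D none (d.KS !e).τ ((d.KS e).ψ z) = 0 := by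
    rw [Nk.D_τ_none]
    exact Nka63.dtf_zero (d.KS !e).len fun k => off H R hz ((d.KS !e).dp_sub one_half_pos k)
  have k3 : (d.KS e).τ ((d.KS e).ψ z) = z.2 := by
    rw [Nk.τ, t, tf_eq (dp_of H (by linarith))]
  rw [D_gS]
  cases e <;> simp only [Bool.not_false, Bool.not_true, pm, if_true, Bool.false_eq_true, if_false]
    at k1 k2 k3 hz ⊢ <;> rw [k1, k2, k3]
  · rw [smoothTransition.one_of_one_le (by linarith)]; simp [sub_eq_add_neg]
  · rw [smoothTransition.one_of_one_le (x := -(d.R0 - 1) - z.2) (by linarith)]; simp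

end ok

theorem d_rho {e : Bool} {u : ℝ} (hu : 1 ≤ pm e * u) : deriv rho u = pm e := by
  rw [HasDerivAt.deriv (f := rho)
    (((ka_deriv u).add ((ka_deriv (-u)).comp u (hasDerivAt_neg u))).add_const (1 - ka 1))]
  cases e <;> simp only [pm, if_true, Bool.false_eq_true, if_false] at hu ⊢
  · rw [smoothTransition.zero_of_nonpos (by linarith), smoothTransition.one_of_one_le (by linarith)]
    simp
  · rw [smoothTransition.one_of_one_le (by linarith), smoothTransition.zero_of_nonpos (by linarith)]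
    simp

section pw
variable (P : Pw d δ ν ξ q₀)
include P

theorem se (i : V) : Sm (J.xs d.x).Y.I fun y => fa (kk ν (some i) ξ (y, 0)) :=
  sm_eV (β := d.β 0) P.psc.choose_spec P.par i

theorem sb : Sm (J.xs d.x).Y.I (bV d ν ξ) := contMDiff_finsetSum fun i _ =>
  (ContinuousLinearMap.smulRightL ℝ (V → ℝ) _ (ContinuousLinearMap.proj i)).contMDiff.comp (se P i)

theorem pb (z : d.Y × ℝ) (u : V → ℝ) :
    (cy (d.β 0)).m.p1 d.D.B z (bV d ν ξ z.1 u) = bV d ν ξ z.1 u := by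
  rw [bV_eq]
  exact (Rd78.sv_up (har_fV (β := d.β 0) P.psc.choose_spec P.bs P.par u).toFo (φ := 0)
    ⟨contMDiff_const, fun _ => map_zero _⟩).p1 z

variable (d ν ξ) in
/-- the moving limit on the face -/
def bS (z : (W.Z (J.cf a)).M) : CL (V → ℝ) (Fm (Option κ) (HS (Fin d.N))) :=
  d.S.md.p1 d.FS.B z ∘L ∑ e, (d.KS e).ext (bV d ν ξ) z

theorem cb : d.FS.F0.Cb (bS d ν ξ) := by
  have c : d.FS.F0.Cb d.S.P1 := Map77.cb_P1 (d.S.o P.ok.okS) P.ok.okS.fam
  unfold Gl67.Sid.P1 at c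
  rw [Gl67.Sid.Pg, P.ok.okS.om.1, indicator_univ] at c
  exact Cb_comp c (Cb_sum _ fun e _ => (d.KS e).cb_ext (sb P))

theorem lb : d.Lit (bS d ν ξ) fun z => bV d ν ξ z.1 := fun e y s u k _ => by
  have H := P.ok
  have : d.S.md.p1 d.FS.B ((d.KS e).ψ (y, s)) = (cy (d.β 0)).m.p1 d.D.B (y, s) := congrArg₂ idx
    (funext₂ fun i j => (d.KS e).P i j _ (src_of H k))
    (pg_congr (lit_ψ H.lp k) (fun i => lit_ψ (H.lρ i) k) (lit_ψ H.lj k))
  rw [bS, sum_ext H (by linarith [P.R6]) k, this]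
  exact ContinuousLinearMap.ext (pb P (y, s))

omit P in
theorem z0 {y : d.Y × ℝ} (k : bm y.2 = 0) :
    (ContinuousLinearMap.pi fun i => bm y.2 • innerSL ℝ (kk ν (some i) ξ y)) = 0 := by
  simp [k, ContinuousLinearMap.pi_zero]

theorem sm_mo : Sm (IC (J.xs d.x).Y.I) fun z : d.Y × ℝ =>
    ContinuousLinearMap.pi fun i => bm z.2 • innerSL ℝ (kk ν (some i) ξ z) := by
  have e : (fun z : d.Y × ℝ => ContinuousLinearMap.pi fun i => bm z.2 • innerSL ℝ (kk ν (some i) ξ z)) =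
      fun z => ∑ i, bm z.2 • ContinuousLinearMap.single ℝ (fun _ => ℝ) i ∘L
        innerSL ℝ (i1 _ _ (fa (kk ν (some i) ξ (z.1, 0)))) := funext fun z =>
    ContinuousLinearMap.ext fun w => funext fun j => by
      simp [Finset.sum_apply, Pi.single_apply, kk_t z.1 0 z.2]; exact .inl rfl
  exact e ▸ contMDiff_finsetSum fun i _ => (sm_snd bm_cd).smul (contMDiff_const.clm_comp
    (Dec35.sm_clm (innerSL ℝ) (Dec35.sm_clm (i1 _ (Eu (Fin d.N))) (sm_fst (se P i)))))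

variable {b : (W.Z (J.cf a)).M → CL (V → ℝ) (Fm (Option κ) (HS (Fin d.N)))}
  {d₀ : Option κ → (W.Z (J.cf a)).M → ℝ}

theorem ld (i : Option κ) (hd : d.Lit (d₀ i) (drZ κ d.Y (-2 * δ) i)) :
    d.Lit (fun z => d₀ i z + (J.G _ d.y.s).F.D i (gS d δ η) z) (drP κ d.Y η δ i) :=
  fun e y s u k k' => by
    beta_reduce
    rw [hd e y s u k k']
    cases i
    · rw [lit_gS P.ok (by linarith [P.R6]) k]
      simp only [drZ, drP, Option.elim_none, d_rho k']
      ring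
    · simp [D_gS, Nk.D_τ_some, drZ, drP]

theorem pS (x : (W.Z (J.cf a)).M) (u : V → ℝ) :
    d.S.md.p1 d.FS.B x (bS d ν ξ x u) = bS d ν ξ x u :=
  Wz78.p1_p1 (m := d.S.md) P.ok.okS.fam.B ((∑ e, (d.KS e).ext (bV d ν ξ) x) u)

omit P in
theorem cd {f : (W.Z (J.cf a)).M → ℝ} (hf : d.FS.F0.Cb f) (i : Option κ) :
    d.FS.F0.Cb fun z => f z + (J.G _ d.y.s).F.D i (gS d δ η) z := Cb_add hf (cb_gS i)

omit P in
theorem cZ (i : Option κ) : d.D.Z.Cb (drP κ d.Y η δ i) := by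
  cases i
  exacts [Cb_sub (Cb_const η) (Cb_smul (Cb_const δ) (Dec35.cb_snd (D := d.D) Gb50.sm_drho)),
    Cb_const 0]

theorem cr (u : V → ℝ) : (J.xs d.x).N.Crit d.D ⟨(d.β 0).m, fun i y => d.AZ i y + opL (bV d ν ξ y u i),
    d.ΦZ, 0⟩ :=
  have := P.sub
  (congrArg ((J.xs d.x).N.Crit d.D) (congrArg₂ (fun W Φ => (⟨(d.β 0).m, W, Φ, 0⟩ : YC _ _ _))
    (funext₂ fun i y => by
      show d.AZ i y + opL (bV d ν ξ y u i) = d.AZ i y + opL (d.bZ y 0 i) + _
      rw [bV_eq, map_zero, PiLp.zero_apply, map_zero, add_zero]; rfl)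
    (funext fun y => (add_zero _).symm))).mpr
    (crit_bs P.nil.1 (bs_fV (β := d.β 0) P.psc.choose_spec P.bs P.par u))

end pw

section upd
variable {U Up R : Type} [NormedAddCommGroup U] [NormedSpace ℝ U] [NormedAddCommGroup Up]
  [NormedSpace ℝ Up] [NormedAddCommGroup R] [NormedSpace ℝ R] (d : Dat J σ a U Up R)
  (bS : (W.Z (J.cf a)).M → CL U (Fm (Option κ) (HS (Fin d.N))))
  (dS : Option κ → (W.Z (J.cf a)).M → ℝ) (lz : CL (EuclideanSpace ℂ (Fin r)) R)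
  (bZ : d.Y → CL U (Fm (Option κ) (HS (Fin d.N)))) (dZ : Option κ → d.Y × ℝ → ℝ)
  (bp : d.Y × ℝ → ℝ) (mo : d.Y × ℝ → CL (Cf (Option κ) (Fin d.N)) Up)

/-- new rows -/
def upd : Dat J σ a U Up R :=
  { d with bS := bS, dS := dS, lo := 0, lz := lz, bZ := bZ, dZ := dZ, bp := bp, mo := mo }

variable {d bS dS bZ dZ bp mo}

theorem ok_upd (H : d.OK q₀ δ) (h1 : d.FS.F0.Cb bS)
    (h2 : ∀ x u, d.S.md.p1 d.FS.B x (bS x u) = bS x u) (h3 : d.Lit bS fun z => bZ z.1)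
    (h4 : Sm (J.xs d.x).Y.I bZ) (h5 : ∀ z u, (cy (d.β 0)).m.p1 d.D.B z (bZ z.1 u) = bZ z.1 u)
    (h6 : ∀ i, d.FS.F0.Cb (dS i) ∧ d.D.Z.Cb (dZ i) ∧ d.Lit (dS i) (dZ i))
    (hb : Sm (IC (J.xs d.x).Y.I) bp ∧ HasCompactSupport bp)
    (hm : Sm (IC (J.xs d.x).Y.I) mo ∧ HasCompactSupport mo)
    (h0 : ∀ z : d.Y × ℝ, 1 ≤ |z.2| → bp z = 0 ∧ mo z = 0)
    (cr : ∀ u, (J.xs d.x).N.Crit d.D ⟨(d.β 0).m, fun i y => d.AZ i y + opL (bZ y u i), d.ΦZ, 0⟩)
    (b0 : (bS = 0 ∧ bZ = 0) ∨ (∀ x, Ink3.Nil (J.xs x).N ∧ (J.xs x).ty = 0) ∧ d.ΦZ = 0) :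
    (upd d bS dS lz bZ dZ bp mo).OK q₀ δ :=
  { H with
    okS := { H.okS with cb := h1, pb := h2, cd := fun i => (h6 i).1, lo := ⟨contMDiff_const, .zero⟩ }
    okZ := fun τ => { H.okZ τ with
      cb := Nk89.cb_inv _ (sm_fst h4)
      pb := h5
      cd := fun i => (h6 i).2.1
      bp := hb
      mo := hm }
    lb := h3
    ld := fun i => (h6 i).2.2
    ll := fun _ _ _ _ _ _ => rfl
    bp := h0
    β := fun e => ⟨(H.β e).1.trans (congrArg (fun W => (⟨(d.β 0).m, W, d.ΦZ, 0⟩ : YC _ _ _))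
      (funext₂ fun i y => congrArg (fun v : Fm _ (HS (Fin d.N)) => d.AZ i y + opL (v i))
        ((map_zero (d.bZ y)).trans (map_zero (bZ y)).symm))), (H.β e).2⟩
    crit := .of_forall cr
    b0 := b0 }

end upd

variable (J) in
/-- **LEAF ROW** -/
theorem rowL : RowL J := fun σ a V _ _ d q₀ δ ν ξ P =>
  have z := fun f : CL (V → ℝ) (Fm (Option κ) (HS (Fin d.N))) => fun (k : IsEmpty V) => show f = 0 from
    ContinuousLinearMap.ext fun u => by rw [show u = 0 from funext k.elim]; exact map_zero f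
  ⟨_, cb P, lb P, fun η d₀ hd => ok_upd _ P.ok (cb P) (pS P) (lb P) (sb P) (pb P)
    (fun i => ⟨cd (hd i).1 i, cZ i, ld P i (hd i).2⟩) ⟨sm_snd bm_cd, hcs_bm fun _ k => k⟩
    ⟨sm_mo P, hcs_bm fun _ => z0⟩ (fun z hz => ⟨bm_zero.2 hz, z0 (bm_zero.2 hz)⟩) (cr P)
    (P.b0.imp (fun k => ⟨funext fun _ => z _ k, funext fun _ => z _ k⟩)
      fun k => ⟨k, funext P.bs.zr⟩)⟩

end Crest.Agent.X212.St29.Rw
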