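import Crest.Agent.X212.Fin37.Gen

/-!
# Row 212, SB (helper29): local `C⁰` bound and local lower bound of the level
-/

set_option autoImplicit false
set_option linter.unusedSectionVars false
noncomputable section
open scoped Manifold ContDiff Topology InnerProductSpace
open MeasureTheory Set Function Filter

namespace Crest.Agent.X212.St29.Sb
open An Wz78 Sob92 Mp86
open Dgr80 (LB Ts)

variable {E : Type} [NormedAddCommGroup E] [NormedSpace ℝ E] [FiniteDimensional ℝ E]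
  [MeasurableSpace E] [BorelSpace E]
  {HM : Type} [TopologicalSpace HM] {I : ModelWithCorners ℝ E HM} [I.Boundaryless]
  {M : Type} [TopologicalSpace M] [ChartedSpace HM M] [IsManifold I ∞ M]
  [MeasurableSpace M] [T2Space M] [BorelSpace M] {ι : Type} [Fintype ι]

/-- cut-off functions with two bounded derivatives -/
structure Chi (F : Fr I M ι) (N : ℝ) (χ : M → ℝ) : Prop where
  sm : Sm I χ
  le : ∀ x, |χ x| ≤ 1
  d1 : ∀ x, ∑ i, F.D i χ x ^ 2 ≤ N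
  d2 : ∀ x, |Lop I F.e F.dv χ x| ≤ N

section bar
variable {F : Fr I M ι} {N : ℝ} {χ : M → ℝ}

theorem Chi.mono (h : Chi F N χ) {N' : ℝ} (k : N ≤ N') : Chi F N' χ :=
  ⟨h.sm, h.le, fun x => (h.d1 x).trans k, fun x => (h.d2 x).trans k⟩

/-- the barrier -/
theorem Chi.bar (h : Chi F N χ) {A ε : ℝ} (hA : 0 < A) (hε : 0 < ε) :
    Sm I (fun y => A * (χ y ^ 2 + ε)⁻¹) ∧ ∀ x, Lop I F.e F.dv (fun y => A * (χ y ^ 2 + ε)⁻¹) x ≤
      8 * N * A * ((χ x ^ 2 + ε)⁻¹) ^ 2 := by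
  have p : ∀ t : ℝ, 0 < t ^ 2 + ε := fun t => by positivity
  have d0 : ∀ t : ℝ, HasDerivAt (fun t : ℝ => (t ^ 2 + ε)⁻¹) (-(2 * t) * ((t ^ 2 + ε)⁻¹) ^ 2) t :=
    fun t => by
      refine (((hasDerivAt_pow 2 t).add_const ε).inv (p t).ne').congr_deriv ?_
      simp [div_eq_mul_inv]
  refine ⟨contMDiff_const.mul (((h.sm.pow 2).add contMDiff_const).inv₀ fun x => (p _).ne'),
    fun x => ?_⟩
  rw [Lop_comp (g := fun t => A * (t ^ 2 + ε)⁻¹)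
    (g' := fun t => A * (-(2 * t) * ((t ^ 2 + ε)⁻¹) ^ 2)) (vf F.toPre x) (cm2 h.sm x)
    (.of_forall fun t => (d0 t).const_mul A)
    (((((hasDerivAt_id (χ x)).const_mul 2).neg).mul ((d0 (χ x)).pow 2)).const_mul A)]
  have u0 : 0 < (χ x ^ 2 + ε)⁻¹ := inv_pos.2 (p _)
  have u1 : χ x ^ 2 * (χ x ^ 2 + ε)⁻¹ ≤ 1 := by
    rw [← div_eq_mul_inv, div_le_one (p _)]; linarith
  have s1 : ∑ a, dv I (F.e a) χ x ^ 2 ≤ N := h.d1 x
  have s0 : 0 ≤ ∑ a, dv I (F.e a) χ x ^ 2 := by positivity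
  have b := abs_le.1 ((abs_mul (χ x) _).trans_le
    (mul_le_mul (h.le x) (h.d2 x) (abs_nonneg _) zero_le_one))
  simp only [id, Pi.neg_apply, Pi.pow_apply]
  generalize (χ x ^ 2 + ε)⁻¹ = u at *
  generalize ∑ a, dv I (F.e a) χ x ^ 2 = s at *
  have q : 0 ≤ A * u ^ 2 := by positivity
  have q1 := mul_le_mul_of_nonneg_left (mul_le_mul u1 s1 s0 zero_le_one) q
  have q2 := mul_le_mul_of_nonneg_left b.1 q
  have q3 := mul_le_mul_of_nonneg_left (s0.trans s1) q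
  have q4 := mul_nonneg q s0
  norm_num
  nlinarith

variable {V : Type} [NormedAddCommGroup V] [InnerProductSpace ℝ V] {A : ι → M → V →L[ℝ] V}
  {Φ : M → V} {σ β : ℝ} {g : M → ℝ}

/-- **local `C⁰` bound** -/
theorem c0_loc (hB : Bumps I F.e F.dv) (hA : Mc I A) (hΦ : Sm I Φ) (hσ : ∀ x, ‖Φ x‖ ^ 2 ≤ σ)
    (hg : Dom F β g) {c a r : ℝ} (hc : 0 < c) (ha : 0 ≤ a) (hr : 0 ≤ r) (hχ : Chi F N χ)
    (hN : 0 < N) (hW : ∀ x, χ x ≠ 0 → c * (‖Φ x‖ ^ 2) ^ 2 - a * ‖Φ x‖ ^ 2 - r -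
      gr2 I F.e A Φ x - g x ≤ -⟪lap I F.e F.dv A Φ x, Φ x⟫_ℝ) {x : M} (hx : χ x = 1) :
    ‖Φ x‖ ^ 2 ≤ (8 * N + 2 * a + 2 * r + β) / c + 1 + β := by
  obtain ⟨h, h1, h2⟩ := hg
  have β0 : 0 ≤ β := (h2 x).1.trans (h2 x).2.1
  have σ0 : 0 ≤ σ := (sq_nonneg _).trans (hσ x)
  set A₀ := 8 * N / c with hA₀
  have A0 : 0 < A₀ := by positivity
  set ε := A₀ / (σ + β + 1) with hε
  have ε0 : 0 < ε := by positivity
  obtain ⟨w1, w2⟩ := hχ.bar A0 ε0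
  set T := (2 * a + 2 * r + β) / c + 1 with hT
  have T1 : c * T = 2 * a + 2 * r + β + c := by rw [hT]; field_simp
  have T0 : 1 ≤ T := le_add_of_nonneg_left (by positivity)
  have u0 : ∀ y, 0 < A₀ * (χ y ^ 2 + ε)⁻¹ := fun y => by positivity
  have key := maxp_bdd (f := fun y => ‖Φ y‖ ^ 2 + h y - A₀ * (χ y ^ 2 + ε)⁻¹) (m := T + β)
    (C := σ + β) hB finite_empty (by simp) (vf F.toPre) (by simp) (by simp)
    (fun y _ => ((cm_normSq (cm2 hΦ y)).add (cm2 h1 y)).sub (cm2 w1 y))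
    (fun y _ => by linarith [hσ y, (h2 y).2.1, u0 y])
    (fun δ hδ => ⟨c, hc, fun y _ hy => ?_⟩) x (by simp)
  · have e : A₀ * (χ x ^ 2 + ε)⁻¹ ≤ A₀ :=
      mul_le_of_le_one_right A0.le (inv_le_one_of_one_le₀ (by rw [hx]; linarith))
    have e2 : (8 * N + 2 * a + 2 * r + β) / c = A₀ + (2 * a + 2 * r + β) / c := by
      rw [hA₀]; ring
    linarith [(h2 x).1]
  have y0 : χ y ≠ 0 := fun z => by
    have e : A₀ * (χ y ^ 2 + ε)⁻¹ = σ + β + 1 := by rw [z, hε]; field_simp; simp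
    linarith [hσ y, (h2 y).2.1]
  rw [Lop_sub (u := fun y => ‖Φ y‖ ^ 2 + h y) (vf F.toPre y) ((cm_normSq (cm2 hΦ y)).add (cm2 h1 y)) (cm2 w1 y),
    Lop_add (vf F.toPre y) (cm_normSq (cm2 hΦ y)) (cm2 h1 y),
    Lop_normSq (vf F.toPre y) (hA.mc y).sm (hA.mc y).sk (cm2 hΦ y),
    show LA I F.e F.dv A Φ y = -lap I F.e F.dv A Φ y from (neg_neg _).symm, inner_neg_left]
  have b1 := hW y y0
  have b3 := (h2 y).2.2
  have b4 : 8 * N * A₀ * ((χ y ^ 2 + ε)⁻¹) ^ 2 = c * (A₀ * (χ y ^ 2 + ε)⁻¹) ^ 2 := by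
    rw [hA₀]; field_simp
  have b5 : A₀ * (χ y ^ 2 + ε)⁻¹ + T ≤ ‖Φ y‖ ^ 2 := by linarith [(h2 y).2.1]
  have b6 := (w2 y).trans_eq b4
  have b7 := u0 y
  change _ ≤ 2 * -⟪lap I F.e F.dv A Φ y, Φ y⟫_ℝ + 2 * gr2 I F.e A Φ y + _ - _
  generalize A₀ * (χ y ^ 2 + ε)⁻¹ = w at *
  generalize ‖Φ y‖ ^ 2 = t at *
  have b8 : c * w ^ 2 ≤ c * t ^ 2 :=
    mul_le_mul_of_nonneg_left (pow_le_pow_left₀ b7.le (by linarith) 2) hc.le
  have b9 : c * T ≤ c * t := mul_le_mul_of_nonneg_left (by linarith) hc.le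
  have b10 : 1 * (2 * r + β + c) ≤ t * (c * t - 2 * a) :=
    mul_le_mul (by linarith) (by linarith) (by positivity) (by linarith)
  nlinarith

end bar

variable [DecidableEq ι] {lam : Type} [Fintype lam] {r n : ℕ} {B : Base M ι lam}
  {G : Geo I M ι lam} {c : Cfg M ι lam r} {τ τ' : Pt M ι lam r n} {K K' N a e v σ : ℝ}
  {χ φ η : M → ℝ}

variable (G c τ K) in
/-- bounds of the perturbation that do not see the size of the spinor -/
structure Nm : Prop where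
  D : Ctl G.F (gr2 I G.F.e c.W c.Φ) 1 K c.W (τ.D c)
  C : ∃ g, Dom G.F K g ∧ ∀ x, ‖τ.C c x‖ ^ 2 ≤ K + g x

theorem Nm.mono (h : Nm G c τ K) (k : K ≤ K') : Nm G c τ K' :=
  let ⟨g, h1, h2⟩ := h.C
  ⟨h.D.mono zero_le_one (fun _ => gr2_nonneg) k, g, h1.mono k fun _ => le_rfl,
    fun x => by linarith [h2 x]⟩

theorem Nm.add (h : Nm G c τ K) (k : Nm G c τ' K') : Nm G c (τ.add τ') (2 * K + 2 * K') :=
  let ⟨_, h1, h2⟩ := h.C
  let ⟨_, k1, k2⟩ := k.C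
  ⟨h.D.add k.D, _, (h1.mul zero_le_two).add (k1.mul zero_le_two),
    fun x => (normSq_add_le _ _).trans (by linarith [h2 x, k2 x])⟩

theorem Nm.congr (h : Nm G c τ K) (e1 : τ'.D c = τ.D c) (e2 : τ'.C c = τ.C c) : Nm G c τ' K :=
  ⟨e1 ▸ h.D, e2 ▸ h.C⟩

/-- small perturbations -/
theorem Nm.of_bd {w : M → M → ℝ} {ε R : ℝ} (h : τ.Bd B G w K ε R) (A : c.Adm B G)
    (l : c.Le G.F w σ) (h1 : K * σ ≤ 1) (h2 : ε * σ + R ≤ 1) : Nm G c τ 1 := by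
  obtain ⟨a1, a2, g, a3, a4⟩ := h.D c σ A l
  obtain ⟨g', b1, b2⟩ := h.C c σ A l
  have K1 : K ≤ 1 := by nlinarith [h.K0, l.one]
  have e0 : 0 ≤ ε * σ + R := add_nonneg (mul_nonneg h.e0 (by linarith [l.one])) h.R0
  exact ⟨⟨a1, fun x => by linarith [a2 x], g, a3.mono (by linarith) fun _ => le_rfl, fun x => by
    nlinarith [a4 x, mul_le_mul_of_nonneg_right K1
      (gr2_nonneg (I := I) (e := G.F.e) (A := c.W) (Φ := c.Φ) (x := x))]⟩,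
    g', b1.mono h2 fun _ => le_rfl, fun x => by nlinarith [b2 x]⟩

/-- the constant of the local bound -/
def kL (a K N : ℝ) : ℝ := 576 * (8 * N + 2 * a + 3 * K + 5) + K + 2

theorem kL_mono {a' N' : ℝ} (h1 : a ≤ a') (h2 : K ≤ K') (h3 : N ≤ N') : kL a K N ≤ kL a' K' N' := by
  unfold kL; linarith

/-- **local `C⁰` bound for solutions** -/
theorem sol_loc (hb : Bumps I G.F.e G.F.dv) (hB : B.OK I) (hG : G.OK B) (h : c.Sol B G τ)
    (hσ : ∀ x, ‖c.Φ x‖ ^ 2 ≤ σ) (k : Nm G c τ K) (K1 : 1 ≤ K) (hχ : Chi G.F N χ) (hN : 0 < N)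
    (a0 : 0 ≤ a) (ha : ∀ x, χ x ≠ 0 → √(∑ s, fP B G x s ^ 2) - sc G x / 4 ≤ a) {x : M}
    (hx : χ x = 1) : ‖c.Φ x‖ ^ 2 ≤ kL a K N := by
  obtain ⟨-, -, g, a3, a4⟩ := k.D
  obtain ⟨g', b1, b2⟩ := k.C
  have d0 : 0 < K⁻¹ := by positivity
  have d1 : K⁻¹ * K = 1 := inv_mul_cancel₀ (by positivity)
  refine (c0_loc hb (mc_W h.conn) h.sm hσ ((a3.mul d0.le).add (b1.mul (C := 1 / 4) (by norm_num)))
    (c := 1 / 576) (a := a + K) (r := K / 4 + 1) (by norm_num) (by positivity) (by positivity) hχ hN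
    (fun y hy => ?_) hx).trans ?_
  · have := (solOn_of_sol h).ineq hB hG (mem_univ y) d0 (ha y hy)
    rw [one_div K⁻¹, inv_inv] at this
    have e := mul_le_mul_of_nonneg_left (a4 y) d0.le
    rw [mul_add, ← mul_assoc, d1] at e
    linarith [b2 y]
  · rw [mul_one, d1, kL]
    linarith

/-- **lower bound of the level on a core** -/
theorem kd_loc (hB : B.OK I) (hG : G.OK B) (h : c.Sol B G τ) (k : Nm G c τ K) (K1 : 1 ≤ K)
    (ik : Integrable (c.m.kd B G.F c.W) G.F.μ) (hη : Continuous η) (η0 : ∀ x, 0 ≤ η x)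
    (η1 : ∀ x, η x ≤ 1) (hφ : Ts I univ φ) (l0 : LB G.F.μ (fun x => φ x ^ 2) v)
    (l1 : LB G.F.μ (fun x => ∑ i, G.F.D i φ x ^ 2) v)
    (he : ∀ x, η x ≠ 0 → 1 ≤ φ x ^ 2 ∧ ‖c.Φ x‖ ^ 2 ≤ e) :
    LB G.F.μ (fun x => η x * ‖c.m.p2 B x (c.m.Fg G.F c.W x)‖ ^ 2) ((64 * e ^ 2 + 10 * K) * v) ∧
    -((64 * e ^ 2 + 10 * K) * v) ≤ 64 * Real.pi ^ 2 * ∫ x, η x * c.m.kd B G.F c.W x ∂G.F.μ := by
  obtain ⟨g, b1, b2⟩ := k.C
  have c2 := hη.mul (Fin37.cont_p2 hB hG h.toAdm)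
  have p0 : ∀ x, 0 ≤ η x * ‖c.m.p2 B x (c.m.Fg G.F c.W x)‖ ^ 2 := fun x =>
    mul_nonneg (η0 x) (sq_nonneg _)
  have l := ((Fin37.dom_cacc (b1.mul zero_le_two) (by linarith) c2 (C := 32 * e ^ 2 + 2 * K)
    (fun x => ?_) p0 (by positivity) hφ l0 l1).mono c2.aestronglyMeasurable p0 fun x => ?_).le
    (a' := (64 * e ^ 2 + 10 * K) * v) (le_of_eq (by ring))
  · refine ⟨l, ?_⟩
    rw [← integral_const_mul]
    refine le_trans ?_ (integral_mono l.1.neg ((ik.bdd_mul (c := 1) hη.aestronglyMeasurable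
      (.of_forall fun x => (Real.norm_of_nonneg (η0 x)).trans_le (η1 x))).const_mul _) fun x => ?_)
    · rw [integral_neg']; linarith [l.2]
    · have := mul_nonneg (η0 x) (sq_nonneg ‖c.m.Fg G.F c.W x‖)
      rw [norm_Fg_sq hG h.conn hB] at this
      simp only [Pi.neg_apply, Pi.mul_apply]
      linarith
  · by_cases z : η x = 0
    · simp only [Pi.mul_apply, z, zero_mul]
      nlinarith [b2 x, sq_nonneg ‖τ.C c x‖, sq_nonneg e]
    · refine (mul_le_of_le_one_left (sq_nonneg _) (η1 x)).trans ?_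
      linarith [(solOn_of_sol h).norm_p2_sq hB (mem_univ x), b2 x,
        pow_le_pow_left₀ (sq_nonneg _) (he x z).2 2]
  · by_cases z : η x = 0
    · simp [z]
    · exact le_mul_of_one_le_left (p0 x) (he x z).1

end Crest.Agent.X212.St29.Sb
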