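import Crest.Agent.X212.St29.SbA
import Crest.Agent.X212.Dgr80.Uk3

/-!
# Row 212, SB (helper29): windows on necks, with local constants
-/

set_option autoImplicit false
set_option linter.unusedSectionVars false
noncomputable section
open scoped Manifold ContDiff Topology InnerProductSpace Classical
open MeasureTheory Set Function Filter

namespace Crest.Agent.X212.St29.Sb
open An Wz78 Nd18 Cyf70 Nka63 Dgr80
open Mp86 (NK)

variable {E3 : Type} [NormedAddCommGroup E3] [NormedSpace ℝ E3] [FiniteDimensional ℝ E3]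
  [MeasurableSpace E3] [BorelSpace E3]
  {H3 : Type} [TopologicalSpace H3] {I3 : ModelWithCorners ℝ E3 H3} [I3.Boundaryless]
  {Y : Type} [TopologicalSpace Y] [ChartedSpace H3 Y] [IsManifold I3 ∞ Y] [T2Space Y]
  [MeasurableSpace Y] [BorelSpace Y] [SecondCountableTopology Y] [CompactSpace Y]
  {κ : Type} [Fintype κ] {lam : Type} [Fintype lam] {D : YD I3 Y κ lam} {S : ℝ} {r n : ℕ}

variable {X : NK D S} {c : Cfg X.M (Option κ) lam r} {a a' e : ℝ} (T : Sb X.K.p X.K.q a a')
include T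

/-- **a window on a neck with small terms** -/
theorem win0 (hD : D.OK) {σ : Pt X.M (Option κ) lam r n} (h : c.Sol X.B X.G σ) {U : ℝ} (U0 : 0 ≤ U)
    (hΦ : ∀ x ∈ O X.K 2, ‖c.Φ x‖ ^ 2 ≤ U) (hg : LB X.G.F.μ
      (fun x => X.K.cut 2 (X.K.τ x) * (‖σ.D c x‖ ^ 2 + ‖σ.C c x‖ ^ 2)) e) :
    3 / 4 * ∫ x, θc a a' (X.K.τ x) * en X.G.F c X.K.τ x ∂X.G.F.μ ≤
      8 * Real.pi ^ 2 * ∫ x, θc a a' (X.K.τ x) * c.m.kd X.B X.G.F c.W x ∂X.G.F.μ +
        (U * (vY D * (80 * cA)) + cA * e / 2 + e) := by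
  have P := pn2 hD X
  have A := h.toAdm
  have t := T.tf (G := X.G)
  have g0 : ∀ x, 0 ≤ ‖σ.D c x‖ ^ 2 + ‖σ.C c x‖ ^ 2 := fun x => by positivity
  have e1 := en_id P h t.ts t.d0
  have e2 := T.diracL hD A g0 U0 hΦ hg fun x _ => by
    have h1 := h.D x
    rw [Cfg.eD, sub_eq_zero] at h1
    rw [h1]
    linarith [sq_nonneg ‖σ.C c x‖, sq_nonneg ‖σ.D c x‖]
  have i1 := (t.ts.mul (P.sm_en A)).int X.G.F
  have e3 := integral_mono ((ts_wk P h t.ts).int X.G.F) ((i1.div_const 4).add hg.1) fun x => by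
    simp only [Pi.add_apply]
    by_cases hx : X.K.τ x ∈ Dp (some a) (some a') 3
    · have o : x ∈ O X.K 2 := by
        have := T.dp hx
        rw [(tm_eq X.K (Dp_mono (by norm_num) this)).2.2] at this
        exact dp_sub_O X.K (by norm_num) this
      have b := mul_le_mul_of_nonneg_left (abs_le.1 (P.wk_le A o (σ.D c x) (σ.C c x))).2
        (ct_mem (p := some a) (q := some a') (d := 3) (s := X.K.τ x)).1
      rw [show X.K.cut 2 (X.K.τ x) = 1 from ct_one (by norm_num; exact T.dp hx), wk]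
      linarith [mul_le_of_le_one_left (g0 x)
        (ct_mem (p := some a) (q := some a') (d := 3) (s := X.K.τ x)).2]
    · simp only [show θc a a' (X.K.τ x) = 0 from ct_zero hx, zero_mul]
      linarith [mul_nonneg (ct_mem (p := X.K.p) (q := X.K.q) (d := 2) (s := X.K.τ x)).1 (g0 x)]
  simp only [Pi.add_apply] at e3
  rw [integral_add (i1.div_const 4) hg.1, integral_div] at e3
  linarith [hg.2]

end Crest.Agent.X212.St29.Sb
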