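import Crest.Agent.X212.Sm10.Rho
import Crest.Agent.X212.Hel40.Defs
import Crest.Agent.X212.Cab39.Gen
import Crest.Agent.X212.Cab39.Lev
import Crest.Agent.X212.Prf6.Defs

/-!
# X212 / St29 (helper29): smooth Seifert data and the leaves of level zero

* `Out t r` : the outside of the closed tube of radius `r`, in the stereographic chart;
* `SS k r V ψ M` : field `V`, angle `Th k ψ`, plateau `M`; standard on the shell `r / 4 < ‖z‖ ≤ r`;
* `DicStmt` : genus certificate or unknot;  `TrpStmt` : transplant to the cable manifold.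
-/

set_option autoImplicit false
set_option linter.unusedSectionVars false

open Set Filter Topology Function
open scoped ContDiff Manifold
open Crest.GeometryTopology.DehnSurgery Crest.Agent.X212.Glue52 Crest.Agent.X212.Ext52
open Crest.Agent.X212.Sm10 Crest.Agent.X212.Hel40 Crest.Agent.X212.Cab39
open Crest.Agent.X212.Sep15 (CM)
open Crest.Agent.X212.Bb31 (Fm)
open Crest.Agent.X212.Int54 (Ori)
open Crest.Agent.X212.Flo26 (SmV)

noncomputable section

namespace Crest.Agent.X212.St29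

/-- the outside of the closed tube of radius `r` -/
def Out (t : Tube) (r : ℝ) : Set E3 := {p | sg t p ∉ ctube t r}

/-- the corrected angle -/
def An (k : KD) (ψ : E3 → ℝ) (p : E3) : Circle := th k p * Circle.exp (ψ p)

/-- smooth Seifert data -/
structure SS (k : KD) (r : ℝ) (V : E3 → E3) (ψ : E3 → ℝ) (M : Set E3) : Prop where
  pos : 0 < r
  smV : ContDiffOn ℝ ∞ V (Out k.toTube (r / 4))
  smψ : ContDiffOn ℝ ∞ ψ (Out k.toTube (r / 4))
  std : ∃ c : ℝ, ∀ z : Circle × ℂ, r / 4 < ‖z.2‖ → ‖z.2‖ ≤ r → ψ (tb k.toTube z) = c ∧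
    V (tb k.toTube z) = mfderiv IT (𝓡 3) (tb k.toTube) z
      ((0, Complex.I * z.2) : EuclideanSpace ℝ (Fin 1) × ℂ)
  cpt : IsCompact M
  sub : M ⊆ Out k.toTube r
  nn : ∀ p ∈ Out k.toTube (r / 4), 0 ≤ dl (𝓡 3) (An k ψ) p (V p)
  ps : ∀ p ∈ Out k.toTube (r / 4), p ∉ M → 0 < dl (𝓡 3) (An k ψ) p (V p)
  one : ∀ p ∈ M, An k ψ p = 1
  c0 : IsPreconnected {p | p ∈ Out k.toTube (r / 2) ∧ An k ψ p = 1 ∧ p ∉ M}
  c1 : IsPreconnected {p | p ∈ Out k.toTube (r / 2) ∧ An k ψ p = -1}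

/-- the Seifert surface -/
def Sei (k : KD) (r : ℝ) (ψ : E3 → ℝ) : Set E3 := {p | p ∈ Out k.toTube (r / 2) ∧ An k ψ p = -1}

/-- genus certificate on a set -/
structure Gc {X : Type*} [TopologicalSpace X] (F : Set X) (w : X → Circle) (L : Set X) : Prop where
  cpt : IsCompact L
  sub : L ⊆ F
  cont : ContinuousOn w F
  off : ∀ y ∈ F, y ∉ L → w y = 1
  nl : ¬ Lifts w F

/-- the cable manifold -/
abbrev Yc (t : Tube) : CM 3 := { M := C0 t }

/-- the zero filling -/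
abbrev Yz (t : Tube) : CM 3 := { M := Fill t σ0 }

/-- the chart of the exterior of the companion -/
def ic (t : Tube) (p : E3) : Yc t := io t (sg t p)

/-- PLAN: a closed connected oriented surface has an essential circle map or is planar off a point -/
def PlanStmt : Prop := ∀ X : Prf6.Sf, IsPreconnected (univ : Set X.R) →
  (∃ w : X.R → Circle, Continuous w ∧ ¬ Lifts w univ) ∨
    ∀ (x : X.R) (L : Set X.R), IsCompact L → x ∉ L → ∃ D, Prf6.St X.o D ∧ L ⊆ range D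

/-- SCH: Schoenflies theorem for a smooth collar in the plane -/
def SchStmt : Prop := ∀ (h : ℂ → ℂ) (a b : ℝ), 0 < a → a < 1 → 1 < b →
  InjOn h {z | a < ‖z‖ ∧ ‖z‖ < b} →
  (∀ z, a < ‖z‖ → ‖z‖ < b → IsLocalDiffeomorphAt 𝓘(ℝ, ℂ) 𝓘(ℝ, ℂ) ∞ h z) →
  ∃ g : ℂ → ℂ, IsOpenEmbedding g ∧ g '' Metric.sphere 0 1 = h '' Metric.sphere 0 1

/-- UNK: a parallel of the knot which bounds a flat disc -/
def UnkStmt : Prop := ∀ (t : Tube) (c : ℂ) (δ : ℂ × ℝ → S3), IsOpenEmbedding δ →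
  δ '' (Metric.sphere (0 : ℂ) 1 ×ˢ {0}) = t.τ '' (univ ×ˢ {c}) → t.thick.IsUnknot

/-- DIC: a knotted curve has a genus certificate -/
def DicStmt : Prop := ∀ (k : KD) (r : ℝ) (V : E3 → E3) (ψ : E3 → ℝ) (M : Set E3), SS k r V ψ M →
  ¬ k.thick.IsUnknot → ∃ w L, Gc (Sei k r ψ) w L

/-- TRP: level zero on the cable manifold, for every field which is changed on the plateau only -/
def TrpStmt : Prop := ∀ (k : KD) (r : ℝ) (V : E3 → E3) (ψ : E3 → ℝ) (M : Set E3) (w : E3 → Circle)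
  (L : Set E3), 16 ≤ r → SS k r V ψ M → Gc (Sei k r ψ) w L →
  ∃ (v : Vf (Yc k.toTube)) (l : Yc k.toTube → ℝ), SmV (𝓡 3) v ∧ ContMDiff (𝓡 3) 𝓘(ℝ, ℝ) ∞ l ∧
    (∀ p ∈ Out k.toTube (r / 2),
      (v (ic k.toTube p) : E3) = mfderiv (𝓡 3) (𝓡 3) (ic k.toTube) p (V p)) ∧
    ∀ (o : Fm 3 (Yc k.toTube)) (v' : Vf (Yc k.toTube)), Ori (𝓡 3) o → SmV (𝓡 3) v' →
      (∀ y ∉ ic k.toTube '' M, v' y = v y) →
      Bas o v' (fun y => Phi k y * Circle.exp (l y)) (ic k.toTube '' M) ∧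
      IsPreconnected (PP (Y := Yc k.toTube) (fun y => Phi k y * Circle.exp (l y))
        (ic k.toTube '' M)) ∧
      ∃ F w' L', Cert v' (fun y => Phi k y * Circle.exp (l y)) (ic k.toTube '' M) F w' L'

end Crest.Agent.X212.St29
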