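import Crest.Agent.X212.Pb50.Pt
import Crest.Agent.X212.Kop92.Cut

/-!
# Row 212, SW-MAP (helper29): the cut functions are smooth
-/

set_option autoImplicit false
set_option linter.unusedSectionVars false
noncomputable section
open scoped Manifold ContDiff Topology InnerProductSpace
open MeasureTheory Set Function Filter Metric

namespace Crest.Agent.X212.St29.Mc
open An Sob92 Prm93 Sw Kop92
open M (Mf)

section gen
variable {E : Type} [NormedAddCommGroup E] [NormedSpace ℝ E] [FiniteDimensional ℝ E]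
  [MeasurableSpace E] [BorelSpace E]
  {HM : Type} [TopologicalSpace HM] {I : ModelWithCorners ℝ E HM} [I.Boundaryless]
  {M : Type} [TopologicalSpace M] [ChartedSpace HM M] [IsManifold I ∞ M]
  [MeasurableSpace M] [T2Space M] [BorelSpace M] [SecondCountableTopology M]
  {ι ν : Type} [Fintype ι] [Fintype ν] [DecidableEq ν]
  {T : Type} [NormedAddCommGroup T] [NormedSpace ℝ T] [FiniteDimensional ℝ T] {Q : Set T}

/-- jointly smooth functions give smooth maps to `C(S, ℂ)` -/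
theorem jc_cm (G : Pre 𝓘(ℝ, R4) R4 ι) (hQ : IsOpen Q) {f : T → R4 → ℂ}
    (hf : ContDiffOn ℝ ∞ (uncurry f) (Q ×ˢ univ)) {K : Set R4} (hK : IsCompact K)
    (h0 : ∀ t ∈ Q, ∀ y ∉ K, f t y = 0) (S : Set R4) [CompactSpace S] :
    ∃ g : T → C(S, ℂ), ContDiffOn ℝ ∞ g Q ∧ ∀ t ∈ Q, ∀ y : S, g t y = f t y := by
  have js : JS 𝓘(ℝ, R4) Q f := fun t ht x =>
    (hf.contDiffAt ((hQ.prod isOpen_univ).mem_nhds ⟨ht, trivial⟩)).contMDiffAt.comp (t, x)
      (contMDiffAt_fst.prodMk_space contMDiffAt_snd)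
  have cb : ∀ t ∈ Q, G.Cb (f t) := fun t ht => Cb_of_hcs (js.sm ht) (.intro hK (h0 t ht))
  have h : Prm93.Fam G K Q f := ⟨js, cb, fun t ht s hs x hx => by rw [h0 t ht x hx, h0 s hs x hx]⟩
  obtain ⟨L, hL⟩ := exists_clm (S := S) (H := B G 0 ℂ) (g := fun h => B.fn h)
    (fun h => h.sm.continuous.continuousOn) (fun h h' x _ => by simp) (fun r h x _ => by simp)
    zero_le_one fun h x _ => by simpa using CB_bound h.CB x
  exact ⟨fun t => L (toB G 0 (f t)), L.contDiff.comp_contDiffOn (h.contDiffOn hK hQ),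
    fun t ht y => by rw [hL, fn_toB (cb t ht)]⟩

theorem hm_sum (J : En ν) (v w : Eu ν) :
    hm J v w = ∑ i, hm J v (EuclideanSpace.single i 1) * (w i : ℂ) := by
  conv_lhs => rw [← (EuclideanSpace.basisFun ν ℝ).sum_repr w, ← hmL_apply, map_sum]
  simp [hmL_apply, mul_comm]

theorem sm_cut (G : Pre 𝓘(ℝ, R4) R4 ι) {F : Pre I M ι} {S₀ : ℝ} (hS : Sup F S₀) {k : ℕ} (hk : 4 ≤ k)
    {Ξ : R4 → M} (hΞ : Continuous Ξ) {Λ : R4 → Eu ι →L[ℝ] R4 →L[ℝ] ℝ} (hΛ : Continuous Λ)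
    {ρ : R4 → ℝ} (hρ : Continuous ρ) (cρ : HasCompactSupport ρ) {a : M → Eu ι} (ha : Continuous a)
    {φ : M → Eu ν} (hφ : Continuous φ) (hQ : IsOpen Q) {η : T → R4 → Eu ν} (hη : JC Q η) (J : En ν)
    (p : M → Eu ι →L[ℝ] Eu ι) (q : M → Eu ν →L[ℝ] Eu ν) :
    ContDiffOn ℝ ∞ (fun v : F.H k p × F.H k q × T =>
      ∫ y, Complex.exp (K (leb R4) ρ (fun z => Λ z ((a + F.val k p v.1) (Ξ z))) y * Complex.I) *
        hm J (η v.2.2 y) ((φ + F.val k q v.2.1) (Ξ y)) ∂leb R4) {v | v.2.2 ∈ Q} := by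
  obtain ⟨h1, K₀, hK, h0⟩ := hη
  obtain ⟨R1, r1⟩ := exists_sp cρ
  obtain ⟨R2, r2⟩ := hK.isBounded.subset_closedBall 0
  have hR := r1.mono (le_max_left R1 R2)
  have hK' := r2.trans (closedBall_subset_closedBall (le_max_right R1 R2))
  generalize max R1 R2 = R at hR hK'
  have : CompactSpace (closedBall (0 : R4) R) := isCompact_iff_compactSpace.1 (isCompact_closedBall _ _)
  have c1 := continuous_val (p := p) hS hk
  have c2 := continuous_val (p := q) hS hk
  have cb : ∀ {a : M → Eu ι}, Continuous a → Continuous fun z => Λ z (a (Ξ z)) := fun h =>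
    hΛ.clm_apply (h.comp hΞ)
  have cK : ∀ {a : M → Eu ι}, Continuous a → Continuous fun y =>
      (K (leb R4) ρ (fun z => Λ z (a (Ξ z))) y : ℂ) * Complex.I := fun h =>
    (Complex.continuous_ofReal.comp (continuous_K hρ hR (cb h))).mul continuous_const
  have ad : ∀ {a b : M → Eu ι}, Continuous a → Continuous b → ∀ y,
      K (leb R4) ρ (fun z => Λ z ((a + b) (Ξ z))) y = K (leb R4) ρ (fun z => Λ z (a (Ξ z))) y +
        K (leb R4) ρ (fun z => Λ z (b (Ξ z))) y := fun h h' y => by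
    rw [← K_add hρ hR (cb h) (cb h')]
    exact congrArg (K _ _ · y) (funext fun z => map_add _ _ _)
  obtain ⟨D, hD⟩ := (isCompact_closedBall (0 : R4) R).exists_bound_of_continuousOn (f := Λ)
    hΛ.continuousOn
  obtain ⟨T1, hT⟩ := exists_clm (S := closedBall (0 : R4) R) (fun h => (cK (c1 h)).continuousOn)
    (fun h h' x _ => by rw [val_add, ad (c1 h) (c1 h')]; push_cast; ring)
    (fun r h x _ => by
      have := K_smul (μ := leb R4) (ρ := ρ) (β := fun z => Λ z (F.val k p h (Ξ z))) r x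
      rw [val_smul, show (fun z => Λ z ((r • F.val k p h) (Ξ z))) = _ from
        funext fun z => (Λ z).map_smul r (F.val k p h (Ξ z))]
      erw [this]; simp [mul_assoc])
    (C := |2 * R * ∫ y, |ρ y| ∂leb R4| * (|D| * √|S₀|)) (by positivity) fun h x hx => by
      have := abs_K_le (μ := leb R4) (β := fun z => Λ z (F.val k p h (Ξ z))) hρ hR
        (mem_closedBall_zero_iff.1 hx) (c := |D| * √|S₀| * ‖h‖) fun y hy => by
          rw [mul_assoc]
          exact ((Λ y).le_of_opNorm_le ((hD y (mem_closedBall_zero_iff.2 hy)).trans (le_abs_self D))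
            _).trans (by gcongr; exact norm_val_le hS hk h _)
      rw [mul_assoc]
      simpa using this.trans (mul_le_mul_of_nonneg_right (le_abs_self _) (by positivity))
  have cU : ∀ {φ : M → Eu ν} (i : ν), Continuous φ → Continuous fun y => (φ (Ξ y) i : ℂ) :=
    fun i h => Complex.continuous_ofReal.comp ((EuclideanSpace.proj i).continuous.comp (h.comp hΞ))
  choose U hU using fun i : ν => exists_clm (S := closedBall (0 : R4) R)
    (fun h => (cU i (c2 h)).continuousOn) (fun h h' x _ => by simp [val_add])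
    (fun r h x _ => by simp [val_smul]) (C := √|S₀|) (by positivity) fun h x _ => by
      simpa using (PiLp.norm_apply_le _ i).trans (norm_val_le hS hk h (Ξ x))
  choose g hg eg using fun i : ν => jc_cm G hQ (f := fun t y => hmL J (η t y) (.single i 1))
    (((hmL J).flip (.single i 1)).contDiff.comp_contDiffOn h1) hK
    (fun t ht y hy => by simp [h0 t ht y hy]) (closedBall (0 : R4) R)
  obtain ⟨L, hL⟩ := exists_int (S := closedBall (0 : R4) R) (leb R4)
  let f₀ : C(closedBall (0 : R4) R, ℂ) := ⟨_, (cK ha).continuousOn.domRestrict⟩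
  let g₀ : ν → C(closedBall (0 : R4) R, ℂ) := fun i => ⟨_, (cU i hφ).continuousOn.domRestrict⟩
  refine (L.contDiff.comp_contDiffOn (f := fun v : F.H k p × F.H k q × T =>
    NormedSpace.exp (f₀ + T1 v.1) * ∑ i, g i v.2.2 * (g₀ i + U i v.2.1))
    (((contDiff_iff_contDiffAt.2 fun f => (NormedSpace.exp_analytic (𝕂 := ℝ) f).contDiffAt).comp
      (contDiff_const.add (T1.contDiff.comp contDiff_fst))).contDiffOn.mul
    (ContDiffOn.sum fun i _ => ((hg i).comp contDiff_snd.snd.contDiffOn fun v hv => hv).mul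
      (contDiff_const.add ((U i).contDiff.comp contDiff_snd.fst)).contDiffOn))).congr
    fun v hv => (hL _ _ (fun y => ?_) fun y hy => ?_).symm
  · rw [ContinuousMap.mul_apply, exp_apply, ad ha (c1 _), hm_sum]
    simp [hT, hU, eg _ _ hv, f₀, g₀, add_mul, hmL_apply]
  · simp [h0 _ hv y fun h => hy (hK' h), ← hmL_apply]

end gen

variable {κ lam ν : Type} [Fintype κ] [Fintype lam] [Fintype ν] [DecidableEq ν]
  {d : Dt κ lam ν} {N : Type} [Fintype N] {ty : N → d.𝓔} {X : Mf 4} {nc nr : ℕ}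
  {T : Type} [NormedAddCommGroup T] [NormedSpace ℝ T] [FiniteDimensional ℝ T]
  {s : Pz X 0 fun i => d.e (ty i)} {𝓕 : Sw.Fam s nc T} (h : 𝓕.OK) {t t' : T} (ht : t ∈ 𝓕.Q)
include h ht

/-- the coordinate vectors in the frame of the site -/
theorem th_eq (ht' : t' ∈ 𝓕.Q) (j : Fin nc) (z v : R4) (a : Option κ) :
    ∑ k, ((𝓕.P t).bg.ct j).θ z v k * 𝓕.S t (((𝓕.P t').bg.ct j).Ξ z) k a =
      ∑ k, ((𝓕.P t').bg.ct j).θ z v k * 𝓕.S t' (((𝓕.P t').bg.ct j).Ξ z) k a := by
  have key : ∀ t ∈ 𝓕.Q, ∑ b, (∑ k, ((𝓕.P t).bg.ct j).θ z v k * 𝓕.S t (((𝓕.P t').bg.ct j).Ξ z) k b) •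
      s.bg.F.e b (((𝓕.P t').bg.ct j).Ξ z) = mfderiv 𝓘(ℝ, R4) X.I ((𝓕.P t').bg.ct j).Ξ z v := fun t ht => by
    rw [← (h.ct t ht t' ht' j).1]
    refine Eq.trans ?_ (((h.ok t ht).bg.ct j).θ z v).symm
    simp only [h.mix t ht _, Finset.sum_smul, Finset.smul_sum, smul_smul]
    exact Finset.sum_comm
  have fx : ∀ t ∈ 𝓕.Q, ∀ x, ∑ b, s.bg.F.P a b x * ∑ k, ((𝓕.P t).bg.ct j).θ z v k * 𝓕.S t x k b =
      ∑ k, ((𝓕.P t).bg.ct j).θ z v k * 𝓕.S t x k a := fun t ht x => by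
    simp only [Finset.mul_sum]
    rw [Finset.sum_comm]
    refine Finset.sum_congr rfl fun k _ => ?_
    rw [← h.SP t ht x k a, Finset.mul_sum, ← h.site.bg.G.P]
    exact Finset.sum_congr rfl fun b _ => by rw [s.bg.F.P_symm a b]; ring
  have := s.bg.F.P_ker (((𝓕.P t').bg.ct j).Ξ z) (fun b => ∑ k, ((𝓕.P t).bg.ct j).θ z v k * 𝓕.S t (((𝓕.P t').bg.ct j).Ξ z) k b -
    ∑ k, ((𝓕.P t').bg.ct j).θ z v k * 𝓕.S t' (((𝓕.P t').bg.ct j).Ξ z) k b) (by
      simp only [sub_smul, Finset.sum_sub_distrib, key t ht, key t' ht', sub_self]) a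
  simp only [mul_sub, Finset.sum_sub_distrib, fx t ht, fx t' ht'] at this
  exact sub_eq_zero.1 this

omit h ht

/-- **MAP-C** -/
theorem cut (s : Pz X 0 fun i => d.e (ty i)) (σ : Cel s nc nr T)
    (h : σ.toFam.OK) (hβ : s.Cr σ.β) (η : T → Fin nc → R4 → Eu ν)
    (hη : ∀ j, JC σ.Q fun t => η t j) (k : ℕ) (hk : 7 ≤ k) :
    ∃ f : σ.C k → Fin nc → ℂ, ContDiffOn ℝ ∞ f (σ.U k) ∧
      ∀ y j, f (σ.pt k y) j = (σ.P y.1.1).bg.lη j (η y.1.1 j) y.1.2 := by
  obtain ⟨t₀, h0⟩ := h.ne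
  obtain ⟨C, hC⟩ := h.site.bg.tame
  have hS := Sup.of_tame hC
  have hb := Pb50.adm_base hβ
  have ha : Continuous fun x => (WithLp.toLp 2 fun a => (s.base σ.β).a a x : Eu (Option κ)) :=
    (PiLp.continuous_toLp 2 _).comp (continuous_pi fun a => (hb.sa a).continuous)
  have C0 := fun j => (h.ok t₀ h0).bg.ct j
  let Λ : Fin nc → R4 → Eu (Option κ) →L[ℝ] R4 →L[ℝ] ℝ := fun j z => ∑ a,
    ContinuousLinearMap.smulRightL ℝ _ _ (EuclideanSpace.proj a) (∑ b,
      σ.S t₀ (((σ.P t₀).bg.ct j).Ξ z) b a • (EuclideanSpace.proj b ∘L ((σ.P t₀).bg.ct j).θ z))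
  have : ContinuousAdd (Eu (Option κ) →L[ℝ] R4 →L[ℝ] ℝ) :=
    ContinuousLinearMap.topologicalAddGroup.toContinuousAdd
  have hΛ : ∀ j, Continuous (Λ j) := fun j => continuous_finsetSum _ fun a _ =>
    (ContinuousLinearMap.continuous _).comp (continuous_finsetSum _ fun b _ =>
      ((Cb.sm ((h.sS b a).cb t₀ h0)).continuous.comp (C0 j).sm.continuous).smul
        (continuous_const.clm_comp (C0 j).sθ.continuous))
  have G := fun j => (exists_ch h.site.vol (C0 j).src (C0 j).sm.contMDiffOn (C0 j).sm').choose.G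
  refine ⟨_, contDiffOn_pi.2 fun j => sm_cut (G j) hS (by omega : 4 ≤ k + 1) (C0 j).sm.continuous
    (hΛ j) (C0 j).sρ.continuous (C0 j).cρ ha hb.sΦ.continuous h.opn (hη j) s.bg.m.J _ _,
    fun y j => ?_⟩
  have e := h.ct _ y.2.1 t₀ h0 j
  simp only [Bg.lη, Pb50.val_Φ h hβ (by omega : 3 ≤ k), Pb50.val_a h hβ (by omega : 3 ≤ k), e.1, e.2,
    h.m _ y.2.1]
  refine congrArg _ (funext fun z => congrArg₂ _ ?_ (congrArg _ (congrFun (add_sub_cancel _ _) _)))
  refine congrArg (fun β => Complex.exp (K _ _ β z * Complex.I)) (funext fun w => ?_)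
  ext v
  have hc := fun i x => (Pb50.S_al h y.2.1 (((Pb50.adm_fam h y.2.1 _).1 y.2.2.1).2) i x).symm
  have := th_eq h y.2.1 h0 j w v
  simp only [Λ, Bg.ta, e.1, Pi.add_apply, add_sub_cancel, ContinuousLinearMap.comp_apply,
    innerSL_apply_apply, PiLp.inner_apply, sum_apply, ContinuousLinearMap.smulRightL_apply_apply,
    ContinuousLinearMap.smulRight_apply, smul_apply, smul_eq_mul, hc, EuclideanSpace.coe_proj,
    mul_comm (σ.S t₀ _ _ _), ← this, Real.inner_apply]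
  simp only [Finset.mul_sum, Finset.sum_mul]
  exact Finset.sum_comm.trans (Finset.sum_congr rfl fun _ _ => Finset.sum_congr rfl fun _ _ => by ring)

end Crest.Agent.X212.St29.Mc
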