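import Crest.Agent.X212.St29.Lb

/-!
# Row 212, SW-MAP (helper29): the fields `ms` and `mo` of `Sw.MapStmt`
-/

set_option autoImplicit false
set_option linter.unusedSectionVars false
noncomputable section
open scoped Manifold ContDiff Topology InnerProductSpace
open MeasureTheory Set Function Filter

namespace Crest.Agent.X212.St29
open An hiding Cfg Pt
open Cyf70 Sw Sw.En3 Sob92 Prm93 Pb50
open Nd18 (Jv Dp ct)
open M (Mf pm)

variable {κ lam ν : Type} [Fintype κ] [Fintype lam] [Fintype ν] [DecidableEq ν] {X : Mf 4}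
  {nc nr : ℕ} {N : Type} [Fintype N] {d : Dt κ lam ν} {ty : N → d.𝓔}
  {T : Type} [NormedAddCommGroup T] [NormedSpace ℝ T] [FiniteDimensional ℝ T]
  {s : Pz X 0 fun i => d.e (ty i)} {i : N} {t₀ : T}

section rp
variable {𝓕 : Sw.Fam s nc T} {K₀ : Nk (d.e (ty i)) (𝓕.P t₀).bg} {ℓ : T × ℝ → ℝ} {V : Set T}

variable (K₀ ℓ) in
/-- the cut-off in the coordinate of `K₀` -/
def cz (z : T × ℝ) : ℝ := ct (K₀.p.map fun a => ℓ (z.1, a)) (K₀.q.map fun a => ℓ (z.1, a)) 1 (ℓ z)

variable (R : Rp 𝓕 i t₀ K₀ ℓ V) {t : T} (ht : t ∈ V)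
include R ht

theorem Rp.at' (a r : ℝ) : ContDiffAt ℝ ∞ (fun z : T × ℝ => ℓ (z.1, a)) (t, r) :=
  (R.at ht a).comp (t, r) (contDiffAt_fst.prodMk contDiffAt_const)

theorem Rp.sm_cz (r : ℝ) : ContDiffAt ℝ ∞ (cz K₀ ℓ) (t, r) := by
  have h := Real.smoothTransition.contDiff (n := ⊤)
  refine ContDiffAt.mul ?_ ?_
  · cases K₀.p
    exacts [contDiffAt_const,
      h.contDiffAt.comp _ (((R.at ht r).sub (R.at' ht _ r)).sub contDiffAt_const)]
  · cases K₀.q
    exacts [contDiffAt_const,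
      h.contDiffAt.comp _ (((R.at' ht _ r).sub (R.at ht r)).sub contDiffAt_const)]

theorem Rp.cz_off {r : ℝ}
    (hr : ℓ (t, r) ∉ Dp (K₀.p.map fun a => ℓ (t, a)) (K₀.q.map fun a => ℓ (t, a)) 1) :
    ∀ᶠ z in 𝓝 (t, r), cz K₀ ℓ z = 0 := by
  rcases Nd18.not_Dp hr with ⟨_, h, h'⟩ | ⟨_, h, h'⟩ <;> obtain ⟨a, ha, rfl⟩ := Option.map_eq_some_iff.1 h
  · exact ((R.at ht r).continuousAt.eventually_lt ((R.at' ht a r).continuousAt.add
      continuousAt_const) h').mono fun z hz => Nd18.ct_zero fun k =>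
        (k.1 _ (Option.mem_map_of_mem _ ha)).not_gt hz
  · exact (((R.at' ht a r).continuousAt.sub continuousAt_const).eventually_lt
      (R.at ht r).continuousAt h').mono fun z hz => Nd18.ct_zero fun k =>
        (k.2 _ (Option.mem_map_of_mem _ ha)).not_gt hz

omit ht

theorem Rp.left {a : ℝ} (ha : K₀.p = some a) :
    ∃ a' > a, ∀ᶠ t in 𝓝 t₀, ∀ r < a', cz K₀ ℓ (t, r) = 0 := by
  have c := fun r r' => ((R.at R.mem r).continuousAt.comp (x := t₀) (f := fun t => (t, r))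
    (by fun_prop)).eventually_lt (((R.at R.mem r').continuousAt.comp (x := t₀) (f := fun t => (t, r'))
      (by fun_prop)).add (continuousAt_const (y := (1 : ℝ))))
  obtain ⟨a', h1, h2⟩ := ((((R.at R.mem a).continuousAt.comp (x := a) (f := fun r => (t₀, r))
    (by fun_prop)).eventually_lt continuousAt_const (lt_add_one _)).filter_mono
      (nhdsWithin_le_nhds (s := Ioi a))).and self_mem_nhdsWithin |>.exists
  refine ⟨a', h2, ((c a' a h1).and (R.op.mem_nhds R.mem)).mono fun t ht r hr =>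
    Nd18.ct_zero fun k => ?_⟩
  exact (k.1 _ (Option.mem_map_of_mem _ ha)).not_gt ((R.mono ht.2 hr).trans ht.1)

theorem Rp.right {a : ℝ} (ha : K₀.q = some a) :
    ∃ a' < a, ∀ᶠ t in 𝓝 t₀, ∀ r > a', cz K₀ ℓ (t, r) = 0 := by
  have c := fun r r' => (((R.at R.mem r').continuousAt.comp (x := t₀) (f := fun t => (t, r'))
    (by fun_prop)).sub (continuousAt_const (y := (1 : ℝ)))).eventually_lt
      ((R.at R.mem r).continuousAt.comp (x := t₀) (f := fun t => (t, r)) (by fun_prop))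
  obtain ⟨a', h1, h2⟩ := ((continuousAt_const.eventually_lt ((R.at R.mem a).continuousAt.comp
    (x := a) (f := fun r => (t₀, r)) (by fun_prop)) (sub_one_lt _)).filter_mono
      (nhdsWithin_le_nhds (s := Iio a))).and self_mem_nhdsWithin |>.exists
  refine ⟨a', h2, ((c a' a h1).and (R.op.mem_nhds R.mem)).mono fun t ht r hr =>
    Nd18.ct_zero fun k => ?_⟩
  exact (k.2 _ (Option.mem_map_of_mem _ ha)).not_gt (lt_trans ht.1 (R.mono ht.2 hr))

end rp

theorem ext_off {e : En3 κ lam ν} {b : Bg X.I X.M κ lam ν nc} (K : Nk e b) {a : ℝ} (h1 : K.p = some a)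
    (h2 : K.q = some (a + 2)) (x : X.M) : K.χ x = 0 := by
  simp only [Nd18.Nk.χ, Nd18.Nk.cut, ct, h1, h2, Option.elim_some]
  rcases le_total (K.tm x) (a + 1) with h | h
  · rw [Real.smoothTransition.zero_of_nonpos (by linarith), zero_mul]
  · rw [Real.smoothTransition.zero_of_nonpos (x := a + 2 - _ - _) (by linarith), mul_zero]

theorem p2_ext {e : En3 κ lam ν} {b : Bg X.I X.M κ lam ν nc} (K : Nk e b) (Y : e.YT) (x : X.M) :
    b.p2 x (K.ext Y.fo x) = K.ext Y.fo x := by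
  by_cases hx : x ∈ K.ψ.target
  · have := p2_ψ K (K.ψ.map_target hx)
    rw [K.ψ.right_inv hx] at this
    have h : ∀ a c, e.cyl.B.P a c (K.ψ.symm x) = e.cyl.B.P a c ((K.ψ.symm x).1, 0) := fun a c => by
      cases a <;> cases c <;> rfl
    have e : e.cyl.p2 (K.ψ.symm x) = e.cyl.p2 ((K.ψ.symm x).1, 0) := by
      refine congrArg (fun S => idx S (ContinuousLinearMap.id ℝ ℝ)) (funext₂ fun s t => ?_)
      simp only [Base.sd, Base.a2, Base.st, h]
      rfl
    rw [Nd18.Nk.ext, map_smul, this, e, Y.pf]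
  · rw [K.ext_zero _ (off K hx), map_zero]

variable {σ : Cel s nc nr T} {k : ℕ}

variable (i σ) in
/-- the transversality term on the neck `i` -/
def mF (Y : (d.e (ty i)).YT) (v : σ.C k) (x : X.M) : F2 κ :=
  ((σ.P v.2.2).nk i).elim 0 fun K => Y.b (lbF i σ (v, K.tm x)) • K.ext Y.fo x

variable (h : σ.toFam.OK) (hβ : s.Gd σ.β) (hk : 4 ≤ k)
include hβ

theorem cr : s.Cr σ.β := fun i b k => (hβ i b k).crit

include h hk

theorem lc_mF (Y : (d.e (ty i)).YT) : LC (σ.U k) s.bg.F.toPre (mF i σ Y) := by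
  refine .of_zero fun v₀ hv => ?_
  have c : ContDiff ℝ ∞ fun v : σ.C k => v.2.2 := contDiff_snd.snd
  refine (rp_or_off h hv i).imp (fun h0 => (c.continuous.continuousAt.eventually h0).mono
    fun v h0 => funext fun x => elim_zero fun K hK => ?_) fun ⟨K₀, ℓ, V, R⟩ _ e => ?_
  · obtain ⟨a, h1, h2⟩ := h0 K hK
    rw [Nd18.Nk.ext, ext_off K h1 h2, zero_smul, smul_zero]
  rw [show _ = v₀ from e]
  let m : σ.C k × ℝ → ℝ := fun z => Y.b (lbF i σ (z.1, ℓ (z.1.2.2, z.2))) * cz K₀ ℓ (z.1.2.2, z.2)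
  have far : ∀ b, K₀.Inf b → ∃ r, ∀ᶠ v in 𝓝 v₀, ∀ τ, r < pm b * τ → m (v, τ) = 0 := fun b hb => by
    obtain ⟨L, hL, e⟩ := inf_site h hv R.mem₀ hb
    have hb' := (ng_inf e).1 hb
    refine (lb_far h (cr hβ) hk hL hb' hv ((h.site.en i).S.isClosed.isOpen_compl.mem_nhds
      (hβ i b ⟨L, hL, hb'⟩).S)).imp fun r k => k.mono fun v k τ hτ => ?_
    obtain rfl := R.inf b hb
    exact mul_eq_zero_of_left (by_contra fun k' => k τ hτ (Y.S k')) _
  obtain ⟨a, a1, a2⟩ : ∃ a', (∀ a ∈ K₀.p, a < a') ∧ ∀ᶠ v in 𝓝 v₀, ∀ r < a', m (v, r) = 0 := by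
    cases e : K₀.p with
    | none =>
      obtain ⟨r, k⟩ := far false e
      exact ⟨-r, by simp, k.mono fun v k τ hτ => k τ (by simp only [pm]; simp; linarith)⟩
    | some a =>
      obtain ⟨a', h1, h2⟩ := R.left e
      exact ⟨a', by simpa using h1, (c.continuous.continuousAt.eventually h2).mono
        fun v k r hr => mul_eq_zero_of_right _ (k r hr)⟩
  obtain ⟨b, b1, b2⟩ : ∃ a', (∀ a ∈ K₀.q, a' < a) ∧ ∀ᶠ v in 𝓝 v₀, ∀ r > a', m (v, r) = 0 := by
    cases e : K₀.q with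
    | none =>
      obtain ⟨r, k⟩ := far true e
      exact ⟨r, by simp, k.mono fun v k τ hτ => k τ (by simpa [pm] using hτ)⟩
    | some a =>
      obtain ⟨a', h1, h2⟩ := R.right e
      exact ⟨a', by simpa using h1, (c.continuous.continuousAt.eventually h2).mono
        fun v k r hr => mul_eq_zero_of_right _ (k r hr)⟩
  obtain ⟨O, h1, h2, h3⟩ := eventually_nhds_iff.1
    ((a2.and b2).and (c.continuous.continuousAt.eventually (R.op.mem_nhds R.mem)))
  have hJ : Icc a b ⊆ K₀.J := fun r hr =>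
    ⟨fun a ha => (a1 a ha).trans_le hr.1, fun a ha => hr.2.trans_lt (b1 a ha)⟩
  have h0 : ∀ v ∈ O, ∀ r ∉ Icc a b, m (v, r) = 0 := fun v hv r hr =>
    (not_and_or.1 hr).elim (fun k => (h1 v hv).1.1 r (not_le.1 k)) fun k => (h1 v hv).1.2 r (not_le.1 k)
  refine ⟨O, h2.mem_nhds h3, push K₀ _ h2 (fun ⟨v, r⟩ hz => ContDiffAt.contDiffWithinAt ?_) hJ h0 Y.sf
    fun v hv x => ?_⟩
  · have hV := (h1 v hz.1).2
    have c' : ContDiffAt ℝ ∞ (fun z : σ.C k × ℝ => (z.1.2.2, z.2)) (v, r) := by fun_prop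
    by_cases hr : ℓ (v.2.2, r) ∈ Dp (K₀.p.map fun a => ℓ (v.2.2, a)) (K₀.q.map fun a => ℓ (v.2.2, a)) 1
    · exact (Y.sb.contDiffAt.comp _ ((lbF_at h (cr hβ) hk R hV hr).comp (v, r)
        (contDiffAt_fst.prodMk ((R.at hV r).comp (v, r) c')))).mul ((R.sm_cz hV r).comp (v, r) c')
    · exact contDiffAt_const.congr_of_eventuallyEq ((c'.continuousAt.eventually (R.cz_off hV hr)).mono
        fun z hz => mul_eq_zero_of_right _ hz)
  · have hV := (h1 v hv).2
    obtain ⟨K, k0, k1, k2, k3, k4⟩ := R.nk _ hV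
    simp only [mF, Option.mem_def.1 k0, Option.elim_some]
    by_cases hx : x ∈ K₀.ψ.target
    · have h4 := K₀.mem_src.1 (K₀.ψ.map_target hx)
      have h5 := k3 (K₀.ψ.symm x).1 _ h4
      have h6 : (_, _) ∈ K.ψ.source :=
        src K (by simpa only [Nd18.Nk.J, k1, k2] using R.maps hV h4) (K₀.ψ.symm x).1
      rw [Prod.mk.eta, K₀.ψ.right_inv hx] at h5
      conv_lhs => rw [← h5, K.ext_ψ _ h6, K.tm_ψ _ h6, smul_smul, K₀.snd_symm hx]
      simp only [m, cz, Nd18.Nk.cut, k1, k2]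
    · rw [h0 v hv _ fun k => hx (K₀.tgt ▸ hJ k), zero_smul, K.ext_zero _ (off K fun k => hx ?_), smul_zero]
      obtain ⟨r, r1, r2⟩ := k4 (K.mem_src.1 (K.ψ.map_target k))
      have := k3 (K.ψ.symm x).1 r r1
      rw [show ℓ (v.2.2, r) = _ from r2, Prod.mk.eta, K.ψ.right_inv k] at this
      exact this ▸ K₀.ψ.map_source (src K₀ r1 _)

omit h hβ hk

/-- **MAP-S** -/
theorem ms (s : Pz X 0 fun i => d.e (ty i)) (σ : Cel s nc nr T) (h : σ.toFam.OK) (hβ : s.Gd σ.β)
    (w : d.W) (k : ℕ) (hk : 7 ≤ k) :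
    ∃ f : σ.C k → σ.Y (k + 1), σ.Rep (fun t c => (0, (σ.P t).tm w c, 0, 0)) f := by
  have hk' : 4 ≤ k := by omega
  have l1 : LC (σ.U k) s.bg.F.toPre fun v : σ.C k => (σ.P v.2.2).fo w := fun v hv =>
    let ⟨r, hr⟩ := h.cfo w
    ⟨_, (isOpen_U h).mem_nhds hv, _, h.site.cpt r,
      (h.sfo w).reparam contDiff_snd.snd.contDiffOn fun _ h => h, fun _ hu => hr _ hu⟩
  have l2 : ∀ i, LC (σ.U k) s.bg.F.toPre fun (v : σ.C k) x =>
      (d.yt w (ty i)).elim 0 fun Y => mF i σ Y v x := fun i => by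
    cases d.yt w (ty i)
    exacts [.of_zero fun _ _ => .inl (.of_forall fun _ => rfl), lc_mF h hβ hk' _]
  obtain ⟨g, h1, h2⟩ := (l1.add (.sum Finset.univ l2)).toH (p := s.bg.p2) (k := k + 1)
    h.site.bg.tame.choose_spec (fun v hv x => by
      have e : s.bg.p2 x = (σ.P v.2.2).bg.p2 x := by rw [Bg.p2, Bg.p2, h.B _ hv]
      rw [e, map_add, (h.ok _ hv).pf, map_sum]
      refine congrArg _ (Finset.sum_congr rfl fun i _ => ?_)
      cases d.yt w (ty i) with
      | none => exact map_zero _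
      | some Y =>
        simp only [Option.elim_some, mF]
        cases (σ.P v.2.2).nk i with
        | none => exact map_zero _
        | some K =>
          simp only [Option.elim_some, map_smul, p2_ext]) (by omega)
  refine ⟨fun v => (0, g v, 0, 0), contDiffOn_const.prodMk (h1.prodMk contDiffOn_const), fun y => ?_⟩
  refine Prod.ext val_zero (Prod.ext ((h2 _ y.2.1).trans (funext fun x => ?_)) rfl)
  refine congrArg _ (Finset.sum_congr rfl fun i _ => ?_)
  cases d.yt w (ty i) with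
  | none => exact (elim_zero fun _ _ => rfl).symm
  | some Y =>
    refine elim_congr (o := (σ.P y.1.1).nk i) fun K hK => ?_
    by_cases hx : x ∈ K.dp 1
    · simp only [Option.elim_some, Nk.ms, lb_eq K (h.site.en i) y.2.2.1 hx, lbF]
      rw [show (σ.P (σ.pt k y).2.2).nk i = some K from hK, cv_pt h (cr hβ) hk']
      rfl
    · exact (smul_eq_zero_of_right _ (K.ext_zero _ hx)).trans
        (smul_eq_zero_of_right _ (K.ext_zero _ hx)).symm

/-- **MAP-M** -/
theorem mo (s : Pz X 0 fun i => d.e (ty i)) (σ : Cel s nc nr T) (h : σ.toFam.OK) (hβ : s.Gd σ.β) :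
    (∀ i b, s.Inf i b → σ.Fn fun _ c => s.mo σ.β i b c) ∧
    (∀ i, s.nk i = none → ContDiffOn ℝ ∞ (fun t => (σ.P t).len i) σ.Q) ∧
    ∀ g : T → ℝ, ContDiffOn ℝ ∞ g σ.Q → σ.Fn fun t _ => g t := by
  refine ⟨fun i b hb => ?_, fun i hi t ht => ContDiffAt.contDiffWithinAt ?_, fun g hg =>
    ⟨fun k _ => ⟨_, hg.comp contDiff_snd.snd.contDiffOn fun _ h => h, fun _ => rfl⟩,
      fun _ _ e _ => congrArg g e.symm⟩⟩
  · obtain ⟨L, hL, h1⟩ := id hb
    simp only [Pz.mo, Option.mem_def.1 hL, Option.elim_some]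
    refine ⟨fun k hk => ?_, fun y y' _ ⟨u, hu, e⟩ => ?_⟩
    swap
    · obtain ⟨K, -, h2⟩ := h.en _ y.2.1 i L hL
      simp only [← Wal9.ng_mo h2, e]
      exact Wal9.mo_act K (hβ i b hb).inv ((ng_inf h2).2 h1) y.2.2.1 hu.1
    have hk' : 4 ≤ k := by omega
    have dp := fun t (ht : L.β b t ≠ 0) => Nd18.Dp_mono one_le_two (Wal9.β_dp L h1 ht)
    refine ⟨_, sm_int (m := fun z : σ.C k × ℝ => L.β b z.2 * (pm b * ((d.e (ty i)).ψ (lbF i σ z) -
      (d.e (ty i)).ψ (En3.L (σ.β i b))))) (isOpen_U h)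
      (fun ⟨v, t⟩ hz => ContDiffAt.contDiffWithinAt ?_) fun v hv => ?_, fun y => ?_⟩
    · by_cases ht : t ∈ Dp L.p L.q 1
      · obtain ⟨K₀, R⟩ := rp_end h hz.1 hL
        obtain ⟨K, k1, k2⟩ := h.en _ hz.1 i L hL
        obtain rfl := Option.mem_unique k1 R.mem₀
        have : ContDiff ℝ ∞ (L.β b) := by
          have := Real.smoothTransition.contDiff (n := ⊤)
          cases b
          exacts [contDiff_const.sub (this.comp (contDiff_id.sub contDiff_const)),
            this.comp (contDiff_id.sub contDiff_const)]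
        exact (this.contDiffAt.comp _ contDiffAt_snd).mul (contDiffAt_const.mul
          (((h.site.en i).sψ.contDiffAt.comp _ (lbF_at h (cr hβ) hk' R hz.1
            (by simpa [ng_p k2, ng_q k2] using ht))).sub contDiffAt_const))
      · exact contDiffAt_const.congr_of_eventuallyEq (((continuousAt_snd (p := (v, t))).eventually
          (Nd18.isClosed_Dp.isOpen_compl.mem_nhds ht)).mono fun z hz =>
            mul_eq_zero_of_left (by_contra fun k => hz (dp _ k)) _)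
    · obtain ⟨r, hr⟩ := lb_far h (cr hβ) hk' hL h1 hv (hβ i b hb).flat
      obtain ⟨r', -, h2, -⟩ := Wal9.β_T L b
      refine ⟨max r r', hr.mono fun u hu t ht => ?_⟩
      rw [← Wal9.abs_pm b, max_lt_iff, lt_abs, lt_abs] at ht
      by_cases h3 : L.β b t = 0
      · exact mul_eq_zero_of_left h3 _
      · have h4 := h2 t h3
        rw [show (d.e (ty i)).ψ (lbF i σ (u, t)) = _ from hu t (by
          rcases ht with ⟨a | a, c | c⟩ <;> linarith), sub_self, mul_zero, mul_zero]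
    · obtain ⟨K, -, k2⟩ := h.en _ y.2.1 i L hL
      refine congrArg _ (funext fun t => ?_)
      by_cases h3 : L.β b t = 0
      · simp only [h3, zero_mul]
      · simp only [lbF_end h hL (z := (σ.pt k y, t)) y.2.1, cv_pt h (cr hβ) hk', ← Wal9.ng_pb k2,
          lb_eq K (h.site.en i) y.2.2.1 (by rw [ng_p k2, ng_q k2]; exact dp t h3)]
  · rcases h.nk t ht i hi with k | ⟨K₀, -, a, b, -, -, ℓ, V, hV, h1, h2⟩
    · refine (contDiffAt_const (c := 2)).congr_of_eventuallyEq (k.mono fun t k => ?_)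
      cases e : (σ.P t).nk i with
      | none => simp [Pz.len, e]
      | some K =>
        obtain ⟨a, h1, h2⟩ := k K e
        simp [Pz.len, e, h1, h2]
    · have c := fun r : ℝ => (h1.contDiffAt (prod_mem_nhds hV univ_mem)).comp t
        (contDiffAt_id.prodMk (contDiffAt_const (c := r)))
      refine ((c b).sub (c a)).congr_of_eventuallyEq (mem_of_superset hV fun t ht => ?_)
      obtain ⟨-, K, k1, k2, k3, -⟩ := h2 t ht
      simp [Pz.len, Option.mem_def.1 k1, k2, k3]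

end Crest.Agent.X212.St29
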