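import Crest.Agent.X212.Kh11.Lev
import Crest.Agent.X212.Sm10.Mv3a

/-!
# X212 / St29 (helper29): KH-E1, a Haken family of the cut manifold goes down
-/

set_option autoImplicit false
set_option linter.unusedSectionVars false

open Finset Classical

noncomputable section

namespace Crest.Agent.X212.St29.E1

open Hp13 hiding sub_cl cl_low om_low cl_mono exOn_pb exOn_add exOn_neg exOn_congr dp_iff coc_iff
open Hk
open Alg36 (Om Esc mix)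
open Kh11 (WS)
open Ind26 (Cov)
open Sm10.Mv (two_symm two_rg mem_cl_sub)

variable {P Q R : Type} [PartialOrder P] [Fintype P] [PartialOrder Q] [Fintype Q] [PartialOrder R]
  {π : Q → P} {W₀ X K B Y H : Set P} {W S U V G : Set Q} {b b' q : Q} {x : P} {w : P → P → ℤ}
  {t : St} {f : t.P → P} {car : P → R}

/-- `π` is an isomorphism of the upper set `W` onto `W₀` and of the stars -/
structure LI (π : Q → P) (W₀ : Set P) (W : Set Q) : Prop where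
  cov : Cov ⟨P, W₀⟩ ⟨Q, W⟩ 0 π
  up : IsUpperSet W

namespace LI

variable (h : LI π W₀ W)
include h

theorem mono : Monotone π := h.cov.toLift.mon

theorem mem (hb : b ∈ W) : π b ∈ W₀ := h.cov.toLift.mem hb

theorem le (hb : b ∈ W) (hb' : b' ∈ W) : π b ≤ π b' ↔ b ≤ b' :=
  ⟨fun l => (h.cov.le_iff hb hb').2 ⟨l, rfl⟩, fun l => h.mono l⟩

theorem dn (hb : b ∈ W) (l : q ≤ b) (k : π q ∈ W₀) : q ∈ W := (h.cov.dn b hb q l).2 ⟨k, rfl⟩

theorem lo (hb : b ∈ W) (l : x ≤ π b) : ∃ q ≤ b, π q = x :=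
  let ⟨q, k, e⟩ := h.cov.toLift.ex hb (.inr l); ⟨q, h.cov.refl b hb q b k Cm.rfl (e ▸ l), e⟩

theorem hi (hb : b ∈ W) (l : π b ≤ x) : ∃ q, b ≤ q ∧ π q = x :=
  let ⟨q, k, e⟩ := h.cov.toLift.ex hb (.inl l); ⟨q, h.cov.refl b hb b q Cm.rfl k (e ▸ l), e⟩

theorem mem_img (s : S ⊆ W) (hq : q ∈ W) : π q ∈ π '' S ↔ q ∈ S :=
  h.cov.bij.injOn.mem_image_iff s hq

theorem ws (s : S ⊆ W) : WS S (π '' S) π :=
  WS.of_iso (fun _ k => ⟨_, k, rfl⟩) (fun _ k => k) fun _ k _ k' => h.le (s k) (s k')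

theorem low (s : S ⊆ W) (k : IsLowerSet S) : IsLowerSet (π '' S) := by
  rintro _ x l ⟨b, hb, rfl⟩
  obtain ⟨q, l', e⟩ := h.lo (s hb) l
  exact ⟨q, k l' hb, e⟩

theorem upp (s : S ⊆ W) (k : IsUpperSet S) : IsUpperSet (π '' S) := by
  rintro _ x l ⟨b, hb, rfl⟩
  obtain ⟨q, l', e⟩ := h.hi (s hb) l
  exact ⟨q, k l' hb, e⟩

theorem img {p : P → Prop} (k : ∀ x, p x → x ∈ W₀) : π '' {q | q ∈ W ∧ p (π q)} = {x | p x} :=
  Set.ext fun x => ⟨fun ⟨_, a, e⟩ => e ▸ a.2, fun a =>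
    let ⟨q, hq, e⟩ := h.cov.toLift.exA (k x a); ⟨q, ⟨hq, e ▸ a⟩, e⟩⟩

theorem ws' {p : P → Prop} (k : ∀ x, p x → x ∈ W₀) : WS {q | q ∈ W ∧ p (π q)} {x | p x} π :=
  h.img k ▸ h.ws fun _ a => a.1

/-- the map of chains -/
def im : Ch Q → Ch P := h.cov.toLift.im

theorem top_im (d : Ch Q) : (h.im d).top = π d.top := h.cov.toLift.top_im d

theorem bot_im (d : Ch Q) : (h.im d).bot = π d.bot := h.cov.toLift.bot_im d

theorem sd : LI h.im (Ch.top ⁻¹' W₀) (Ch.top ⁻¹' W) := ⟨h.cov.sd, h.up.preimage Ch.top_mono⟩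

theorem lev (hf : Tw P t f) : ∃ (t' : St) (g : t'.P → Q) (π' : t'.P → t.P), Tw Q t' g ∧
    LI π' (f ⁻¹' W₀) (g ⁻¹' W) ∧ (∀ y, f (π' y) = π (g y)) ∧
    ∀ S ⊆ W, π' '' (g ⁻¹' S) = f ⁻¹' (π '' S) := by
  obtain ⟨u, g, π', h1, h2, h3⟩ := h.cov.desc (hf.desc W₀)
  replace h2 : Cov ⟨t.P, f ⁻¹' W₀⟩ ⟨u.P, g ⁻¹' W⟩ 0 π' := by
    rw [← show u.A = g ⁻¹' W from h1.A_eq]
    exact h2
  have e := congrFun h3
  refine ⟨lv0 u.P, g, π', Tw.of_desc h1, ⟨h2, h.up.preimage h1.mono⟩, e, fun S s => Set.ext fun y =>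
    ⟨fun ⟨q, a, k⟩ => ⟨_, a, k ▸ (e q).symm⟩, fun ⟨q, a, k⟩ => ?_⟩⟩
  obtain ⟨p, hp, rfl⟩ := h2.toLift.exA (a := y) (show f y ∈ W₀ from k ▸ h.mem (s a))
  exact ⟨p, (h.mem_img s hp).1 ⟨q, a, k.trans (e p)⟩, rfl⟩

theorem ines (s : G ⊆ W) (k : Ines G (pb π w)) : Ines (π '' G) w := by
  obtain ⟨Z, z1, z2, z3⟩ := k
  have e : ∀ q ∈ G, ind (π '' Z) (π q) = ind Z q := fun q hq => by
    simp only [ind, h.mem_img (z1.trans s) (s hq)]
  refine ⟨π '' Z, Set.image_mono z1, (h.ws (z1.trans s)).ctr_iff.1 z2, z3.imp ?_ ?_⟩ <;>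
  · rintro k _ ⟨p, hp, rfl⟩ _ ⟨q, hq, rfl⟩ l
    refine (k p hp q hq ((h.le (s hp) (s hq)).1 l)).trans ?_
    simp only [Pi.neg_apply, cb, e p hp, e q hq]

/-- a ball off the cut lifts -/
theorem bal (k : Bal Y B) (s : B ⊆ W₀) : Bal W {q | q ∈ W ∧ π q ∈ B} := by
  have u : IsUpperSet {q | q ∈ W ∧ π q ∈ B} := h.up.inter (k.up.preimage h.mono)
  have m : ∀ {T : Type} [PartialOrder T] {E : Set T} (_ : IsUpperSet E) (c : Ch T),
      c ∈ mix E ↔ c.top ∈ E ∧ c.bot ∉ E := fun hE _ => and_congr (mt_iff hE) (mt_low hE.compl)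
  refine ⟨u, fun _ a => a.1, ?_, (h.ws' s).eu_eq.trans k.eu⟩
  convert (h.sd.ws' (p := (· ∈ mix B)) fun c a => s ((m k.up c).1 a).1).conn_iff.2 k.conn using 1
  refine Set.ext fun d => ?_
  simp only [m u, m k.up, Set.mem_ofPred_eq, h.top_im, h.bot_im, Set.mem_preimage]
  exact ⟨fun a => ⟨a.1.1, a.1.2, fun j => a.2 ⟨h.dn a.1.1 d.bot_le_top (s j), j⟩⟩,
    fun a => ⟨⟨a.1, a.2.1⟩, fun j => a.2.2 j.2⟩⟩

end LI

/-- `X` is the image of `V` up to the lower set `K` -/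
structure Ps (π : Q → P) (W V G : Set Q) (X K : Set P) : Prop where
  up : IsUpperSet V
  sV : V ⊆ W
  sG : G ⊆ W
  low : IsLowerSet G
  sub : G ⊆ Om V
  upX : IsUpperSet X
  im : ∀ q ∈ V, π q ∈ X
  dj : ∀ q ∈ G, π q ∉ X
  lowK : IsLowerSet K
  cov : cl X ⊆ π '' (V ∪ G) ∪ K
  om : ∀ y ∈ Om V, y ∉ G → π y ∈ K

theorem Ps.zero (k : Ps π W V G X K) (h : LI π W₀ W) (i : INC V G) (td : TD X w)
    (fl : Flat (K ∩ cl X) w) : Ines (π '' G) w := by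
  have c : ∀ {y}, y ∈ cl V → π y ∈ cl X := fun ⟨v, a, l⟩ => ⟨_, k.im v a, h.mono l⟩
  have z : ∀ {x y}, x ≤ y → y ∈ cl X → y ∈ K → w x y = 0 := fun l a j =>
    fl _ ⟨k.lowK l j, cl_low l a⟩ _ ⟨j, a⟩ l
  have n : ∀ e : Ch P, e.top ∈ cl X → w e.bot e.top ≠ 0 → e.top ∈ π '' (V ∪ G) := fun e a j =>
    (k.cov a).resolve_right fun m => j (z e.bot_le_top a m)
  have n' : ∀ e : Ch P, e.top ∈ X → w e.bot e.top ≠ 0 → e.top ∈ π '' V := fun e a j =>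
    let ⟨q, m, l⟩ := n e (sub_cl a) j; ⟨q, m.resolve_right fun g => k.dj q g (l ▸ a), l⟩
  have s0 : ∀ {x}, x ∈ π '' V → x ∈ W₀ := fun ⟨_, a, e⟩ => e ▸ h.mem (k.sV a)
  refine h.ines k.sG (i.zero ⟨⟨cocOn_mono (cocOn_pb td.coc h.mono) fun _ => c,
    fun x y a l => td.nn _ _ (c a) (h.mono l), fun x y a l => td.le1 _ _ (c a) (h.mono l)⟩,
    ?_, ?_, ?_⟩ fun x _ y a l => z (h.mono l) (c (om_sub_cl a.1)) (k.om y a.1 a.2))
  · convert (h.sd.ws' (p := (· ∈ CA X w)) fun e a => s0 (n' e a.1 a.2.ne')).conn_iff.2 td.conn using 1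
    refine Set.ext fun d => ?_
    simp only [CA, Set.mem_ofPred_eq, h.top_im, h.bot_im, Set.mem_preimage, pb]
    exact ⟨fun a => ⟨k.sV a.1, k.im _ a.1, a.2⟩, fun a => ⟨(h.mem_img k.sV a.1).1 (by
      simpa only [h.top_im] using n' (h.im d) (h.top_im d ▸ a.2.1)
        (by rw [h.top_im, h.bot_im]; exact a.2.2.ne')), a.2.2⟩⟩
  · rw [← td.chi, chi, chi]
    refine (sum_nbij (t := univ.filter fun e : Ch P => e.top ∈ π '' V) h.im (fun d a => ?_)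
      (fun d a d' a' => h.sd.cov.bij.injOn ?_ ?_) (fun e a => ?_) fun d _ => ?_).trans
      (sum_subset (fun e a => ?_) fun e a j => ?_)
    · exact mem_filter.2 ⟨mem_univ _, _, (mt_iff k.up).1 (mem_filter.1 a).2, (h.top_im d).symm⟩
    · exact k.sV ((mt_iff k.up).1 (mem_filter.1 a).2)
    · exact k.sV ((mt_iff k.up).1 (mem_filter.1 a').2)
    · obtain ⟨d, m, rfl⟩ := h.sd.cov.toLift.exA (a := e) (s0 (mem_filter.1 a).2)
      exact ⟨d, mem_filter.2 ⟨mem_univ _, (mt_iff k.up).2 ((h.mem_img k.sV m).1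
        (h.top_im d ▸ (mem_filter.1 a).2))⟩, rfl⟩
    · rw [h.top_im, h.bot_im, LI.im, Ind26.Lift.sg_im]; rfl
    · obtain ⟨q, m, l⟩ := (mem_filter.1 a).2
      exact mem_filter.2 ⟨mem_univ _, (mt_iff k.upX).2 (l ▸ k.im q m)⟩
    · rw [by_contra fun m => j (mem_filter.2 ⟨mem_univ _,
        n' e ((mt_iff k.upX).1 (mem_filter.1 a).2) m⟩), mul_zero]
  · obtain ⟨e, a⟩ := td.ne
    rw [mem_cv (om_low k.upX)] at a
    obtain ⟨q, m, l⟩ := n e a.1.2 a.2.ne'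
    have g : q ∈ G := m.resolve_left fun v => a.1.1 (l ▸ k.im q v)
    obtain ⟨d, m', rfl⟩ := h.sd.cov.toLift.exA (a := e) (show e.top ∈ W₀ from l ▸ h.mem (k.sG g))
    have l' : π q = π d.top := l.trans (h.top_im d)
    refine ⟨d, (mem_cv (om_low k.up)).2 ⟨k.sub (h.cov.bij.injOn (k.sG g) m' l' ▸ g), ?_⟩⟩
    simpa only [← h.top_im, ← h.bot_im, pb] using a.2

theorem Ps.lev (k : Ps π W V G X K) (h : LI π W₀ W) (i : INC V G) (hf : Tw P t f)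
    {w : t.P → t.P → ℤ} (td : TD (f ⁻¹' X) w) (fl : Flat (f ⁻¹' (K ∩ cl X)) w) :
    Ines (f ⁻¹' (π '' G)) w := by
  obtain ⟨t', g, π', hg, h', e, e'⟩ := h.lev hf
  rw [← e' G k.sG]
  refine Ps.zero (K := f ⁻¹' K) ⟨hg.upper k.up, fun _ a => k.sV a, fun _ a => k.sG a, hg.lower k.low,
    hg.om V ▸ fun _ a => k.sub a, hf.upper k.upX, fun q a => ?_, fun q a => ?_, hf.lower k.lowK, ?_,
    fun y a j => ?_⟩ h' (i.pre hg) td (by rwa [hf.cl])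
  · exact Set.mem_preimage.2 (e q ▸ k.im _ a)
  · exact fun m => k.dj _ a (e q ▸ Set.mem_preimage.1 m)
  · rw [hf.cl, ← Set.preimage_union, e' _ (Set.union_subset k.sV k.sG)]
    exact fun _ a => k.cov a
  · rw [hg.om] at a
    exact Set.mem_preimage.2 (e y ▸ k.om _ a j)

/-- the cut surface `H` of `Y` -/
structure Sit (π : Q → P) (Y H : Set P) (W : Set Q) : Prop where
  li : LI π (Y \ H) W
  amb : Amb Y
  low : IsLowerSet H
  mf : MfIn H Y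
  ic : IcP H Y
  esc : ∀ x ∈ H, ∃ o, o ∉ Y ∧ Rch H x o

theorem Sit.nb (h : Sit π Y H W) (hS : TraSStmt) (hI : IcStmt) (s : G ⊆ W) (l : IsLowerSet G)
    (c : Conn G) (k : NB W G) : NB Y (π '' G) := fun t f hf B hB j => by
  obtain ⟨u, f', B', h1, h2, h3, h4⟩ := hS t.P _ _ _ B _ (h.amb.pre hf) (hf.upper h.amb.up) subset_rfl
    (hf.lower h.low) (h.mf.pre h.low hf) hB (hf.lower (h.li.low s l))
    (hf.conn.2 ((h.li.ws s).conn_iff.1 c))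
    (Set.disjoint_left.2 fun x ⟨q, a, e⟩ m => (h.li.mem (s a)).2 (e ▸ m.1)) j
  have hF := hf.trans h1
  have fl := (hI P).2.2 Y Y H h.amb.sub h.low h.mf (Set.disjoint_left.2 fun _ a m => m.1 a.2) h.ic _ _
    hF _ (.inr (h2.sp (h.amb.toRg.pre hF)))
    (flat_of_disj (Set.disjoint_left.2 fun _ a m => a.2.1 (h2.sub m))) h4
  obtain ⟨t', g, π', hg, h', e, -⟩ := h.li.lev hF
  refine k t' g hg _ (h'.bal h2 fun x a => ⟨h2.sub a, fun m => ?_⟩) fun q a =>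
    ⟨s a, h3 ⟨_, a, (e q).symm⟩⟩
  obtain ⟨o, o1, o2⟩ := h.esc _ m
  obtain ⟨o, rfl⟩ := hF.surj o
  refine o1 (h2.sub ((((hF.ws H).rch_iff m (o2.mem m)).2 o2).ind a fun p hp q hq l =>
    ⟨h2.up l, fun j => ?_⟩))
  have := sub_cl (X := Y) (h2.sub j)
  exact (cb_ind_eq_zero.1 (fl p ⟨hp, cl_low (hF.mono l) this⟩ q ⟨hq, this⟩ l)).2 j

theorem Sit.two (h : Sit π Y H W) (k : Mem (car ∘ π) W U G V) (hc : Monotone car) :
    Two car Y (π '' U) (π '' G) (Y \ π '' (U ∪ G)) := by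
  have l := h.li
  have sU := k.two.sub
  have s := Set.union_subset sU k.sub
  have lw : IsLowerSet (U ∪ G) := fun _ _ a m =>
    m.elim (fun m => mem_cl_sub k ⟨_, m, a⟩) fun m => .inr (k.two.bd.low a m)
  have tv : ∀ {S : Set Q} {X : Set P}, (∀ q ∈ W, π q ∈ X ↔ q ∈ S) → S ⊆ W →
      TV (car ∘ π) S (G ∩ W) → TV car X (π '' G ∩ Y) := by
    rintro S X e sS j T hT _ ⟨⟨g, a, rfl⟩, -⟩ m
    convert (l.ws fun _ a => sS a.1).ctr_iff.1 (j T hT g ⟨a, k.sub a⟩ m) using 1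
    refine Set.ext fun y => ⟨fun ⟨y1, y2, y3⟩ => ?_, ?_⟩
    · obtain ⟨q, q1, rfl⟩ := l.hi (k.sub a) y2
      exact ⟨q, ⟨(e q (l.up q1 (k.sub a))).1 y1, q1, y3⟩, rfl⟩
    · rintro ⟨q, ⟨q1, q2, q3⟩, rfl⟩
      exact ⟨(e q (sS q1)).2 q1, l.mono q2, q3⟩
  refine ⟨hc, l.upp sU k.two.up, h.amb.up.sdiff_of_isLowerSet (l.low s lw),
    fun _ ⟨_, a, e⟩ => e ▸ (l.mem (sU a)).1, Set.sdiff_subset, fun y a => ?_,
    Set.disjoint_left.2 fun _ a m => m.2 (Set.image_mono Set.subset_union_left a),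
    Set.disjoint_left.2 fun _ m a => m.2 (Set.image_mono Set.subset_union_right a),
    ⟨l.low k.sub k.two.bd.low, ?_, ?_⟩, tv (fun q => l.mem_img sU) sU k.two.tv,
    tv (fun q a => ?_) k.two.sub' k.two.tv'⟩
  · by_cases m : y ∈ π '' (U ∪ G)
    · rw [Set.image_union] at m
      exact m.imp_right .inl
    · exact .inr (.inr ⟨a, m⟩)
  · rintro _ ⟨g, a, rfl⟩
    obtain ⟨n, u, m, j⟩ := k.two.bd.sub a
    exact ⟨fun i => n ((l.mem_img sU (k.sub a)).1 i), _, ⟨u, m, rfl⟩, l.mono j⟩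
  · rintro - - y ⟨n, _, ⟨u, m, rfl⟩, j⟩ -
    obtain ⟨q, q1, rfl⟩ := l.lo (sU m) j
    exact ⟨q, k.om ⟨fun i => n ⟨q, i, rfl⟩, u, m, q1⟩, rfl⟩
  · rw [Set.mem_sdiff, l.mem_img s a]
    exact ⟨fun m => ((k.two.cov q a).resolve_left fun i => m.2 (.inl i)).resolve_left
      fun i => m.2 (.inr i), fun m => ⟨(l.mem a).1, fun i => i.elim
        (Set.disjoint_right.1 k.two.dj m) (Set.disjoint_left.1 k.two.dg m)⟩⟩

theorem Sit.mem (h : Sit π Y H W) (hD : TraDStmt) (hS : TraSStmt) (hI : IcStmt)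
    (k : Mem (car ∘ π) W U G V) (hc : Monotone car) :
    Mem car Y (π '' U) (π '' G) (Y \ π '' (U ∪ G)) := by
  have l := h.li
  have T := h.two k hc
  have s : π '' G ⊆ Y := fun _ ⟨_, a, e⟩ => e ▸ (l.mem (k.sub a)).1
  have om : Om (π '' U) ⊆ π '' G := by
    rintro y ⟨n, _, ⟨u, m, rfl⟩, j⟩
    obtain ⟨q, q1, rfl⟩ := l.lo (k.two.sub m) j
    exact ⟨q, k.om ⟨fun i => n ⟨q, i, rfl⟩, u, m, q1⟩, rfl⟩
  refine ⟨T, s, (l.ws k.sub).conn_iff.1 k.conn, k.ne.image π, om, fun t f hf w td _ => ?_,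
    fun t f hf w td on => ?_, h.nb hS hI k.sub k.two.bd.low k.conn k.nb⟩
  · refine Ps.lev (K := ∅) ⟨k.two.up, k.two.sub, k.sub, k.two.bd.low, k.two.bd.sub, T.up,
      fun q a => ⟨q, a, rfl⟩, fun q a => T.bd.not ⟨q, a, rfl⟩, isLowerSet_empty, fun y a => .inl ?_,
      fun y a j => j (k.om a)⟩ l k.inc hf td fun _ a => a.1.elim
    rw [Set.image_union]
    exact (mem_cl.1 a).imp_right fun m => om m
  set X := Y \ π '' (U ∪ G)
  have T' := two_symm T h.amb.up s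
  have k' := two_symm k.two l.up k.sub
  have sb : Sub Y X := .of h.amb (two_rg T' h.amb.toRg s) T'.sub
  have oX : ∀ y ∈ Om X, y ∈ Y → y ∈ π '' G := fun y ⟨n, v, a, j⟩ m =>
    ((T.cov y m).resolve_left fun i => Set.disjoint_left.1 T.dj (T.up j i) a).resolve_right n
  have nH : ∀ y ∈ π '' G, y ∉ H := fun _ ⟨_, a, e⟩ => e ▸ (l.mem (k.sub a)).2
  obtain ⟨u, f', w', h1, h2⟩ := hD t.P _ _ _ _ w (sb.pre hf) (hf.upper sb.up) subset_rfl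
    (hf.lower h.low) ((h.mf.mono fun _ a => a.2.1).pre h.low hf) td
  have hF := hf.trans h1.tw
  have on' : Flat ((f ∘ f') ⁻¹' (Om X \ π '' G)) w' := by
    have := h1.on (hf.upper sb.up) (T'.bd.pre hf) (Set.disjoint_left.2 fun _ a m => a.1.1 m.2) on
    rwa [On, h1.tw.om, hf.om] at this
  have fl := (hI P).2.2 Y X H sb h.low h.mf
    (Set.disjoint_left.2 fun y a m => nH y (oX y m a.2) a.1) h.ic _ _ hF w' (.inl h1.td)
    (on'.mono fun y a => ⟨a.2, fun m => nH _ m a.1⟩) h2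
  have lw := T'.bd.low_diff sb.up
  refine h1.ines _ (T'.bd.pre hf) on (Ps.lev (K := H ∪ Om X \ π '' G) ⟨k'.up, k'.sub, k.sub,
    k'.bd.low, k'.bd.sub, sb.up, fun q a => ⟨(l.mem (k'.sub a)).1, fun i => ?_⟩,
    fun q a => T'.bd.not ⟨q, a, rfl⟩, h.low.union lw, fun y a => ?_, fun y a j => ?_⟩ l k.inc' hF h1.td
    fun x a y c j => c.1.elim (fun m => fl x ⟨h.low (hF.mono j) m, a.2⟩ y ⟨m, c.2⟩ j)
      fun m => on' x (lw (hF.mono j) m) y m j)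
  · exact ((l.mem_img (Set.union_subset k.two.sub k.sub) (k'.sub a)).1 i).elim
      (Set.disjoint_left.1 k'.dj a) (Set.disjoint_left.1 k.two.dg a)
  · by_cases m : y ∈ H ∪ Om X \ π '' G
    · exact .inr m
    rcases mem_cl.1 a with a | a
    · obtain ⟨q, q1, rfl⟩ := l.cov.toLift.exA (a := y) ⟨a.1, fun i => m (.inl i)⟩
      exact .inl ⟨q, ((k.two.cov q q1).resolve_left fun i => a.2 ⟨q, .inl i, rfl⟩).symm, rfl⟩
    · exact .inl (Set.image_mono Set.subset_union_right (by_contra fun i => m (.inr ⟨a, i⟩)))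
  · obtain ⟨n, v, a, i⟩ := a
    have nW : y ∉ W := fun m => (k.two.cov y m).elim
      (fun c => Set.disjoint_left.1 k.two.dj (k.two.up i c) a) (·.elim j n)
    have nY : π y ∈ Y → π y ∈ H := fun m => by_contra fun c => nW (l.dn (k'.sub a) i ⟨m, c⟩)
    by_cases m : π y ∈ Y
    · exact .inl (nY m)
    · refine .inr ⟨⟨fun c => m c.1, π v, ⟨(l.mem (k'.sub a)).1, fun c => ?_⟩, l.mono i⟩,
        fun c => m (s c)⟩
      exact ((l.mem_img (Set.union_subset k.two.sub k.sub) (k'.sub a)).1 c).elim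
        (Set.disjoint_left.1 k'.dj a) (Set.disjoint_left.1 k.two.dg a)

theorem Sit.np (h : Sit π Y H W) {U' G' V' : Set Q} (k : Mem (car ∘ π) W U G V)
    (k' : Mem (car ∘ π) W U' G' V') (n : NP U G G' V') :
    NP (π '' U) (π '' G) (π '' G') (Y \ π '' (U' ∪ G')) := fun j => by
  have l := h.li
  obtain ⟨ζ, z1, z2⟩ := n fun q a => (l.mem_img k.two.sub (k'.sub a)).1 (j ⟨q, a, rfl⟩)
  have : Nonempty Q := k.ne.nonempty
  let σ := Function.invFunOn π W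
  have e : ∀ q ∈ W, σ (π q) = q := fun q a => l.cov.bij.injOn.leftInvOn_invFunOn a
  have ex : ∀ {S}, S ⊆ W → (ExOn (π '' S) (pb σ ζ) ↔ ExOn S ζ) := fun s =>
    ⟨fun ⟨g, c⟩ => ⟨g ∘ π, fun x a y a' i => by
      simpa only [pb, Function.comp, e x (s a), e y (s a')] using
        c _ ⟨x, a, rfl⟩ _ ⟨y, a', rfl⟩ (l.mono i)⟩,
    fun ⟨g, c⟩ => ⟨g ∘ σ, by
      rintro _ ⟨x, a, rfl⟩ _ ⟨y, a', rfl⟩ i
      simpa only [pb, Function.comp, e x (s a), e y (s a')] using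
        c x a y a' ((l.le (s a) (s a')).1 i)⟩⟩
  have s := Set.union_subset k.two.sub k.sub
  have m : ∀ x ∈ (π '' U ∪ π '' G) ∩ (Y \ π '' (U' ∪ G') ∪ π '' G'),
      ∃ q ∈ (U ∪ G) ∩ (V' ∪ G'), π q = x := fun x a => by
    rw [← Set.image_union] at a
    obtain ⟨⟨q, q1, rfl⟩, a⟩ := a
    refine ⟨q, ⟨q1, a.elim (fun a => ?_) fun a => .inr ((l.mem_img k'.sub (s q1)).1 a)⟩, rfl⟩
    exact ((k'.two.cov q (s q1)).resolve_left fun i => a.2 ⟨q, .inl i, rfl⟩).symm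
  refine ⟨pb σ ζ, fun x a y a' v a'' i i' => ?_, by rwa [ex k.sub, ex k'.sub]⟩
  obtain ⟨x, x1, rfl⟩ := m x a
  obtain ⟨y, y1, rfl⟩ := m y a'
  obtain ⟨v, v1, rfl⟩ := m v a''
  simp only [pb, e _ (s x1.1), e _ (s y1.1), e _ (s v1.1)]
  exact z1 x x1 y y1 v v1 ((l.le (s x1.1) (s y1.1)).1 i) ((l.le (s y1.1) (s v1.1)).1 i')

/-! ### the cut -/

theorem amb_yo {s : St} (h : Cut21.Stt s) : Amb (Yo s.A) := by
  have g := Sup43.good_inn h.toGood h.thick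
  refine ⟨⟨Sup43.inn_up, g.mf, g.nice⟩, g.bnd, g.bnd2, fun a ha => by_contra fun n => ?_⟩
  obtain ⟨b, -, r, x, x1, x2⟩ := h.esc a ha.1
  have : b ∈ Yo s.A ∧ Rch (Yo s.A) a b := Ind26.rch_ind r
      (p := fun b => b ∈ Yo s.A ∧ Rch (Yo s.A) a b) ⟨ha, Rch.rfl⟩ fun p _ q _ c k =>
    have m : q ∈ Yo s.A := by_contra fun m => n ⟨p, k.1, k.2, q, m, c⟩
    ⟨m, k.2.trans (Rch.of_cm k.1 m c)⟩
  exact n ⟨b, this.1, this.2, x, fun m => x1 m.1, x2⟩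

variable {s' : St} {z : t.P → t.P → ℤ} {ρ : s'.P → t.P}

theorem s1_yo (h : CutH t s' z ρ) : S1 (Yo t.A) z :=
  have := Sup43.sf_inn h.sf
  ⟨(coc_iff Sup43.inn_up).1 this.coc, fun _ _ a l => this.mono _ _ ((dp_iff Sup43.inn_up).2 ⟨l, a⟩),
    fun x y ⟨v, a, j⟩ l => h.jk x y ((Classical.em (y ∈ t.A)).imp_right fun n => ⟨n, v, a.1, j⟩) l⟩

theorem zero_yo (h : CutH t s' z ρ) {x y : t.P} (a : x ∉ HS (Yo t.A) z) (c : y ∈ Yo t.A) (l : x ≤ y) :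
    z x y = 0 := le_antisymm (not_lt.1 fun k => a ⟨y, c, l, k⟩) ((s1_yo h).nn x y (sub_cl c) l)

theorem li_yo (h : CutH t s' z ρ) : LI ρ (Yo t.A \ HS (Yo t.A) z) (Yo s'.A) := by
  have c := h.cov
  have m1 : ∀ b ∈ Yo s'.A, ρ b ∈ Yo t.A \ HS (Yo t.A) z := fun b hb => by
    have : ∀ x, ρ b ≤ x → x ∈ t.A ∧ z (ρ b) x = 0 := fun x l => by
      obtain ⟨q, k, rfl⟩ := c.toLift.ex hb.1 (.inl l)
      have := c.refl b hb.1 b q Cm.rfl k l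
      exact (c.up b hb.1 q this).1 (Sup43.inn_up this hb).1
    exact ⟨⟨c.toLift.mem hb.1, fun ⟨_, o, n, l⟩ => n (this o l).1⟩,
      fun ⟨y, _, l, k⟩ => k.ne' (this y l).2⟩
  have m2 : ∀ b ∈ s'.A, ρ b ∈ Yo t.A \ HS (Yo t.A) z → b ∈ Yo s'.A := fun b hb a =>
    ⟨hb, fun ⟨_, q, n, l⟩ =>
      have k := Sup43.inn_up (c.toLift.mon l) a.1
      n ((c.up b hb q l).2 ⟨k.1, zero_yo h a.2 k (c.toLift.mon l)⟩)⟩
  exact ⟨⟨⟨c.mono, ⟨m1, c.bij.injOn.mono fun _ a => a.1, fun x a =>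
      let ⟨b, hb, e⟩ := c.toLift.exA a.1.1; ⟨b, m2 b hb (e ▸ a), e⟩⟩,
    fun b hb => c.star b hb.1, fun b hb => c.refl b hb.1⟩,
    fun b hb q l => iff_of_true (Sup43.inn_up l hb) ⟨m1 q (Sup43.inn_up l hb), rfl⟩,
    fun b hb q l => ⟨fun a => ⟨m1 q a, rfl⟩, fun a => m2 q ((c.dn b hb.1 q l).2
      ⟨a.1.1.1, zero_yo h a.1.2 (m1 b hb).1 (c.toLift.mon l)⟩) a.1⟩⟩, Sup43.inn_up⟩

/-- **E1** -/
theorem e1Stmt (hD : TraDStmt) (hS : TraSStmt) (hI : IcStmt) (hR : RslStmt) : E1Stmt := by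
  intro t s' z ρ h R _ car k U G V hc F
  obtain ⟨r1, r2, r3⟩ := hR t s' z ρ h
  have S : Sit ρ _ _ _ := ⟨li_yo h, amb_yo h.st, hs_low (s1_yo h), r1, r2, r3⟩
  refine ⟨fun i => ρ '' U i, fun i => ρ '' G i, fun i => Yo t.A \ ρ '' (U i ∪ G i),
    ⟨fun i => S.mem hD hS hI (F.mem i) hc, fun i j n => Set.disjoint_left.2 ?_,
      fun i j n => S.np (F.mem i) (F.mem j) (F.np i j n)⟩, fun j => ?_⟩
  · rintro _ ⟨q, a, rfl⟩ c
    exact Set.disjoint_left.1 (F.dj i j n) a ((S.li.mem_img (F.mem j).sub ((F.mem i).sub a)).1 c)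
  · rintro _ ⟨p, a, rfl⟩ _ ⟨q, c, rfl⟩ l
    exact zero_yo h (S.li.mem ((F.mem j).sub a)).2 (S.li.mem ((F.mem j).sub c)).1 l

end Crest.Agent.X212.St29.E1
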