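import Crest.Agent.X212.St29.Asm
import Crest.Agent.X212.Mol27.Chain
import Crest.Agent.X212.Sm25.Last
import Crest.Agent.X212.Hd34.S29b
import Crest.Agent.X212.Hd34.S29c

/-!
# X212 / St29 (helper29): the chain of stages with the last filling; the smooth hierarchy
-/

set_option autoImplicit false
set_option linter.unusedSectionVars false

open Set Filter Topology Function Classical
open scoped ContDiff Manifold NNReal Real
open Crest.GeometryTopology.DehnSurgery Crest.Agent.X212.Glue52 Crest.Agent.X212.Ext52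
open Crest.Agent.X212.Sm10 Crest.Agent.X212.Hp13 Crest.Agent.X212.Mol27 Crest.Agent.X212.Alg36
open Crest.Agent.X212.Hel40 (Vf Pre SmH)
open Crest.Agent.X212.Ind26 (Hier)
open Crest.Agent.X212.Sep15 (CM)
open Crest.Agent.X212.Bb31 (Fm)
open Crest.Agent.X212.Int54 (Ori)
open Crest.Agent.X212.Cab39 (Phi)

noncomputable section

namespace Crest.Agent.X212.St29

variable {Y : CM 3} {V : Vf Y} {M M' : Set Y}

/-- a path of logarithms of `1` stays on its side -/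
theorem side {T : Set (Y × ℝ)} (hT : ∀ p ∈ T, Circle.exp p.2 = 1) {σ : ℝ} (hσ : σ = 1 ∨ σ = -1)
    {y : Y} {q : Y × ℝ} (j : JoinedIn T (y, σ * (2 * π)) q) :
    JoinedIn {p | p ∈ T ∧ 0 < σ * p.2} (y, σ * (2 * π)) q := by
  obtain ⟨γ, hγ⟩ := j
  refine ⟨γ, fun t => ⟨hγ t, not_le.1 fun l => ?_⟩⟩
  have s2 : σ * σ = 1 := by rcases hσ with rfl | rfl <;> norm_num
  obtain ⟨u, hu⟩ := intermediate_value_univ (f := fun t => σ * (γ t).2) t 0
    (continuous_const.mul γ.continuous.snd) (show π ∈ Icc _ _ from ⟨by linarith [Real.pi_pos], by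
      simp only [γ.source, ← mul_assoc, s2]; linarith [Real.pi_pos]⟩)
  have e : (γ u).2 = σ * π := by
    rw [← one_mul (γ u).2, ← s2, mul_assoc]
    exact congrArg _ hu
  have := congrArg (fun z : Circle => (z : ℂ).re) (hT _ (hγ u))
  rcases hσ with rfl | rfl <;> norm_num [e, Complex.exp_neg, Complex.exp_pi_mul_I] at this

/-- the walks of an idle stage -/
theorem idle (S : Pre V M M') (hφ : ∀ y ∈ S.O, S.φ y = 1) (h : S.Cd false) :
    ∃ Q, IsCompact Q ∧ (∀ y ∈ Q, y ∈ S.B S.r ∧ 0 < S.tp y ∧ S.tm y < 0) ∧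
      (∀ y ∈ S.B S.r, 0 < S.tp y → ∃ y' ∈ Q, JoinedIn {y | y ∈ S.B S.r ∧ 0 < S.tp y} y y') ∧
      ∀ y ∈ S.B S.r, S.tm y < 0 → ∃ y' ∈ Q, JoinedIn {y | y ∈ S.B S.r ∧ S.tm y < 0} y y' := by
  obtain ⟨D, Q, hQ, Q1, hJ⟩ := h
  refine ⟨Q, hQ, fun y hy => (Q1 y hy).2, fun y hy l => ?_, fun y hy l => ?_⟩
  · obtain ⟨q, q1, j⟩ := hJ (y, -1 * (2 * π)) ⟨hy.1, by simp [hφ y hy.1],
      .inl ⟨l, by linarith [Real.pi_pos]⟩⟩ hy
    refine ⟨_, q1, ((side (fun p hp => hp.1.2.1 ▸ hφ _ hp.1.1) (.inr rfl) j).map continuous_fst).mono ?_⟩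
    rintro _ ⟨p, ⟨⟨⟨-, -, k⟩, b, -⟩, n⟩, rfl⟩
    exact ⟨b, k.elim (·.1) (·.elim (fun k => by linarith [k.2]) (·.1))⟩
  · obtain ⟨q, q1, j⟩ := hJ (y, 1 * (2 * π)) ⟨hy.1, by simp [hφ y hy.1],
      .inr (.inl ⟨l, by linarith [Real.pi_pos]⟩)⟩ hy
    refine ⟨_, q1, ((side (fun p hp => hp.1.2.1 ▸ hφ _ hp.1.1) (.inl rfl) j).map continuous_fst).mono ?_⟩
    rintro _ ⟨p, ⟨⟨⟨-, -, k⟩, b, -⟩, n⟩, rfl⟩
    exact ⟨b, k.elim (fun k => by linarith [k.2]) (·.elim (·.1) (·.2))⟩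

theorem chf : ChfStmt := by
  intro t c w q hA hw hq hc
  obtain ⟨n, N, hN, h⟩ := chain_start hq (zc_of hw.sf.coc hw.sf.mono hw.spr) hc
  obtain ⟨α, hα, e⟩ : ∃ α > (0 : ℝ), (4 * n + 7) * α = 1 / 16 :=
    ⟨1 / 16 / (4 * n + 7), by positivity, by field_simp⟩
  obtain ⟨δ, hδ, e'⟩ : ∃ δ > (0 : ℝ), 10 * (N + 1) * δ = α :=
    ⟨α / (10 * (N + 1)), by positivity, by field_simp⟩
  have n0 : (0 : ℝ) ≤ n * α := by positivity
  have l : Fintype.card t.P * δ ≤ N * δ := mul_le_mul_of_nonneg_right (by exact_mod_cast hN) hδ.le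
  refine ⟨δ, hδ, α, 2 * α, 3 * α, ⟨by linarith, by linarith, by linarith, by linarith⟩,
    fun L v Y V j hv sv sV hj ji ev => ?_⟩
  obtain ⟨ι, i1, -, i2⟩ := Sep15.exists_pd (fun _ => 0) L.isOpen hj ji
  obtain rfl : ι = j := funext i2
  obtain ⟨u, L', a, tp, tn, hu, S, C, sub, ch⟩ := h δ α (3 * α) α L v Y V ι
    ⟨hv, fun y hy => i1 ▸ hy.1, fun y hy => ev y hy.1⟩ hα (by linarith) le_rfl (by linarith)
    (by linarith)
  have z0 := cnd_zero' hu.toWk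
  obtain ⟨Q, hQ, Q1, Jp, Jm⟩ := idle (S.pre C hα z0.zc) (by
    rintro _ ⟨y, hy, rfl⟩
    exact (congrArg _ (symm_apply (S.src C hy))).trans (phi_zero (by linarith [S.hi]) hy))
    (S.cd C hα z0)
  obtain ⟨V', s1, s2, S', s3⟩ := Sm25.last sV (S.pre C hα z0.zc) (L'.isOpen_O (1 / 16))
    (fun y hy => hj y (sub hy.1)) (ji.mono fun y hy => sub hy.1) (image_mono (S.O16 C)) C.eq
    (Sm25.fillL hu L' C.fld sv.contDiffOn (c := α) (by linarith [S.k10]) (by linarith))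
    (fun _ hy => hy.1) (L'.isOpen_O α) (fun y hy h1 h2 =>
      ⟨⟨hy, by linarith, by linarith⟩, y, S.mem_MM hy h1.le h2.le, rfl⟩) hQ Q1 Jp Jm
  obtain ⟨k1, k2⟩ := Sm25.hi_of_last ch s2 S' s3
  have p0 : ∀ p, L.p p ≤ α := fun p =>
    (wS_zero (S := Op t.A) fun q ⟨n, a, ha, l⟩ => (n (hA l ha)).elim).trans_le hα.le
  simp only [p0, true_and] at k1 k2
  exact ⟨V', n + 1, s1, k2, k1⟩

/-- **the smooth hierarchy** of a knotted curve, from the hierarchies of the cut states -/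
theorem smH (hH : ∀ c, Cut21.Stt c → ∃ t f, Desc c t f ∧ Hier t) (k : KD) (hk : ¬ k.thick.IsUnknot) :
    ∃ l : Yc k.toTube → ℝ, ContMDiff (𝓡 3) 𝓘(ℝ, ℝ) ∞ l ∧ ∀ o : Fm 3 (Yc k.toTube), Ori (𝓡 3) o →
      SmH o fun y => Phi k y * Circle.exp (l y) :=
  smH_of Hd34.S29.i1Stmt Hd34.S29.i2Stmt Hd34.S29.muStmt chf hH k hk

end Crest.Agent.X212.St29
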