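import Crest.Agent.X212.Sep15.Av
import Crest.Agent.X212.Rw54.Mom

/-!
# Row 212, CV-MOM (helper29): the part of the moment near the core is bounded below
-/

set_option autoImplicit false
set_option linter.unusedSectionVars false
noncomputable section
open scoped Manifold ContDiff Topology InnerProductSpace
open MeasureTheory Set Function Filter

namespace Crest.Agent.X212.St29.Mom
open An Cyf70 Sw Sw.En3 Sep15.S
open Nd18 (Jv Dp)
open M (Mf pm)

variable {κ lam ν : Type} [Fintype κ] [Fintype lam] [Fintype ν] [DecidableEq ν]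

/-- the functional increases at a bounded rate -/
theorem rate (hD : DlStmt κ lam ν) {e : En3 κ lam ν} (H : e.OK) (C : ℝ) : ∃ K₀, 0 ≤ K₀ ∧
    ∀ (c : e.ZC) (J D : Set ℝ), IsOpen J → D ⊆ J → Convex ℝ D → e.cyl.AdmOn c (univ ×ˢ J) →
    (∀ y, ∀ t ∈ D, e.cyl.eD c (y, t) = e.b (nm (sl c t)) • e.m.ρ none y (c.Φ (y, t)) ∧
      ‖e.cyl.eC c (y, t)‖ ≤ C) →
    ∀ s ∈ D, ∀ t ∈ D, s ≤ t → L (sl c t) - L (sl c s) ≤ K₀ * (t - s) := by
  obtain ⟨A, hA⟩ := H.bf 1
  obtain ⟨Z, hZ⟩ := isCompact_univ.exists_bound_of_continuousOn H.sζ.continuous.continuousOn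
  refine ⟨4 * Fintype.card κ * (C + A * Z) ^ 2 * e.D.F.μ.real univ, by positivity,
    fun c J D hJ hs hc h1 h2 => ?_⟩
  have d := fun t (ht : t ∈ D) => (hD e H c J hJ h1).2.2 t (hs ht) fun y => (h2 y t ht).1
  refine hc.image_sub_le_mul_sub_of_deriv_le (fun t ht => (d t ht).continuousAt.continuousWithinAt)
    (fun t ht => (d t (interior_subset ht)).differentiableAt.differentiableWithinAt) fun t ht => ?_
  have ht := interior_subset ht
  have := ip_le H (Win39.adm_sl hJ h1 (hs ht)) (β := (C + A * Z) ^ 2) (τ := fun k y =>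
    (e.cyl.eC c (y, t) + deriv e.f (hol (sl c t)) • e.ζ y) (none, some k)) fun k y => by
      refine sq_le_sq' (neg_le_of_abs_le ?_) (le_of_abs_le ?_) <;>
        refine (PiLp.norm_apply_le _ _).trans ((norm_add_le _ _).trans (add_le_add (h2 y t ht).2 ?_)) <;>
        rw [norm_smul] <;> exact mul_le_mul (by simpa using hA _) (hZ y trivial) (norm_nonneg _)
          ((abs_nonneg _).trans (hA 0))
  rw [(d t ht).deriv]
  linarith [gn_nonneg H.cyl.w (sl c t)]

variable (κ lam ν) in
/-- **CV-MOM** -/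
theorem mom (hD : DlStmt κ lam ν) : MomStmt κ lam ν := by
  intro e H X nc B K b hb l C a ha
  obtain ⟨K₀, k0, hK⟩ := rate hD H C
  set D := 1 + K₀ * (2 * a + 4)
  set m := |e.ψ (l - D) - e.ψ l| + |e.ψ (l + D) - e.ψ l|
  have a1 := abs_nonneg (K.p.getD 0)
  have a2 := abs_nonneg (K.q.getD 0)
  refine ⟨m * (2 * a + 4), fun c hc hE h1 h2 ⟨r, h3⟩ => ?_⟩
  have lo : ∀ t, K.β b t ≠ 0 → -a < pm b * t := fun t ht => not_le.1 fun k => ht (by
    cases b <;> simp only [Nk.β, pm, Bool.false_eq_true, if_false, if_true] at k ⊢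
    · rw [Real.smoothTransition.one_of_one_le, sub_self]
      cases e : K.q <;> simp only [e, Option.getD_some, Option.getD_none] at ha a2 ⊢
      · linarith
      · linarith [le_abs_self ‹ℝ›]
    · refine Real.smoothTransition.zero_of_nonpos ?_
      cases e : K.p <;> simp only [e, Option.getD_some, Option.getD_none] at ha a1 ⊢
      · linarith
      · linarith [neg_abs_le ‹ℝ›])
  have one : ∀ t ∈ ir b (a + 2), K.β b t = 1 := fun t k => by
    cases b <;> simp only [ir, mem_ofPred_eq, Nk.β, pm, Bool.false_eq_true, if_false, if_true] at k ⊢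
    · rw [Real.smoothTransition.zero_of_nonpos, sub_zero]
      cases e : K.q <;> simp only [e, Option.getD_some, Option.getD_none] at ha a2 ⊢
      · linarith
      · linarith [neg_abs_le ‹ℝ›]
    · refine Real.smoothTransition.one_of_one_le ?_
      cases e : K.p <;> simp only [e, Option.getD_some, Option.getD_none] at ha a1 ⊢
      · linarith
      · linarith [le_abs_self ‹ℝ›]
  have cv : Convex ℝ (K.deep 2 ∩ Ioo (-(a + 2)) (a + 2)) := Convex.inter (OrdConnected.convex
    ⟨fun _ hx _ hy _ h => ⟨fun a ha => (hx.1 a ha).trans_le h.1, fun a ha => h.2.trans_lt (hy.2 a ha)⟩⟩)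
    (convex_Ioo _ _)
  have hr := hK (K.pb c) K.J _ Nd18.isOpen_Jv (fun t ht => Pb50.deep_J K two_pos ht.1) cv hc
    fun y t ht => hE (y, t) ⟨trivial, ht.1⟩ (abs_lt.2 ht.2)
  have m0 : pm b * (a + 3 / 2) ∈ K.deep 2 ∩ Ioo (-(a + 2)) (a + 2) := by
    refine ⟨⟨fun x hx => ?_, fun x hx => ?_⟩, abs_lt.1 (by rw [pm_abs, abs_of_pos] <;> linarith)⟩ <;>
      obtain ⟨z, hz, rfl⟩ := Option.mem_map.1 hx <;> cases b <;>
      simp only [Nk.Inf, pm, Bool.false_eq_true, if_false, if_true, Option.mem_def.1 hz,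
        Option.getD_some, reduceCtorEq] at hb ha ⊢
    · linarith [le_abs_self z]
    · linarith [neg_abs_le z]
  have hL : ∀ τ ∈ K.deep 2, -(a + 2) < pm b * τ → -D ≤ pm b * (L (sl (K.pb c) τ) - l) := by
    intro τ k1 k2
    have : 0 ≤ K₀ * (2 * a + 4) := mul_nonneg k0 (by linarith)
    by_cases k3 : a + 1 < pm b * τ
    · linarith [h1 τ k3]
    have k4 := h1 (pm b * (a + 3 / 2)) (by simp only [ir, mem_ofPred_eq, pm_pm]; linarith)
    have k5 : τ ∈ K.deep 2 ∩ Ioo (-(a + 2)) (a + 2) :=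
      ⟨k1, abs_lt.1 (by rw [← pm_abs b, abs_lt]; constructor <;> linarith)⟩
    cases b <;> simp only [pm, Bool.false_eq_true, if_false, if_true] at k2 k3 k4 m0 ⊢
    · nlinarith [hr _ m0 _ k5 (by linarith)]
    · nlinarith [hr _ k5 _ m0 (by linarith)]
  have hg : ∀ t, K.β b t ≠ 0 → -m ≤ gm (K.pb c) b l t := fun t ht => by
    have k1 := Rw54.β_dp K hb ht
    have := lb_ge (Rw54.cont_L H Nd18.isOpen_Jv hc) (t := t) (σ := pm b) (x := pm b * l - D)
      fun τ hτ => by
        have k2 : τ ∈ K.deep 2 := ⟨fun x hx => by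
          obtain ⟨z, hz, rfl⟩ := Option.mem_map.1 hx; linarith [k1.1 z hz, hτ.1], fun x hx => by
          obtain ⟨z, hz, rfl⟩ := Option.mem_map.1 hx; linarith [k1.2 z hz, hτ.2]⟩
        exact ⟨Pb50.deep_J K two_pos k2, by
          linarith [hL τ k2 (by linarith [lo t ht, (mem_half (b := b) hτ).1])]⟩
    have b1 := abs_nonneg (e.ψ (l - D) - e.ψ l)
    have b2 := abs_nonneg (e.ψ (l + D) - e.ψ l)
    cases b <;> simp only [gm, pm, Bool.false_eq_true, if_false, if_true] at this ⊢
    · linarith [H.mψ (show lb (K.pb c) t ≤ l + D by linarith), le_abs_self (e.ψ (l + D) - e.ψ l)]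
    · linarith [H.mψ (show l - D ≤ lb (K.pb c) t by linarith), neg_abs_le (e.ψ (l - D) - e.ψ l)]
  have hi := Rw54.int_mi K H hb hc (r := l) (a := r + 1) fun t _ k => sub_eq_zero.1
    ((mul_eq_zero.1 (h3 t (by simp only [ir, mem_ofPred_eq]; linarith))).resolve_left
      (by cases b <;> simp [pm]))
  have hS := (isOpen_ir b (a + 2)).measurableSet
  have e1 : EqOn (gm (K.pb c) b l) (Rw54.mi K b l c) (ir b (a + 2)) := fun t ht => by
    rw [Rw54.mi, one t ht, one_mul]; rfl
  rw [← ofReal_integral_eq_lintegral_ofReal ((integrableOn_congr_fun e1 hS).2 hi.integrableOn)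
    ((ae_restrict_mem hS).mono h2), setIntegral_congr_fun hS e1, ← integral_indicator hS]
  have hm : 0 ≤ m := by positivity
  have i2 : Integrable ((Icc (-(a + 2)) (a + 2)).indicator fun _ : ℝ => m) :=
    (integrable_indicator_iff measurableSet_Icc).2 (integrableOn_const measure_Icc_lt_top.ne)
  refine ENNReal.ofReal_le_ofReal ((integral_mono (hi.indicator hS) (hi.add i2) fun t => ?_).trans_eq ?_)
  · have i0 : 0 ≤ (Icc (-(a + 2)) (a + 2)).indicator (fun _ : ℝ => m) t :=
      indicator_nonneg (fun _ _ => hm) t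
    by_cases ht : t ∈ ir b (a + 2)
    · simpa only [indicator_of_mem ht, Pi.add_apply, le_add_iff_nonneg_right] using i0
    by_cases h0 : K.β b t = 0
    · simpa only [indicator_of_notMem ht, Pi.add_apply, Rw54.mi, h0, zero_mul, zero_add] using i0
    have k : t ∈ Icc (-(a + 2)) (a + 2) := abs_le.1 (by
      rw [← pm_abs b]; exact abs_le.2 ⟨by linarith [lo t h0], not_lt.1 ht⟩)
    have k1 := hg t h0
    have k2 : 0 ≤ K.β b t ∧ K.β b t ≤ 1 := by
      have s1 := Real.smoothTransition.nonneg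
      have s2 := Real.smoothTransition.le_one
      cases b
      exacts [⟨sub_nonneg.2 (s2 _), sub_le_self _ (s1 _)⟩, ⟨s1 _, s2 _⟩]
    simp only [indicator_of_notMem ht, indicator_of_mem k, Pi.add_apply]
    change 0 ≤ K.β b t * gm (K.pb c) b l t + m
    nlinarith [k2.1, k2.2]
  · rw [integral_add' hi i2, integral_indicator_const _ measurableSet_Icc, Real.volume_real_Icc_of_le
      (by linarith), smul_eq_mul, Rw54.mo_eq]
    ring

end Crest.Agent.X212.St29.Mom
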