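import Crest.Agent.X212.St29.Jt

/-!
# Row 212, LOC-LIM (helper29): smooth limits of solutions are solutions
-/

set_option autoImplicit false
set_option linter.unusedSectionVars false
noncomputable section
open scoped Manifold ContDiff Topology InnerProductSpace
open MeasureTheory Set Function Filter

namespace Crest.Agent.X212.St29.Lim
open An hiding Cfg Pt
open Cyf70 Sw Sw.En3 Sob92 Prm93 Pb50 Kop92
open Win39 (Jt jt lJ)
open Nd18 (Jv Dp ct)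
open M (Mf pm)
open Loc74 (Mt)

variable {κ lam ν : Type} [Fintype κ] [Fintype lam] [Fintype ν] [DecidableEq ν] {X : Mf 4}
  {nc : ℕ} {N : Type} [Fintype N] {d : Dt κ lam ν} {ty : N → d.𝓔}
  {T : Type} [NormedAddCommGroup T] [NormedSpace ℝ T] [FiniteDimensional ℝ T]
  {s : Pz X 0 fun i => d.e (ty i)} {𝓕 : Sw.Fam s nc T} {α : Type} {l : Filter α} [l.NeBot]
  {t : α → T} {t₀ : T} {c : α → Cfg X.M κ ν} {c₀ : Cfg X.M κ ν}
  {V : Type} [NormedAddCommGroup V] [NormedSpace ℝ V]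

section rp
variable {i : N} {K₀ : Nk (d.e (ty i)) (𝓕.P t₀).bg} {ℓ : T × ℝ → ℝ} {O : Set T}

theorem mt (R : Rp 𝓕 i t₀ K₀ ℓ O) {u : T} (k : u ∈ O) :
    ∃ K ∈ (𝓕.P u).nk i, Mt i K K₀ fun r => ℓ (u, r) := by
  obtain ⟨K, k0, k1, k2, k3, k4⟩ := R.nk u k
  refine ⟨K, k0, R.pos u k, k1, k2, fun r => ⟨fun h => ?_, fun h => ?_⟩,
    fun τ h => (k4 h).imp fun _ k => k.2, k3⟩
  · obtain ⟨r', h1, h2⟩ := k4 h
    exact (R.mono k).injective h2 ▸ h1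
  · simpa only [Nd18.Nk.J, k1, k2] using R.maps k h

variable (𝓕 i) in
/-- a function of the configuration on the neck -/
def GF (G : (d.e (ty i)).ZC → ℝ → ℝ) (u : T) (c : Cfg X.M κ ν) (τ : ℝ) : ℝ :=
  ((𝓕.P u).nk i).elim 0 fun K => G (K.pb c) τ

end rp

variable (𝓕 l t t₀ c c₀) in
/-- the data of a smooth limit -/
structure Dat : Prop where
  ok : 𝓕.OK
  h₀ : t₀ ∈ 𝓕.Q
  ht : Tendsto t l (𝓝 t₀)
  adm : ∀ᶠ n in l, (𝓕.P (t n)).bg.Adm (c n)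
  a : ∀ k, Cmp73.Cv X.I l univ (fun n => (c n).a k) (c₀.a k)
  Φ : Cmp73.Cv X.I l univ (fun n => (c n).Φ) c₀.Φ

namespace Dat
variable (h : Dat 𝓕 l t t₀ c c₀)
include h

theorem Q : ∀ᶠ n in l, t n ∈ 𝓕.Q := h.ht.eventually (h.ok.opn.mem_nhds h.h₀)

theorem sb {f : T → X.M → V} (k : SB s.bg.F.toPre 𝓕.Q f) :
    Cmp73.Cv X.I l univ (fun n => f (t n)) (f t₀) := sb_cv h.ok.opn h.h₀ h.ht k

theorem m {u : T} (k : u ∈ 𝓕.Q) : (𝓕.P u).bg.m = (𝓕.P t₀).bg.m :=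
  (h.ok.m u k).trans (h.ok.m t₀ h.h₀).symm

theorem cst (f : Lab56.M8 X.M (Option κ) ν → X.M → V) (k : Sm X.I (f (𝓕.P t₀).bg.m)) :
    Cmp73.Cv X.I l univ (fun n => f (𝓕.P (t n)).bg.m) (f (𝓕.P t₀).bg.m) :=
  (Cmp73.Cv.fixed' k).congr' isOpen_univ (h.Q.mono fun n k x _ => by rw [h.m k]) fun _ _ => rfl

theorem D [FiniteDimensional ℝ V] {f : α → X.M → V} {g : X.M → V}
    (k : Cmp73.Cv X.I l univ f g) (a : Option κ) :
    Cmp73.Cv X.I l univ (fun n => (𝓕.P (t n)).bg.F.D a (f n)) ((𝓕.P t₀).bg.F.D a g) :=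
  (Cmp73.Cv.sum fun b => (h.sb (h.ok.sS a b)).smul (k.D isOpen_univ s.bg.F.toPre b)).congr'
    isOpen_univ (h.Q.mono fun _ k x _ => congrFun ((h.ok.mix _ k).D _ _) x)
    fun x _ => congrFun ((h.ok.mix _ h.h₀).D _ _) x

theorem b₀ : (𝓕.P t₀).bg.OK := (h.ok.ok _ h.h₀).bg

theorem jp : Cmp73.Cv X.I l univ (fun n => (𝓕.P (t n)).bg.jp) (𝓕.P t₀).bg.jp :=
  h.cst (fun m x => m.J * m.p x) (sa_jp h.b₀)

theorem ρ (i : Option κ) :
    Cmp73.Cv X.I l univ (fun n => (𝓕.P (t n)).bg.m.ρ i) ((𝓕.P t₀).bg.m.ρ i) :=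
  h.cst (fun m => m.ρ i) (h.b₀.cc.sρ i)

theorem W (i : Option κ) :
    Cmp73.Cv X.I l univ (fun n => (𝓕.P (t n)).bg.W (c n) i) ((𝓕.P t₀).bg.W c₀ i) :=
  (h.sb (h.ok.sA i)).add ((h.a i).smul h.jp)

theorem eD : Cmp73.Cv X.I l univ (fun n => (𝓕.P (t n)).bg.eD (c n)) ((𝓕.P t₀).bg.eD c₀) :=
  (Cmp73.Cv.sum fun i => (h.ρ i).app ((h.D h.Φ i).add ((h.W i).app h.Φ))).add
    ((h.sb h.ok.sms).app h.Φ)

theorem fc (j : Option κ × Option κ) : Cmp73.Cv X.I l univ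
    (fun n x => (𝓕.P (t n)).bg.fc (c n) x j) fun x => (𝓕.P t₀).bg.fc c₀ x j :=
  ((h.jp.clm hsL).bil (innerSL ℝ) (((((h.D (h.W j.2) j.1).sub (h.D (h.W j.1) j.2)).add
    (((h.W j.1).mul (h.W j.2)).sub ((h.W j.2).mul (h.W j.1)))).sub
    (Cmp73.Cv.sum fun k => (h.sb (h.ok.sc j.1 j.2 k)).smul (h.W k))).clm hsL)).const_smul (1 / 8)

theorem eC (x : X.M) :
    Tendsto (fun n => (𝓕.P (t n)).bg.eC (c n) x) l (𝓝 ((𝓕.P t₀).bg.eC c₀ x)) := by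
  have h1 : Continuous fun v => (𝓕.P t₀).bg.qd x v v :=
    (PiLp.continuous_toLp 2 _).comp (continuous_pi fun _ => by fun_prop)
  refine (((((𝓕.P t₀).bg.p2 x).continuous.tendsto _).comp ((((PiLp.continuous_toLp 2 _).tendsto _).comp
    (tendsto_pi_nhds.2 fun j => (h.fc j).pt x trivial)).sub (((h1.tendsto _).comp
      (h.Φ.pt x trivial)).const_smul (𝓕.P t₀).bg.w))).sub
        ((h.sb h.ok.som).pt x trivial)).congr' (h.Q.mono fun n k => ?_)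
  simp only [Bg.eC, Bg.p2, Bg.qd, h.m k, h.ok.B _ k, h.ok.B _ h.h₀, h.ok.w _ k, h.ok.w _ h.h₀,
    comp_apply]

theorem adm₀ : (𝓕.P t₀).bg.Adm c₀ := by
  refine ⟨fun i x => (h.a i).smoothAt isOpen_univ trivial, fun x => h.Φ.smoothAt isOpen_univ trivial,
    fun i x => tendsto_nhds_unique_of_eventuallyEq (tendsto_finsetSum _ fun j _ =>
      ((h.a j).pt x trivial).const_mul _) ((h.a i).pt x trivial) ?_,
    fun x => tendsto_nhds_unique_of_eventuallyEq ((((𝓕.P t₀).bg.pp x).continuous.tendsto _).comp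
      (h.Φ.pt x trivial)) (h.Φ.pt x trivial) ?_⟩ <;> filter_upwards [h.Q, h.adm] with n k1 k2
  · rw [h.ok.B _ h.h₀, ← h.ok.B _ k1, k2.pa]
  · rw [pp_fam h.ok h.h₀, ← pp_fam h.ok k1, comp_apply, k2.pΦ]

theorem lη (j : Fin nc) {η : T → R4 → Eu ν} (hη : JC 𝓕.Q η) :
    Tendsto (fun n => (𝓕.P (t n)).bg.lη j (η (t n)) (c n)) l (𝓝 ((𝓕.P t₀).bg.lη j (η t₀) c₀)) := by
  have C := h.b₀.ct j
  let Λ : R4 → Option κ → R4 →L[ℝ] ℝ := fun z a => ∑ b, 𝓕.S t₀ (((𝓕.P t₀).bg.ct j).Ξ z) b a •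
    (EuclideanSpace.proj b ∘L ((𝓕.P t₀).bg.ct j).θ z)
  have hΛ : Continuous Λ := continuous_pi fun a => continuous_finsetSum _ fun b _ =>
    ((Cb.sm ((h.ok.sS b a).cb t₀ h.h₀)).continuous.comp C.sm.continuous).smul
      (continuous_const.clm_comp C.sθ.continuous)
  have e : ∀ u ∈ 𝓕.Q, ∀ c, (𝓕.P u).bg.Adm c → (𝓕.P u).bg.ta j c = fun z =>
      ∑ a, 𝓕.al u c (((𝓕.P t₀).bg.ct j).Ξ z) a • Λ z a := fun u k c hc => by
    ext z v
    have hc := fun i x => (S_al h.ok k ((adm_fam h.ok k _).1 hc).2 i x).symm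
    have := Mc.th_eq h.ok k h.h₀ j z v
    simp only [Λ, Bg.ta, (h.ok.ct _ k _ h.h₀ j).1, ContinuousLinearMap.comp_apply,
      innerSL_apply_apply, PiLp.inner_apply, sum_apply, smul_apply, smul_eq_mul, hc,
      EuclideanSpace.coe_proj, mul_comm (𝓕.S t₀ _ _ _), ← this, Real.inner_apply]
    simp only [Finset.mul_sum, Finset.sum_mul]
    exact Finset.sum_comm.trans (Finset.sum_congr rfl fun _ _ => Finset.sum_congr rfl fun _ _ => by ring)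
  have h1 : JT l (fun n x a => 𝓕.al (t n) (c n) x a) fun x a => 𝓕.al t₀ c₀ x a :=
    jt_cv (.pi fun a => .sum fun b => (h.sb (h.ok.sSi a b)).mul (h.a b)) ((h.Q.and h.adm).mono
      fun n k => contMDiff_pi_space.2 ((adm_fam h.ok k.1 _).1 k.2).1.sa)
  have h2 := jt_K ((((h1.pull C.sm.continuous).prod (.fix hΛ)).comp (φ := fun z => ∑ a, z.1 a • z.2 a)
    (by fun_prop)).congr ((h.Q.and h.adm).mono fun n k => e _ k.1 _ k.2) (e _ h.h₀ _ h.adm₀))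
    C.sρ.continuous C.cρ
  have h3 := (h2.prod ((jt_on h.ok.opn h.h₀ h.ht hη.1.continuousOn).prod
    ((jt_cv h.Φ (h.adm.mono fun _ k => k.sΦ)).pull C.sm.continuous))).comp
    (φ := fun z => Complex.exp (z.1 * Complex.I) * hmL (𝓕.P t₀).bg.m.J z.2.1 z.2.2) (by fun_prop)
  obtain ⟨S, hS, h0⟩ := hη.2
  have h4 := h3.int hS (h.Q.mono fun n k y hy => by simp [h0 _ k y hy])
    fun y hy => by simp [h0 _ h.h₀ y hy]
  simp only [hmL_apply] at h4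
  refine h4.congr' (h.Q.mono fun n k => ?_)
  simp only [Bg.lη, h.m k, (h.ok.ct _ k _ h.h₀ j).1, (h.ok.ct _ k _ h.h₀ j).2]

variable {i : N}

theorem nk (G : (d.e (ty i)).ZC → ℝ → ℝ) (f : (d.e (ty i)).Y.M → V) (x : X.M)
    (hG : ∀ K₀ ℓ O, Rp 𝓕 i t₀ K₀ ℓ O → ∀ r ∈ K₀.J,
      ℓ (t₀, r) ∈ Dp (K₀.p.map fun a => ℓ (t₀, a)) (K₀.q.map fun a => ℓ (t₀, a)) 1 →
      Tendsto (fun n => GF 𝓕 i G (t n) (c n) (ℓ (t n, r))) l (𝓝 (GF 𝓕 i G t₀ c₀ (ℓ (t₀, r))))) :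
    Tendsto (fun n => ((𝓕.P (t n)).nk i).elim 0 fun K => G (K.pb (c n)) (K.tm x) • K.ext f x) l
      (𝓝 (((𝓕.P t₀).nk i).elim 0 fun K => G (K.pb c₀) (K.tm x) • K.ext f x)) := by
  have z0 : ∀ u c, (∀ K ∈ (𝓕.P u).nk i, K.χ x = 0) →
      (((𝓕.P u).nk i).elim 0 fun K => G (K.pb c) (K.tm x) • K.ext f x) = 0 := fun u c k =>
    elim_zero fun K hK => by rw [Nd18.Nk.ext, k K hK, zero_smul, smul_zero]
  have z := fun k : ∀ᶠ u in 𝓝 t₀, ∀ K ∈ (𝓕.P u).nk i, K.χ x = 0 =>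
    tendsto_const_nhds.congr' ((h.ht.eventually k).mono fun n k' =>
      (z0 _ c₀ k.self_of_nhds).trans (z0 _ (c n) k').symm)
  obtain h0 | ⟨K₀, ℓ, O, R⟩ := rp_or_off h.ok h.h₀ i
  · exact z (h0.mono fun u k K hK => let ⟨_, h1, h2⟩ := k K hK; ext_off K h1 h2 x)
  have n := R.op.eventually_mem R.mem
  by_cases hx : x ∈ K₀.ψ.target
  swap
  · refine z (n.mono fun u k K hK => Nd18.ct_zero (off K fun k' => hx ?_))
    obtain ⟨K', k1, m⟩ := mt R k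
    exact m.tgt (Option.mem_unique k1 hK ▸ k')
  have c1 : Tendsto (fun u => (u, K₀.tm x)) (𝓝 t₀) (𝓝 (t₀, K₀.tm x)) := Continuous.tendsto (by fun_prop) _
  have e1 : ∀ u ∈ O, ∀ K ∈ (𝓕.P u).nk i, K.χ x = cz K₀ ℓ (u, K₀.tm x) := fun u k K hK => by
    obtain ⟨K', k1, m⟩ := mt R k
    obtain rfl := Option.mem_unique k1 hK
    simp only [Nd18.Nk.χ, Nd18.Nk.cut, cz, m.p, m.q, m.tm hx]
  by_cases hr : ℓ (t₀, K₀.tm x) ∈ Dp (K₀.p.map fun a => ℓ (t₀, a)) (K₀.q.map fun a => ℓ (t₀, a)) 1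
  swap
  · exact z ((n.and (c1.eventually (R.cz_off R.mem hr))).mono fun u k K hK => (e1 u k.1 K hK).trans k.2)
  have e : ∀ u ∈ O, ∀ c, (((𝓕.P u).nk i).elim 0 fun K => G (K.pb c) (K.tm x) • K.ext f x) =
      GF 𝓕 i G u c (ℓ (u, K₀.tm x)) • cz K₀ ℓ (u, K₀.tm x) • f (K₀.ψ.symm x).1 := fun u k c => by
    obtain ⟨K, k1, m⟩ := mt R k
    simp only [GF, Option.mem_def.1 k1, Option.elim_some, Nd18.Nk.ext, e1 u k K k1, m.tm hx,
      (m.symm hx).2]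
  rw [e _ R.mem]
  exact ((hG K₀ ℓ O R _ (K₀.tgt ▸ hx :) hr).smul ((((R.sm_cz R.mem _).continuousAt.tendsto.comp c1).comp
    h.ht).smul_const _)).congr' ((h.ht.eventually n).mono fun n k => (e _ k _).symm)

theorem jx : JT l (fun n => JX (𝓕.P t₀).bg (c n)) (JX (𝓕.P t₀).bg c₀) :=
  jt_cv ((Cmp73.Cv.pi fun _ => h.a _).prodMk ((Cmp73.Cv.pi fun _ => .pi fun _ =>
    (h.a _).D isOpen_univ _ _).prodMk (h.Φ.prodMk (.pi fun _ => h.Φ.D isOpen_univ _ _))))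
    (h.adm.mono fun _ k => (contMDiff_pi_space.2 fun _ => k.sa _).prodMk_space
      ((contMDiff_pi_space.2 fun _ => contMDiff_pi_space.2 fun _ => Pre.sm_D _ (k.sa _) _).prodMk_space
        (k.sΦ.prodMk_space (contMDiff_pi_space.2 fun _ => Pre.sm_D _ k.sΦ _))))

variable {K₀ : Nk (d.e (ty i)) (𝓕.P t₀).bg} {ℓ : T × ℝ → ℝ} {O : Set T} (R : Rp 𝓕 i t₀ K₀ ℓ O) {r : ℝ}
include R

theorem slc {φ : (d.e (ty i)).YC → ℝ} (hr : r ∈ K₀.J)
    (hφ : Continuous fun u : C((d.e (ty i)).Y.M, Jt κ ν) => φ (Win39.vJ u)) :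
    Tendsto (fun n => GF 𝓕 i (fun c τ => φ (sl c τ)) (t n) (c n) (ℓ (t n, r))) l
      (𝓝 (GF 𝓕 i (fun c τ => φ (sl c τ)) t₀ c₀ (ℓ (t₀, r)))) := by
  have k := h.jx.pull (a := fun y => K₀.ψ (y, r))
    (K₀.ψ.continuousOn.comp_continuous (by fun_prop) (src K₀ hr))
  have e : ∀ u ∈ O, ∀ c, Continuous (fun y => JX (𝓕.P t₀).bg c (K₀.ψ (y, r))) →
      GF 𝓕 i (fun c τ => φ (sl c τ)) u c (ℓ (u, r)) = φ (Win39.vJ (ContinuousMap.mkD
        (fun y => JX (𝓕.P t₀).bg c (K₀.ψ (y, r))) 0)) := fun u k c hc => by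
    obtain ⟨K, k1, m⟩ := mt R k
    simp only [GF, Option.mem_def.1 k1, Option.elim_some, m.sl c hr, ContinuousMap.mkD_of_continuous hc]
    rfl
  rw [e _ R.mem _ k.c0]
  exact ((hφ.tendsto _).comp k.cm).congr' (((h.ht.eventually (R.op.eventually_mem R.mem)).and k.c).mono
    fun n k => (e _ k.1 _ k.2).symm)

theorem lbc (hr : ℓ (t₀, r) ∈ Dp (K₀.p.map fun a => ℓ (t₀, a)) (K₀.q.map fun a => ℓ (t₀, a)) 1) :
    Tendsto (fun n => GF 𝓕 i lb (t n) (c n) (ℓ (t n, r))) l (𝓝 (GF 𝓕 i lb t₀ c₀ (ℓ (t₀, r)))) := by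
  obtain ⟨K, -, h1, h2, -, h3⟩ := R.nk _ R.mem
  rw [← h1, ← h2] at hr
  obtain ⟨a, ha, e1⟩ := h3 (show ℓ (t₀, r) - 3 / 4 ∈ K.J from
    ⟨fun a ha => by linarith [hr.1 a ha], fun a ha => by linarith [hr.2 a ha]⟩)
  obtain ⟨b, hb, e2⟩ := h3 (show ℓ (t₀, r) + 3 / 4 ∈ K.J from
    ⟨fun a ha => by linarith [hr.1 a ha], fun a ha => by linarith [hr.2 a ha]⟩)
  have hJ := (oc_J K₀).out ha hb
  have hab : a ≤ b := (R.mono R.mem).le_iff_le.1 (e1.trans_le (Eq.trans_ge e2 (by linarith)))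
  have H := h.ok.site.en i
  have k := h.jx.pull (cont_ψ K₀ continuous_subtype_val fun x : Icc a b => hJ x.2)
  let P := T × C(Icc a b × (d.e (ty i)).Y.M, Jt κ ν)
  let g : P → ℝ → ℝ := fun p x => lJ fun y => p.2 (projIcc a b hab x, y)
  have hO : IsOpen {p : P | p.1 ∈ O} := R.op.preimage continuous_fst
  have sm := sm_av (ℓ := fun z : P × ℝ => ℓ (z.1.1, z.2)) hO (R.sm.comp
    (contDiff_fst.fst.prodMk contDiff_snd).contDiffOn fun z hz => ⟨hz.1, trivial⟩)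
    (fun p hp => R.pos _ hp) hab (g := g) (G := fun p τ => g p (invFun (fun x => ℓ (p.1, x)) τ))
    ((sf_lJ H (j := fun (p : P) x y => p.2 (x, y)) (SF.self.reparam contDiffOn_snd
      fun _ _ => trivial)).congr fun p _ x => by simp only [g, projIcc_val])
    fun p hp x _ => congrArg _ (leftInverse_invFun (R.mono hp).injective x)
  have c1 : ∀ x, ContinuousAt (fun u => ℓ (u, x)) t₀ := fun x =>
    (R.at R.mem x).continuousAt.comp (f := fun u => (u, x)) (by fun_prop)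
  have e : ∀ u ∈ O, ℓ (u, a) < ℓ (u, r) - 1 / 2 → ℓ (u, r) + 1 / 2 < ℓ (u, b) → ∀ c, (𝓕.P u).bg.Adm c →
      ∀ j : C(Icc a b × (d.e (ty i)).Y.M, Jt κ ν), (∀ z, j z = JX (𝓕.P t₀).bg c (K₀.ψ (z.2, z.1))) →
      GF 𝓕 i lb u c (ℓ (u, r)) = av fun x => g (u, j) (invFun (fun x => ℓ (u, x))
        (ℓ (u, r) + x - 1 / 2)) := fun u k k1 k2 c hc j hj => by
    obtain ⟨K, k0, m⟩ := mt R k
    simp only [GF, Option.mem_def.1 k0, Option.elim_some, lb, Wal9.av_eq]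
    refine setIntegral_congr_fun measurableSet_Ioo fun x hx => congrArg _ ?_
    obtain ⟨z, z1, z2⟩ := intermediate_value_Icc hab m.cont.continuousOn
      (show ℓ (u, r) + x - 1 / 2 ∈ _ from ⟨by linarith [hx.1], by linarith [hx.2]⟩)
    have sa := Wal9.sa_pb K hc ((m.mem z).2 (hJ z1))
    rw [← z2, leftInverse_invFun m.mono.injective z, Win39.L_jt H sa.a sa.P, m.sl c (hJ z1)]
    refine congrArg lJ (funext fun y => ?_)
    rw [hj, projIcc_of_mem hab z1, jt_pb K₀ (hJ z1) (fun i => (hc.sa i).mdifferentiable (by simp))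
      (hc.sΦ.mdifferentiable (by simp))]
  have l1 : ℓ (t₀, a) < ℓ (t₀, r) - 1 / 2 := by linarith [show ℓ (t₀, a) = _ from e1]
  have l2 : ℓ (t₀, r) + 1 / 2 < ℓ (t₀, b) := by linarith [show ℓ (t₀, b) = _ from e2]
  have c2 : ∀ x (p : P) (τ : ℝ), p.1 = t₀ → ContinuousAt (fun z : P × ℝ => ℓ (z.1.1, x)) (p, τ) :=
    fun x p τ e => ContinuousAt.comp (g := fun u => ℓ (u, x)) (f := fun z : P × ℝ => z.1.1) (e ▸ c1 x)
      continuous_fst.fst.continuousAt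
  rw [e _ R.mem l1 l2 _ h.adm₀ _ fun z => ContinuousMap.mkD_apply_of_continuous k.c0]
  refine ((sm.continuousOn.continuousAt (x := ((t₀, _), _)) (inter_mem
    ((hO.preimage continuous_fst).mem_nhds R.mem)
    (inter_mem ((c2 a _ _ rfl).eventually_lt (by fun_prop) l1) (ContinuousAt.eventually_lt (by fun_prop)
      (c2 b _ _ rfl) l2)))).tendsto.comp ((h.ht.prodMk_nhds k.cm).prodMk_nhds
        ((c1 r).tendsto.comp h.ht))).congr' ?_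
  filter_upwards [h.ht.eventually ((R.op.eventually_mem R.mem).and (((c1 a).eventually_lt
    ((c1 r).sub continuousAt_const) l1).and (((c1 r).add continuousAt_const).eventually_lt (c1 b) l2))),
    h.adm, k.c] with n k1 k2 k3
  exact (e _ k1.1 k1.2.1 k1.2.2 _ k2 _ fun z => ContinuousMap.mkD_apply_of_continuous k3).symm

omit R

theorem pD (x : X.M) :
    Tendsto (fun n => (𝓕.P (t n)).p0.D (c n) x) l (𝓝 ((𝓕.P t₀).p0.D c₀ x)) := by
  refine tendsto_finsetSum _ fun i _ => ?_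
  have H := h.ok.site.en i
  have e : ∀ u c, (((𝓕.P u).nk i).elim 0 fun K => K.rad c x) = (((𝓕.P u).nk i).elim 0 fun K =>
      (d.e (ty i)).b (nm (sl (K.pb c) (K.tm x))) • K.ext (fun _ => (1 : ℝ)) x) •
        (𝓕.P u).bg.m.ρ none x (c.Φ x) := fun u c => by
    cases (𝓕.P u).nk i <;> simp [Nk.rad, Nd18.Nk.ext, mul_comm]
  simp only [e]
  exact (h.nk (fun c τ => (d.e (ty i)).b (nm (sl c τ))) _ x fun _ _ _ R _ hr _ => h.slc R hr
    (φ := fun v => (d.e (ty i)).b (nm v)) (H.sb.continuous.comp (Win39.cf_vJ continuous_eval).nm)).smul (((h.ρ none).app h.Φ).pt x trivial)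

theorem pC (x : X.M) :
    Tendsto (fun n => (𝓕.P (t n)).p0.C (c n) x) l (𝓝 ((𝓕.P t₀).p0.C c₀ x)) :=
  tendsto_finsetSum _ fun i _ => have H := h.ok.site.en i
    h.nk (fun c τ => -deriv (d.e (ty i)).f (hol (sl c τ))) _ x fun _ _ _ R _ hr _ => h.slc R hr
      (φ := fun v => -deriv (d.e (ty i)).f (hol v)) ((H.sf.continuous_deriv (by simp)).comp ((Win39.cf_vJ continuous_eval).hol H)).neg

theorem tm (w : d.W) (x : X.M) :
    Tendsto (fun n => (𝓕.P (t n)).tm w (c n) x) l (𝓝 ((𝓕.P t₀).tm w c₀ x)) := by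
  refine ((h.sb (h.ok.sfo w)).pt x trivial).add (tendsto_finsetSum _ fun i _ => ?_)
  cases d.yt w (ty i) with
  | none => simp only [Option.elim_none, elim_zero fun _ _ => rfl, tendsto_const_nhds]
  | some Y =>
    refine h.nk (fun c τ => Y.b (lb c τ)) _ x fun _ _ _ R r _ hr => ?_
    have e : ∀ u ∈ _, ∀ c τ, GF 𝓕 i (fun c τ => Y.b (lb c τ)) u c τ = Y.b (GF 𝓕 i lb u c τ) :=
      fun u k c τ => let ⟨_, k, _⟩ := R.nk u k; by simp only [GF, Option.mem_def.1 k, Option.elim_some]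
    rw [e _ R.mem]
    exact ((Y.sb.continuous.tendsto _).comp (h.lbc R hr)).congr'
      ((h.ht.eventually (R.op.eventually_mem R.mem)).mono fun n k => (e _ k _ _).symm)

end Dat

variable (d ty X nc T) in
/-- **LOC-LIM** -/
theorem limStmt : Loc74.LimStmt d ty X nc T := by
  intro s 𝓕 h α 𝒰 t q c t₀ q₀ c₀ h₀ ht hq h1 h2 ha hΦ
  have D : Dat 𝓕 𝒰 t t₀ c c₀ := ⟨h, h₀, ht, h1.mono fun _ k => k.1, ha, hΦ⟩
  refine ⟨D.adm₀, fun x _ => ?_, fun j => ?_⟩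
  · have k := h2 _ (isCompact_singleton (x := x))
    have k1 := (D.pC x).add (sum_lim hq fun w => D.tm w x)
    exact ⟨tendsto_nhds_unique_of_eventuallyEq (D.eD.pt x trivial) (D.pD x) (k.mono fun _ k => (k x rfl).1),
      tendsto_nhds_unique_of_eventuallyEq (D.eC x) k1 (k.mono fun _ k => (k x rfl).2)⟩
  · have k1 : Tendsto (fun n => ((𝓕.P (t n)).pt (q n)).S (c n) j) 𝒰 (𝓝 (((𝓕.P t₀).pt q₀).S c₀ j)) :=
      sum_lim hq (u := fun n w => (𝓕.P (t n)).bg.lη j ((𝓕.P (t n)).η w j) (c n))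
        (u₀ := fun w => (𝓕.P t₀).bg.lη j ((𝓕.P t₀).η w j) c₀)
        fun w => D.lη j (η := fun t => (𝓕.P t).η w j) (h.η w j)
    have k2 : Tendsto (fun n => (𝓕.P (t n)).bg.l j (c n)) 𝒰 (𝓝 ((𝓕.P t₀).bg.l j c₀)) :=
      D.lη j (η := fun t => ((𝓕.P t).bg.ct j).η) (h.η0 j)
    exact tendsto_nhds_unique_of_eventuallyEq k2 k1 (h1.mono fun _ k => k.2 j)

end Crest.Agent.X212.St29.Lim
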