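import Crest.Agent.X212.Sm10.In
import Crest.Agent.X212.Hz56.Top
import Crest.Agent.X212.Kh11.Beat

/-!
# X212 / St29 (helper29): germ cocycles versus cocycles on the poset of cells

* `Cel S C` : the set `S` is decomposed in cells indexed by `C`, with star shaped open stars;
* connectedness, cocycles and exactness are the same on both sides;
* `sup R p` : the carrier chain of a point, `celR` : unions of open simplices.
-/

set_option autoImplicit false
set_option linter.unusedSectionVars false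

open Set Filter Topology Function Classical
open Crest.Agent.X212.Hp13 Crest.Agent.X212.Sm10
open Crest.Agent.X212.Lev33 (Prim LCo)
open Crest.Agent.X212.Hz56 (Tr)

noncomputable section

namespace Crest.Agent.X212.St29

variable {E : Type} [NormedAddCommGroup E] [NormedSpace ℝ E] {P : Type} [PartialOrder P]

/-- a decomposition in cells -/
structure Cel (S : Set E) (C : Set P) where
  cel : E → P
  x : P → E
  maps : ∀ p ∈ S, cel p ∈ C
  lsc : ∀ p ∈ S, ∀ᶠ q in 𝓝[S] p, cel p ≤ cel q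
  mem : ∀ s ∈ C, x s ∈ S
  sec : ∀ s ∈ C, cel (x s) = s
  star : ∀ s ∈ C, StarConvex ℝ (x s) {p | p ∈ S ∧ s ≤ cel p}

theorem star_pre {x : E} {T : Set E} (h : StarConvex ℝ x T) : IsPreconnected T :=
  isPreconnected_of_forall x fun _ hy => ⟨_, h.segment_subset hy, left_mem_segment _ _ _,
    right_mem_segment _ _ _, (convex_segment _ _).isPreconnected⟩

namespace Cel

variable {S : Set E} {C : Set P} (K : Cel S C) {G : Type} [AddCommGroup G]

/-- the open star -/
def st (s : P) : Set E := {p | p ∈ S ∧ s ≤ K.cel p}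

theorem st_sub (s : P) : K.st s ⊆ S := fun _ h => h.1

theorem st_pre {s : P} (hs : s ∈ C) : IsPreconnected (K.st s) := star_pre (K.star s hs)

theorem x_mem {s t : P} (ht : t ∈ C) (h : s ≤ t) : K.x t ∈ K.st s :=
  ⟨K.mem t ht, (K.sec t ht).symm ▸ h⟩

theorem st_anti {s t : P} (h : s ≤ t) : K.st t ⊆ K.st s := fun _ k => ⟨k.1, h.trans k.2⟩

theorem st_nhds {s : P} {p : E} (h : p ∈ K.st s) : K.st s ∈ 𝓝[S] p := by
  filter_upwards [K.lsc p h.1, self_mem_nhdsWithin] with q h1 h2 using ⟨h2, h.2.trans h1⟩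

theorem nhds_st {s : P} {p : E} (h : p ∈ K.st s) : 𝓝[K.st s] p = 𝓝[S] p :=
  le_antisymm (nhdsWithin_mono _ (K.st_sub _))
    (le_inf inf_le_left (le_principal_iff.2 (K.st_nhds h)))

/-- the germ cocycle of a combinatorial cocycle -/
def germ (w : P → P → G) (p q : E) : Multiplicative G :=
  Multiplicative.ofAdd (w (K.cel p) (K.cel q))

variable {w : P → P → G}

theorem prim_st (hw : CocOn C w) {s : P} (hs : s ∈ C) :
    ∀ p ∈ K.st s, ∀ᶠ q in 𝓝[S] p, Multiplicative.ofAdd (w s (K.cel q)) =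
      Multiplicative.ofAdd (w s (K.cel p)) * K.germ w p q := fun p hp => by
  filter_upwards [K.lsc p hp.1, self_mem_nhdsWithin] with q h1 h2
  rw [hw s hs _ (K.maps p hp.1) _ (K.maps q h2) hp.2 h1]
  rfl

theorem coc (hw : CocOn C w) : Lev33.Coc S (K.germ w) :=
  Lev33.coc_of_loc fun p hp => ⟨_, K.st_nhds ⟨hp, le_rfl⟩, _, K.prim_st hw (K.maps p hp)⟩

theorem prim {g : P → G} (h : ∀ x ∈ C, ∀ y ∈ C, x ≤ y → w x y = g y - g x) :
    Prim S (K.germ w) fun p => Multiplicative.ofAdd (g (K.cel p)) := fun p hp => by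
  filter_upwards [K.lsc p hp, self_mem_nhdsWithin] with q h1 h2
  rw [germ, h _ (K.maps p hp) _ (K.maps q h2) h1, ← ofAdd_add, add_sub_cancel]

theorem tr_of_ex (h : ExOn C w) : Tr S (K.germ w) := let ⟨_, hg⟩ := h; ⟨_, K.prim hg⟩

/-- a primitive of the germ cocycle is a combinatorial primitive -/
theorem of_prim (hw : CocOn C w) {b : E → Multiplicative G} (hb : Prim S (K.germ w) b) {s : P}
    (hs : s ∈ C) {p : E} (hp : p ∈ K.st s) :
    w s (K.cel p) = (b p).toAdd - (b (K.x s)).toAdd := by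
  have h1 : Prim (K.st s) (K.germ w) fun q => Multiplicative.ofAdd (w s (K.cel q)) :=
    fun q hq => (K.prim_st hw hs q hq).filter_mono (nhdsWithin_mono _ (K.st_sub s))
  have h2 := h1.uniq (hb.mono (K.st_sub s)) (K.st_pre hs) (K.x_mem hs le_rfl) hp
  have h3 : w s s = 0 := by simpa using hw s hs s hs s hs le_rfl le_rfl
  rw [h2, K.sec s hs, h3]
  simp

theorem ex_of_tr (hw : CocOn C w) (h : Tr S (K.germ w)) : ExOn C w :=
  let ⟨b, hb⟩ := h
  ⟨fun s => (b (K.x s)).toAdd, fun s hs t ht hst => by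
    have := K.of_prim hw hb hs (K.x_mem ht hst)
    rwa [K.sec t ht] at this⟩

include K in
theorem conn (h : IsPreconnected S) : Conn C := fun s hs t ht => by
  have : LCo S fun p => Rch C s (K.cel p) := fun p hp => by
    filter_upwards [K.lsc p hp, self_mem_nhdsWithin] with q h1 h2
    have := Rch.of_cm (K.maps p hp) (K.maps q h2) (Or.inl h1)
    exact propext ⟨fun k => k.trans this.symm, fun k => k.trans this⟩
  have e := this.eq h (K.mem s hs) (K.mem t ht)
  simp only [K.sec s hs, K.sec t ht] at e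
  exact e ▸ Rch.rfl

include K in
theorem pre (h : Conn C) : IsPreconnected S := by
  rcases S.eq_empty_or_nonempty with e | ⟨p, hp⟩
  · exact e ▸ isPreconnected_empty
  have hs := K.maps p hp
  refine isPreconnected_of_forall (K.x (K.cel p)) fun q hq => ?_
  have key : ∀ t, Rch C (K.cel p) t → t ∈ C ∧ ∃ T ⊆ S, K.x (K.cel p) ∈ T ∧ K.st t ⊆ T ∧
      IsPreconnected T := fun t ht => by
    induction ht with
    | refl => exact ⟨hs, _, K.st_sub _, K.x_mem hs le_rfl, subset_rfl, K.st_pre hs⟩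
    | @tail a b _ h2 ih =>
      obtain ⟨ha, T, h3, h4, h5, h6⟩ := ih
      refine ⟨h2.2.1, T ∪ K.st b, union_subset h3 (K.st_sub _), Or.inl h4, subset_union_right, ?_⟩
      rcases h2.2.2 with e | e
      · exact h6.union (K.x b) (h5 (K.x_mem h2.2.1 e)) (K.x_mem h2.2.1 le_rfl) (K.st_pre h2.2.1)
      · exact h6.union (K.x a) (h5 (K.x_mem ha le_rfl)) (K.x_mem ha e) (K.st_pre h2.2.1)
  obtain ⟨-, T, h3, h4, h5, h6⟩ := key _ (h _ hs _ (K.maps q hq))
  exact ⟨T, h3, h4, h5 ⟨hq, le_rfl⟩, h6⟩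

/-- every germ cocycle comes from a combinatorial one -/
theorem exists_coc {c : E → E → Multiplicative G} (hc : Lev33.Coc S c) :
    ∃ w : P → P → G, CocOn C w ∧ ∃ b : E → Multiplicative G,
      ∀ p ∈ S, ∀ᶠ q in 𝓝[S] p, b q * K.germ w p q = b p * c p q := by
  have h0 : ∀ s, ∃ b : E → Multiplicative G, s ∈ C → Prim (K.st s) c b ∧ b (K.x s) = 1 := fun s => by
    by_cases hs : s ∈ C
    · obtain ⟨b, hb⟩ := Hz56.Tr.exists_eq ((hc.mono (K.st_sub s)).prim_star (K.x_mem hs le_rfl)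
        (K.star s hs)) (K.x s) 1
      exact ⟨b, fun _ => hb⟩
    · exact ⟨1, fun h => absurd h hs⟩
  choose b hb using h0
  have key : ∀ s ∈ C, ∀ t ∈ C, s ≤ t → ∀ p ∈ K.st t, b s p = b s (K.x t) * b t p :=
    fun s hs t ht hst p hp => by
      have := (hb t ht).1.uniq ((hb s hs).1.mono (K.st_anti hst)) (K.st_pre ht)
        (K.x_mem ht le_rfl) hp
      rwa [(hb t ht).2, inv_one, mul_one] at this
  refine ⟨fun s t => (b s (K.x t)).toAdd, fun s hs t ht u hu h1 h2 => ?_,
    fun p => b (K.cel p) p, fun p hp => ?_⟩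
  · exact congrArg Multiplicative.toAdd (key s hs t ht h1 _ (K.x_mem hu h2))
  · have h1 := (hb _ (K.maps p hp)).1 p ⟨hp, le_rfl⟩
    rw [K.nhds_st ⟨hp, le_rfl⟩] at h1
    filter_upwards [h1, K.lsc p hp, self_mem_nhdsWithin] with q k1 k2 k3
    rw [← k1, key _ (K.maps p hp) _ (K.maps q k3) k2 q ⟨k3, le_rfl⟩, mul_comm]
    rfl

include K in
theorem h1 (h : ∀ w : P → P → G, CocOn C w → ExOn C w) : Hz56.H1 (Multiplicative G) S :=
  fun c hc => by
    obtain ⟨w, hw, b, hb⟩ := K.exists_coc hc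
    obtain ⟨d, hd⟩ := K.tr_of_ex (h w hw)
    refine ⟨fun p => b p * d p, fun p hp => ?_⟩
    filter_upwards [hb p hp, hd p hp] with q h1 h2
    rw [h2, mul_comm (d p), ← mul_assoc, h1, mul_right_comm]

end Cel

/-! ### open simplices -/

section real

variable [Fintype P] (R : Real P E)

/-- the carrier of a point -/
def sup [Nonempty P] (p : E) : Ch P :=
  if h : p ∈ R.B then ⟨Finset.univ.filter fun s => R.lam s p ≠ 0, by
      obtain ⟨s, hs⟩ := support_nonempty_iff.2 (Real.wt_mem h).ne_zero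
      exact ⟨s, Finset.mem_filter.2 ⟨Finset.mem_univ _, hs⟩⟩,
    (Real.wt_mem h).chain.mono fun _ hs => (Finset.mem_filter.1 hs).2⟩
  else Ch.pt (Classical.arbitrary P)

variable {R} [Nonempty P]

theorem mem_sup {p : E} (h : p ∈ R.B) {s : P} : s ∈ (sup R p).1 ↔ R.lam s p ≠ 0 := by
  have : (sup R p).1 = Finset.univ.filter fun s => R.lam s p ≠ 0 :=
    congrArg Subtype.val (dif_pos h)
  rw [this]
  exact Finset.mem_filter.trans (and_iff_right (Finset.mem_univ _))

theorem coe_sup {p : E} (h : p ∈ R.B) : ((sup R p).1 : Set P) = support (R.wt p) :=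
  Set.ext fun _ => mem_sup h

theorem mem_spx {p : E} {c : Set P} : p ∈ R.spx c ↔ p ∈ R.B ∧ ∀ s ∈ (sup R p).1, s ∈ c :=
  and_congr_right fun h => by rw [← coe_sup h]; rfl

theorem mem_spx_sup {p : E} (h : p ∈ R.B) {c : Ch P} : p ∈ R.spx c.1 ↔ sup R p ≤ c :=
  mem_spx.trans (and_iff_right h)

theorem sup_lsc {p : E} (h : p ∈ R.B) : ∀ᶠ q in 𝓝[R.B] p, sup R p ≤ sup R q := by
  have : ∀ᶠ q in 𝓝[R.B] p, ∀ s ∈ (sup R p).1, R.lam s q ≠ 0 :=
    (Finset.eventually_all _).2 fun s hs =>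
      (R.continuousOn_lam s p h).eventually_ne ((mem_sup h).1 hs)
  filter_upwards [this, self_mem_nhdsWithin] with q h1 h2 s hs using (mem_sup h2).2 (h1 s hs)

theorem sup_x (s : P) : sup R (R.x s) = Ch.pt s := Ch.ext <| Finset.ext fun t => by
  rw [mem_sup (R.x_mem s), Real.lam, R.wt_x]
  simp [Pi.single_apply]

theorem exists_sup (c : Ch P) : ∃ p ∈ R.B, sup R p = c := by
  obtain ⟨y, -, h1, h2⟩ := R.exists_interior c.2.2 (s := c.top) c.top_mem univ_mem
  exact ⟨y, h1, Ch.ext (Finset.coe_injective ((coe_sup h1).trans h2))⟩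

/-- the segment from a point of a face -/
theorem sup_seg {p q : E} (hp : p ∈ R.B) (hq : q ∈ R.B) (h : sup R p ≤ sup R q) {a b : ℝ}
    (ha : 0 ≤ a) (hb : 0 < b) (hab : a + b = 1) :
    a • p + b • q ∈ R.B ∧ sup R (a • p + b • q) = sup R q ∧
      R.wt (a • p + b • q) = a • R.wt p + b • R.wt q := by
  have h1 := (mem_spx_sup hp).2 h
  have h2 := (mem_spx_sup hq).2 le_rfl
  have h3 := Real.convex_spx (sup R q).2.2 h1 h2 ha hb.le hab
  have h4 := Real.wt_seg (sup R q).2.2 h1 h2 ha hb.le hab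
  refine ⟨h3.1, le_antisymm ((mem_spx_sup h3.1).1 h3) fun s hs => (mem_sup h3.1).2 ?_, h4⟩
  rw [Real.lam, h4]
  exact (add_pos_of_nonneg_of_pos (mul_nonneg ha ((Real.wt_mem hp).nonneg s))
    (mul_pos hb ((Real.wt_mem hq).pos ((mem_sup hq).1 hs)))).ne'

theorem star_of {x : E} {T : Set E} (hx : x ∈ T)
    (h : ∀ q ∈ T, ∀ a b : ℝ, 0 ≤ a → 0 < b → a + b = 1 → a • x + b • q ∈ T) :
    StarConvex ℝ x T := fun q hq a b ha hb hab => by
  rcases hb.eq_or_lt with rfl | hb
  · rw [add_zero] at hab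
    simpa [hab] using hx
  · exact h q hq a b ha hb hab

variable (R) in
/-- a union of open simplices -/
def opn (C : Set (Ch P)) : Set E := {p | p ∈ R.B ∧ sup R p ∈ C}

variable (R) in
/-- unions of open simplices -/
def celR (C : Set (Ch P)) : Cel (opn R C) C where
  cel := sup R
  x c := (exists_sup (R := R) c).choose
  maps _ h := h.2
  lsc _ h := (sup_lsc h.1).filter_mono (nhdsWithin_mono _ fun _ k => k.1)
  mem c hc := ⟨(exists_sup (R := R) c).choose_spec.1,
    (exists_sup (R := R) c).choose_spec.2.symm ▸ hc⟩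
  sec c _ := (exists_sup (R := R) c).choose_spec.2
  star c hc := by
    obtain ⟨h1, h2⟩ := (exists_sup (R := R) c).choose_spec
    refine star_of ⟨⟨h1, h2.symm ▸ hc⟩, h2.ge⟩ fun q hq a b ha hb hab => ?_
    obtain ⟨k1, k2, -⟩ := sup_seg h1 hq.1.1 (h2.trans_le hq.2) ha hb hab
    exact ⟨⟨k1, k2.symm ▸ hq.1.2⟩, k2.symm ▸ hq.2⟩

variable {A : Set P} {G : Type} [AddCommGroup G] {w : P → P → G}

theorem conn_of_opn (h : IsPreconnected (opn R (Ch.top ⁻¹' A))) : Conn A :=
  (Kh11.ce_top.ws_pre A).conn_iff.1 ((celR R _).conn h)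

variable (R) in
/-- the germ cocycle of a vertex cocycle -/
def germ (w : P → P → G) : E → E → Multiplicative G := fun p q =>
  Multiplicative.ofAdd (w (sup R p).top (sup R q).top)

theorem coc_germ (hw : CocOn A w) : Lev33.Coc (opn R (Ch.top ⁻¹' A)) (germ R w) :=
  (celR R _).coc ((Kh11.ce_top.ws_pre A).coc_pb hw)

theorem tr_germ (hw : CocOn A w) : Tr (opn R (Ch.top ⁻¹' A)) (germ R w) ↔ ExOn A w :=
  ⟨fun h => (Kh11.ce_top.ws_pre A).ex hw ((celR R _).ex_of_tr ((Kh11.ce_top.ws_pre A).coc_pb hw) h),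
    fun h => (celR R _).tr_of_ex ((Kh11.ce_top.ws_pre A).ex_pb h)⟩

end real

end Crest.Agent.X212.St29
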