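import Crest.Agent.X212.Sw87.MoP
import Crest.Agent.X212.Lr83.Lr
import Crest.Agent.X212.Met55.Trf

/-!
# Row 212, GEO engine, P-BW and P-LRF (helper29)
-/

set_option autoImplicit false
set_option linter.unusedSectionVars false
noncomputable section
open scoped Manifold ContDiff Topology
open Set Function Filter

namespace Crest.Agent.X212.St29.Bw
open An Cyf70 Sw Flo2 Geo28 Met55 Pen22 Sw87.Mo
open Prm93 (JS JAt)

theorem sT_max (x : ℝ) : sT x = sT (max 0 x) := by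
  rcases le_total x 0 with h | h
  · rw [max_eq_left h]
    exact (Real.smoothTransition.zero_of_nonpos h).trans Real.smoothTransition.zero.symm
  · rw [max_eq_right h]

theorem s_zero {x : ℝ} (h : 1 ≤ x) : 1 - sT x = 0 := by
  rw [show sT x = 1 from Real.smoothTransition.one_of_one_le h, sub_self]

theorem tst0 {κ ν : Type} [Fintype κ] [DecidableEq κ] [Fintype ν] [DecidableEq ν] {X : M4} {n : ℕ}
    (b : Bg X.I X.M κ L0 ν n) (Ξ : R4 → X.M) : b.Tst Ξ 0 :=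
  ⟨contDiff_const, HasCompactSupport.zero, fun _ => map_zero _⟩

/-- **P-BW** -/
theorem bw (H : Lf) : BwStmt := by
  intro X τ τ' k k' β₀ β' a ι r h w' w₀ hι
  have g : ContDiff ℝ ∞ fun t : Tk k => (t ∘ ι : Tk k') := contDiff_pi.2 fun c => contDiff_apply ℝ ℝ (ι c)
  have wa : ∀ c i, β₀.wl c = some i → c = a := fun c i e => by_contra fun n => nomatch (w₀ c n).symm.trans e
  have act : ∀ (t : Tk k) i, 1 < β₀.v t i → 1 - sT (t a) ≠ 0 → ∃ i', (τ'.nb i').Cor (τ.nb i) id ∧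
      β'.v (t ∘ ι) i' = β₀.v t i := fun t i hi hs => by
    rcases β₀.act hi with e | ⟨c, e⟩
    · obtain ⟨i', q⟩ := h.r' e
      have c := h.cor _ _ q
      exact ⟨i', c, (β'.v_end (c.s ▸ e) _).trans (β₀.v_end e t).symm⟩
    · cases wa c i e
      exact (hs (s_zero (β₀.v_wl e t ▸ hi.le))).elim
  obtain ⟨β, w, e1, co, h1⟩ := H.bl β₀ (fun t => β'.e (t ∘ ι)) (fun t => 1 - sT (t a))
    (contDiff_const.sub (Real.smoothTransition.contDiff.comp (contDiff_apply ℝ ℝ a)))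
    (fun t => ⟨sub_nonneg.2 (Real.smoothTransition.le_one _), sub_le_self _ (Real.smoothTransition.nonneg _)⟩)
    (fun t => by
      rw [clp]
      cases β₀.wl a
      exacts [congrArg _ (sT_clp _), congrArg _ (sT_max _)])
    (fun c e t v h3 hv => by
      obtain ⟨i, e⟩ := Option.ne_none_iff_exists'.1 e
      cases wa c i e
      exact (s_zero (by rw [update_self]; linarith)).trans (s_zero (by linarith)).symm)
    (fun b t x => VJ.reparam (X := fun s => β'.e s b) g.contDiffAt (β'.sm b _ x)) (fun t => β'.sp _)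
    (fun t _ => (β'.ret _).trans (congrArg β'.e (funext fun c => by
      simp only [clp, comp_apply, w' c, w₀ _ (hι c), Option.elim])))
    (fun t i hi hs x hx => by
      obtain ⟨i', c, v⟩ := act t i hi hs
      obtain ⟨y, hy, rfl⟩ := Emo56.cor_mem c le_rfl hx
      have : atx (β₀.e t) (id y) = atx (β'.e (t ∘ ι)) (id y) := funext fun b =>
        (Emo56.cor_e c (fun _ => mdifferentiableAt_id) (β'.lit _ i' (hi.trans_eq v.symm))
          ((show τ.sw β₀.wl t i = τ'.sw β'.wl (t ∘ ι) i' from v.symm) ▸ β₀.lit t i hi) hy b).symm.trans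
            (mf_refl y _)
      rw [this]
      exact fun _ _ => rfl)
    fun c i e t v h3 _ hs => by
      cases wa c i e
      exact (hs (s_zero (by linarith))).elim
  refine ⟨β, ⟨w, fun t ht => e1 t (s_zero ht), fun t x p q => by rw [co, sub_sub_cancel]⟩, fun c₀ c' => ?_⟩
  have sf := (H.pb.f c' (.refl X) (β₀.e 0) (β₀.fr 0)).2
  simp only [pm_refl] at sf
  obtain ⟨c, m, d, s⟩ := h1 c₀ (fun t => c'.fo (t ∘ ι)) 0 0 (fun t => c'.cs _)
    (fun t _ x => JAt.reparam (f := fun s => cmp (β₀.e 0) (c'.fo s)) g.contDiffAt (sf _ trivial x))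
    (fun _ _ _ => contMDiffAt_const) (fun _ _ => (mul_zero _).trans (zero_mul _).symm)
    (fun _ _ => (congrArg (· * _) (mul_zero _)).trans (zero_mul _))
    (fun t i hi hs x hx => by
      obtain ⟨i', c, v⟩ := act t i hi hs
      obtain ⟨y, hy, rfl⟩ := Emo56.cor_mem c (by norm_num) hx
      exact ⟨c'.f0 _ i' (hi.trans_eq v.symm) y hy, rfl⟩)
    (fun _ => ⟨contDiffOn_const, ∅, isCompact_empty, fun _ _ _ _ => rfl⟩)
    fun _ _ => tst0 _ _
  exact ⟨c, m, d, fun t => by rw [(s t).1, sub_sub_cancel], fun e => funext fun t => by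
    rw [(s t).2.1, e]; simp⟩

section
variable {M M' N : Type} {ψ : M ≃ M} {S : M → Prop} (h : ∀ p, S p → ψ p = p)
include h

theorem fix_symm {p : M} (hp : S p) : ψ.symm p = p := ψ.symm_apply_eq.2 (h p hp).symm

theorem not_symm {p : M} (hp : ¬S p) : ¬S (ψ.symm p) := fun k =>
  hp ((ψ.apply_symm_apply p).symm.trans (h _ k) ▸ k)

theorem mp_symm {φ : N ≃ N} {l : M → N} {U : Set M} (hU : ∀ p, ¬S p → p ∈ U)
    (e : ∀ p ∈ U, φ (l p) = l (ψ p)) : ∀ p ∈ U, φ.symm (l p) = l (ψ.symm p) := fun p hp => by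
  rw [φ.symm_apply_eq, e _ ?_, ψ.apply_symm_apply]
  by_cases k : S p
  · rwa [fix_symm h k]
  · exact hU _ (not_symm h k)

theorem rf_symm {φ : N ≃ N} {l L : M → N} {U V : Set M} (hU : ∀ p, ¬S p → p ∈ U)
    (e : ∀ p ∈ U, φ (l p) = l (ψ p)) (l0 : ∀ p, ¬S p → L p = l p)
    (l1 : ∀ p ∈ V, S p → ∃ q ∈ U, S q ∧ L p = l q) : ∀ p ∈ V, φ.symm (L p) = L (ψ.symm p) := fun p hp => by
  by_cases k : S p
  · obtain ⟨q, m, s, e'⟩ := l1 p hp k
    rw [fix_symm h k, e', mp_symm h hU e q m, fix_symm h s]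
  · rw [l0 p k, l0 _ (not_symm h k), mp_symm h hU e p (hU p k)]

end

/-- **P-LRF** -/
theorem lrf : LrfStmt := by
  intro X X₁ X₂ τ τ₁ τ₂ γ Λ φ φ₁ φ₂ h h₁ h₂
  have u₁ : ∀ p, ¬0 < γ.k₁.tm p → p ∈ γ.g.l.source := fun p k => (mem_l γ.g).2 (by linarith [not_lt.1 k])
  have u₂ : ∀ p, ¬γ.k₂.tm p < 0 → p ∈ γ.g.r.source := fun p k => (mem_r γ.g).2 (by linarith [not_lt.1 k])
  refine ⟨⟨mp_symm (ψ := φ₁.φ.toEquiv) (φ := φ.φ.toEquiv) h₁ u₁ h.1,
    mp_symm (ψ := φ₂.φ.toEquiv) (φ := φ.φ.toEquiv) h₂ u₂ h.2⟩, fun v =>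
      rf_symm (ψ := φ₁.φ.toEquiv) (φ := φ.φ.toEquiv) h₁ u₁ h.1
        (fun p k => Λ.l0 v p (by linarith [not_lt.1 k])) fun p hp k => ?_, fun v =>
      rf_symm (ψ := φ₂.φ.toEquiv) (φ := φ.φ.toEquiv) h₂ u₂ h.2
        (fun p k => Λ.r0 v p (by linarith [not_lt.1 k])) fun p hp k => ?_⟩
  · have t := Lr83.tm_cpf γ.k₁ (Lr83.rpL v) p
    refine ⟨_, (mem_l γ.g).2 ?_, t ▸ (Lr83.rpL v).mem k, Lr83.cp_l γ v ▸ Λ.le v p hp⟩
    rw [t]
    exact ((Lr83.symm_lt v _).2 (Λ.ls v ▸ hp :)).trans (by norm_num)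
  · have t := Lr83.tm_cpf γ.k₂ (Lr83.rpR v) p
    refine ⟨_, (mem_r γ.g).2 ?_, t ▸ (Lr83.rpR v).mem k, Lr83.cp_r γ v ▸ Λ.re v p hp⟩
    have m : -(len v + 1) < γ.k₂.tm p := (Λ.rs v).le hp
    rw [t, Lr83.fR_apply]
    linarith [(Lr83.lt_symm v (γ.k₂.tm p + len v + 2)).2 (by linarith)]

end Crest.Agent.X212.St29.Bw
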