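import Crest.Agent.X212.Cut21.Pos

/-!
# X212 / St29 (helper29): the first cut, combinatorial half

A manifold whose whole boundary is `R₋` is cut along a surface of largest Euler characteristic.
-/

set_option autoImplicit false
set_option linter.unusedSectionVars false

open Finset Classical Module

noncomputable section

namespace Crest.Agent.X212.St29

open Crest.Agent.X212.Hp13 Crest.Agent.X212.Alg36 Crest.Agent.X212.Cut21 Crest.Agent.X212.Mcg32
open Crest.Agent.X212.Ind26 (dp_om Coh Adm Cov Hier)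

/-- first cohomology of rank at most one and no top cycle -/
theorem zero_le_chi4 {α K : Type*} [PartialOrder α] [DecidableEq α] [Field K] {A : Finset α}
    (hne : A.Nonempty) (htop : ∀ u : chains A 4 → K, Matrix.vecMul u (mat K A 3) = 0 → u = 0)
    {w : α → α → K} (hw : FCoc A w) (hex : ∀ z : α → α → K, FCoc A z → ∃ l : K, FEx A (z - l • w)) :
    0 ≤ chi4 A := by
  obtain ⟨φ₀, -, h0⟩ := exists_coch (A := A) (z := w) hw
  have h := rank_four ((mat K A 1).mulVecLin.coprod (LinearMap.toSpanSingleton K _ φ₀))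
    (mat K A 2).mulVecLin (mat K A 3).mulVecLin (fun x => mat_mat x) (surj_of_transpose _ htop)
    fun φ hφ => by
      let z : α → α → K := fun x y => if x < y then ex φ {x, y} else 0
      have hz : FCoc A z := by
        intro x hx y hy t ht h h'
        rcases h.eq_or_lt with rfl | h
        · simp [z]
        rcases h'.eq_or_lt with rfl | h'
        · simp [z]
        have := congrFun hφ ⟨_, triple_mem hx hy ht h h'⟩
        rw [Matrix.mulVecLin_apply, mat_mulVec, dd_triple _ h h'] at this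
        simp only [z, if_pos h, if_pos h', if_pos (h.trans h')]
        simp only [Pi.zero_apply] at this
        linear_combination -this
      obtain ⟨l, g, hg⟩ := hex z hz
      refine ⟨(fun e => ∑ x ∈ e.1, g x, l), funext fun c => ?_⟩
      obtain ⟨x, hx, y, hy, h, hc⟩ := eq_pair c.2
      have e1 := hg x hx y hy h.le
      obtain rfl : c = ⟨_, pair_mem hx hy h⟩ := Subtype.ext hc
      simp only [z, if_pos h, Pi.sub_apply, Pi.smul_apply, smul_eq_mul, ← h0 x hx y hy h,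
        ex_mem _ (pair_mem hx hy h)] at e1
      simp only [LinearMap.coprod_apply, Matrix.mulVecLin_apply, Pi.add_apply, mat_mulVec,
        dd_pair _ h, ex_mem _ (single_mem hx), ex_mem _ (single_mem hy), sum_singleton,
        LinearMap.toSpanSingleton_apply, Pi.smul_apply, smul_eq_mul]
      linear_combination -e1
  have h1 : 1 ≤ finrank K (LinearMap.ker
      ((mat K A 1).mulVecLin.coprod (LinearMap.toSpanSingleton K _ φ₀))) := by
    rw [Nat.one_le_iff_ne_zero, Ne, Submodule.finrank_eq_zero, LinearMap.ker_eq_bot']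
    intro h0
    obtain ⟨x, hx⟩ := hne
    have := h0 (fun _ => 1, 0) (funext fun c => by
      obtain ⟨a, ha, b, hb, hab, hc⟩ := eq_pair c.2
      simp [mat_mulVec, hc, dd_pair _ hab, ex_mem _ (single_mem ha), ex_mem _ (single_mem hb)])
    exact one_ne_zero (congrFun (congrArg Prod.fst this) ⟨_, single_mem hx⟩)
  simp only [finrank_prod, finrank_self, finrank_fintype_fun_eq_card, Fintype.card_coe,
    Nat.reduceAdd] at h h1
  unfold chi4
  omega

section
variable {P : Type} [PartialOrder P] [Fintype P] {A : Set P} {z : P → P → ℤ}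

theorem zero_le_eu (h : Mf 3 A) (hne : A.Nonempty) (he : Esc A A) {w : P → P → ℚ} (hw : CocOn A w)
    (hex : ∀ z : P → P → ℚ, CocOn A z → ∃ l : ℚ, ExOn A (z - l • w)) : 0 ≤ eu A := by
  obtain ⟨x, hx⟩ := hne
  rw [← chi_fs, chi_eq_chi4 (Mf.dim h subset_rfl)]
  refine zero_le_chi4 (K := ℚ) ⟨x, mem_fs.2 hx⟩ (fun u hu => ?_) (coc_fs.2 hw) fun z hz =>
    (hex z (coc_fs.1 hz)).imp fun l k => ex_fs.2 k
  have := Mf.noCyc h subset_rfl he ℚ
  rw [Submodule.finrank_eq_zero, eq_bot_iff] at this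
  exact this (mem_cyc.2 hu)

theorem rp_zero (hA : IsUpperSet A) : Rp A = 0 := by
  funext x y
  have : ∀ x, up A x = 0 := fun x => ind_of_not fun ⟨h, _, ha, l⟩ => h (hA l ha)
  rw [Rp_up, this, this]; rfl

theorem thick_upper (hA : IsUpperSet A) : Thick A :=
  ⟨fun _ ⟨ha, _, ho, l⟩ => absurd (hA l ha) ho, fun _ ha _ h => absurd (hA h.2 ha) h.1⟩

/-- the class is essential on every boundary component -/
def EM (A : Set P) (z : P → P → ℤ) : Prop := ∀ V, V.Nonempty → Clo (Om A) V → ¬ ExOn V z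

theorem EM.sd (hA : A.OrdConnected) (hz : Coc A z) (h : EM A z) :
    EM (Ch.top ⁻¹' A) (pb Ch.top z) := by
  rw [EM, om_sd]
  rintro V ⟨c, hc⟩ hV ⟨g, hg⟩
  have k : ∀ x y (l : x ≤ y), y ∈ Om A → (Ch.pt x ∈ V ↔ Ch.pr x y l ∈ V) ∧
      (Ch.pt y ∈ V ↔ Ch.pr x y l ∈ V) := fun x y l hy =>
    have h1 : Ch.pt x ≤ Ch.pr x y l := Ch.pt_le.2 (by simp)
    have h2 : Ch.pt y ≤ Ch.pr x y l := Ch.pt_le.2 (by simp)
    ⟨⟨fun j => hV.cl _ j _ (by simpa using hy) (.inl h1),
      fun j => hV.cl _ j _ (by simpa using om_dn hA hy l) (.inr h1)⟩,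
      fun j => hV.cl _ j _ (by simpa using hy) (.inl h2),
      fun j => hV.cl _ j _ (by simpa using hy) (.inr h2)⟩
  have sub : ∀ x, Ch.pt x ∈ V → x ∈ Om A := fun x hx => by simpa using hV.sub hx
  refine h {x | Ch.pt x ∈ V} ⟨c.top, hV.cl _ hc _ (by simpa using hV.sub hc)
    (.inr (Ch.pt_le.2 c.top_mem))⟩ ⟨sub, fun x hx y hy l => l.elim
      (fun l => (k x y l hy).2.2 ((k x y l hy).1.1 hx))
      fun l => (k y x l (sub x hx)).1.2 ((k y x l (sub x hx)).2.1 hx)⟩
    ⟨fun x => g (Ch.pt x), fun x hx y hy l => ?_⟩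
  have m := (k x y l (sub y hy)).1.1 hx
  have e1 := hg _ hx _ m (Ch.pt_le.2 (by simp))
  have e2 := hg _ hy _ m (Ch.pt_le.2 (by simp))
  obtain ⟨-, a, ha, l'⟩ := sub y hy
  simp only [pb, Ch.top_pt, Ch.top_pr, hz.self ha (.inr l')] at e1 e2 ⊢
  omega

theorem EM.congr {w : P → P → ℤ} {g : P → ℤ} (h : EM A z) (e : EqD A w (z + cb g)) : EM A w :=
  fun V h1 h2 k => h V h1 h2 ((exOn_add_cb g).1
    (ExOn.congr k fun x _ y hy l => (e x y (dp_om (h2.sub hy) l)).symm))

theorem cond' (hA : IsUpperSet A) (n : ℕ) :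
    ∀ z : P → P → ℤ, NN A z < n → EM A z → Coc A z → Mono A z → JO A z → BR A z →
      ∃ g, Mono A (z + cb g) ∧ Bdy A (z + cb g) := by
  have nop : ∀ x, x ∉ Op A := fun x ⟨h, _, ha, l⟩ => h (hA l ha)
  replace hA := hA.ordConnected
  induction n with
  | zero => exact fun z h _ _ hm _ _ => absurd (NN_nn hm) (by simpa using h)
  | succ n ih =>
  intro z hn em hz hm jo br
  by_cases c2 : CM A z
  · exact ⟨0, by simpa [cb_zero] using hm, by
      simpa [cb_zero] using (⟨jo, br, fun o ho => absurd ho (nop o), c2⟩ : Bdy A z)⟩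
  obtain ⟨o, ho, hr⟩ : ∃ o ∈ Om A, ¬ RM A z o := by simpa [CM] using c2
  set V := {p | p ∈ Om A ∧ ¬ RM A z p} with hV
  have upp : ∀ x y, x ≤ y → y ∈ Om A → x ∈ V → y ∈ V := fun x y l hy hx => ⟨hy, fun k => by
    rcases (hm _ _ (dp_om hy l)).lt_or_eq with e | e
    exacts [hx.2 (RM.hi hy l e), hx.2 (RM.up hy l e.symm k)]⟩
  have dn0 : ∀ x y, x ≤ y → z x y = 0 → y ∈ V → x ∈ V := fun x y l e hy =>
    ⟨om_dn hA hy.1 l, fun k => hy.2 (RM.dn l e k)⟩
  have ev : ∀ x y, (z + cb (-ind V)) x y = z x y - ind V y + ind V x := fun x y => by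
    simp only [Pi.add_apply, cb, Pi.neg_apply]; ring
  obtain ⟨v, p, l, k1, k2⟩ : ∃ v p, v ≤ p ∧ v ∉ V ∧ p ∈ V := by
    by_contra! k
    refine em V ⟨o, ho, hr⟩ ⟨fun _ h => h.1, fun x hx y hy l => l.elim (fun l => upp x y l hy hx)
      fun l => by_contra fun j => k y x l j hx⟩ ⟨0, fun x hx y hy l => ?_⟩
    exact ((hm _ _ (dp_om hy.1 l)).lt_or_eq.resolve_left fun e => hx.2 (RM.hi hy.1 l e)).symm
  have le : ∀ x y, x ≤ y → x ∈ Op A ∨ y ∈ Om A → ind V x ≤ ind V y := fun x y l j => by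
    by_cases i : x ∈ V
    · simp [ind, i, upp x y l (j.resolve_left (nop x)) i]
    · rw [ind_of_not i]; unfold ind; split_ifs <;> simp
  have fin := ih (z + cb (-ind V)) (by
      have := NN_lt (z := z) (g := -ind V) (fun x y l j => by simpa using le x y l j) l (Or.inr k2.1)
        (by simp [ind, k1, k2])
      push_cast at hn; omega) (em.congr EqD.rfl) (hz.add (coc_cb _)) (fun x y d => ?_)
    (fun x y hy l => ?_) fun o ho y hy l j => ?_
  · obtain ⟨g', k⟩ := fin
    exact ⟨-ind V + g', by rwa [cb_add, ← add_assoc]⟩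
  · have := hm x y d
    rw [ev]
    unfold ind
    split_ifs with i j j <;> try omega
    have : z x y ≠ 0 := fun e => j (dn0 x y d.1 e i)
    omega
  · have := le x y l (Or.inr hy)
    have := jo x y hy l
    rw [ev]; omega
  · have l1 := le o y l (Or.inr hy)
    have l2 := jo o y hy l
    rw [ev] at j
    have c := br o ho y hy l (by omega)
    convert c using 2
    ext w
    refine and_congr_right fun hw => and_congr_right fun lw => ?_
    have := le o w lw (Or.inr hw)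
    refine ⟨fun i => by rw [ev] at i; omega, fun i => ?_⟩
    have e : ind V y = ind V w := (c.conn y ⟨hy, l, by omega⟩ w ⟨hw, lw, i⟩).eq fun a ha b hb ab => by
      obtain ⟨-, q, hq, lq⟩ := id hb.1
      have e1 := (tri_hi hq ha.2.1 ab lq).add hz
      have e2 := jo o b hb.1 hb.2.1
      have e3 := hm _ _ (dp_om hb.1 ab)
      have e4 := ha.2.2
      by_cases i : a ∈ V
      · rw [ind_of_mem i, ind_of_mem (upp a b ab hb.1 i)]
      · rw [ind_of_not i, ind_of_not fun j => i (dn0 a b ab (by omega) j)]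
    have := jo o w hw lw
    rw [ev]; omega

end

variable {s t : St} {f : t.P → s.P} {z : s.P → s.P → ℤ}

theorem upper_desc (hd : Desc s t f) (h : IsUpperSet s.A) : IsUpperSet t.A :=
  hd.A_eq ▸ h.preimage hd.mono

theorem EM.desc (hd : Desc s t f) (hA : s.A.OrdConnected) (hz : Coc s.A z) (h : EM s.A z) :
    EM t.A (pb f z) := by
  induction hd with
  | refl => exact h
  | step d ih => exact ih.sd (d.conv hA) (d.coc hz)

theorem prep' (hA : IsUpperSet s.A) (hz : Coc s.A z) (em : EM s.A z) :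
    ∃ (t : St) (f : t.P → s.P) (w : t.P → t.P → ℤ), Desc s t f ∧ Coh t.A (pb f z) w ∧
      Mono t.A w ∧ Bdy t.A w := by
  obtain ⟨N, hN⟩ : ∃ N : ℕ, ∀ x y, rf 0 z x y ≤ N :=
    let ⟨N, hN⟩ := (Set.finite_range (Function.uncurry (rf 0 z))).bddAbove
    ⟨N.toNat, fun x y => (hN ⟨(x, y), rfl⟩).trans (Int.self_le_toNat N)⟩
  obtain ⟨t, f, g, d, m1, j1⟩ := halve N s.sd.sd _ (coc_rf hz 0) (mono_rf hz 0) fun x y _ => hN x y
  have d1 := ((Desc.sd s).step).trans d
  have c1 : Coc t.A (pb f (rf 0 z) + cb g) := (d.coc (coc_rf hz 0)).add (coc_cb g)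
  have k1 : Coh t.A (pb ((Ch.top ∘ Ch.top) ∘ f) z) (pb f (rf 0 z) + cb g) :=
    ⟨_, fun x y _ => congrFun (congrFun (pb_rf f 0 z g) x) y⟩
  have k2 : Coh t.sd.sd.A _ _ := coh_trans (coh_desc (desc2 t) k1) ⟨_, eqD_bb c1⟩
  have d2 := d1.trans (desc2 t)
  obtain ⟨g', m2, b2⟩ := cond' (upper_desc d2 hA) _
    (pb (fun C : Ch (Ch t.P) => C.bot.bot) (pb f (rf 0 z) + cb g))
    ((Int.self_le_toNat _).trans_lt (Int.ofNat_lt.2 (Nat.lt_succ_self _)))
    ((em.desc d2 hA.ordConnected hz).congr k2.choose_spec)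
    (((c1.pb (Ch.top_mono.comp Ch.top_mono)).add (coc_cb _)).congr (eqD_bb c1))
    (fun C D h => m1 _ _ (dp_bb h)) (fun C D hD l => j1 _ _ (dp_bb (dp_om hD l)))
    (br_bb (d1.conv hA.ordConnected) c1 m1)
  exact ⟨_, _, _, d2, coh_trans k2 ⟨g', EqD.rfl⟩, m2, b2⟩

/-- the first cut -/
theorem first_cut (hs : Good s) (hA : IsUpperSet s.A) (he : Esc s.A s.A) (h0 : eu s.A = 0)
    (hz : Coc s.A z) (em : EM s.A z) :
    ∃ (t : St) (f : t.P → s.P) (w : t.P → t.P → ℤ) (c : St) (π : c.P → t.P), Desc s t f ∧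
      Coh t.A (pb f z) w ∧ Adm t w ∧ Cov t c w π ∧ Stt c := by
  have e1 : ee s.A = 0 := by
    have := Mf.chi_Rp_eq hs.mf hs.conv
    rw [rp_zero hA, chi_zero] at this
    omega
  obtain ⟨t1, f1, w1, d1, k1, m1, b1⟩ := prep' hA hz em
  have c1 : Coc t1.A w1 := ((d1.coc hz).add (coc_cb _)).congr k1.choose_spec
  have g1 := Good.desc hs d1
  obtain ⟨t2, f2, w2, d2, sf, e2, mx⟩ := maxStmt t1 w1 g1 c1 m1
  have d := d1.trans d2
  have g2 := Good.desc hs d
  have r : chi t2.A (Rm t2.A) = 0 := by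
    rw [Mf.chi_Rm_eq g2.mf g2.conv, d.ee_A, e1, d.A_eq, d.eu, h0]; rfl
  obtain ⟨t, f, w, c, π, lev, d3, e3, -, nf, hc, st⟩ := cutStmt t2 w2 g2
    (thick_upper (upper_desc d hA)) (Esc.desc' he d) (d.ee_A.trans e1) sf
    (Hlf24.bdyStmt.bdy g1 c1 d2 e2 b1) (mx.of_eqv (by
      have := (Eqv.rfl (z := w2)).add (eqv_Rp_Rm (A := t2.A))
      rwa [rp_zero (upper_desc d hA), add_zero] at this) (by rw [chi_add, r, add_zero]))
  exact ⟨t, _, w, c, π, d.trans d3, coh_trans (coh_desc d3 (coh_trans (coh_desc d2 k1)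
    (coh_of_eqv e2))) (coh_of_eqv e3), nf.adm, hc.cov, st⟩

/-- the first cut under a hierarchy -/
theorem first_hier (hH : ∀ c, Stt c → ∃ t g, Desc c t g ∧ Hier t) (hs : Good s)
    (hA : IsUpperSet s.A) (he : Esc s.A s.A) (h0 : eu s.A = 0) (hz : Coc s.A z) (em : EM s.A z) :
    ∃ (t : St) (f : t.P → s.P) (w : t.P → t.P → ℤ) (c : St) (π : c.P → t.P), Desc s t f ∧
      Coh t.A (pb f z) w ∧ Adm t w ∧ Cov t c w π ∧ Hier c := by
  obtain ⟨t, f, w, c, π, d, k, ad, cv, st⟩ := first_cut hs hA he h0 hz em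
  obtain ⟨c', g, d', h⟩ := hH c st
  obtain ⟨t', f', π', d2, cv', -⟩ := cv.lift d'
  exact ⟨t', _, _, c', π', d.trans d2, coh_desc d2 k, ad.desc d2, cv', h⟩

end Crest.Agent.X212.St29
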