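import Crest.Agent.X212.St29.Shell
import Crest.Agent.X212.St29.Comb
import Crest.Agent.X212.Hz56.Rod
import Crest.Agent.X212.Hz56.Inst
import Crest.Agent.X212.Ext52.Top

/-!
# X212 / St29 (helper29): the first cut of the knot exterior
-/

set_option autoImplicit false
set_option linter.unusedSectionVars false

open Set Filter Topology Function
open scoped ContDiff Manifold NNReal Real
open Crest.GeometryTopology.DehnSurgery Crest.Agent.X212.Glue52 Crest.Agent.X212.Ext52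
open Crest.Agent.X212.Hp13 Crest.Agent.X212.Sm10 Crest.Agent.X212.Alg36
open Crest.Agent.X212.Hz56 (Tr IsHol)
open Crest.Agent.X212.Ind26 (Coh Adm Cov Hier)

noncomputable section

namespace Crest.Agent.X212.St29

section rad

variable (t : Tube)

/-- tube coordinates of a point -/
def ti (p : E3) : Circle × ℂ := invFun t.τ (sg t p)

open Classical in
/-- push out to radius `q.2` -/
def rad (q : E3 × ℝ) : E3 :=
  if rho t q.1 < 3 then tb t ((ti t q.1).1, (max (rho t q.1) q.2 : ℝ) * dir (ti t q.1).2) else q.1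

variable {t} {p : E3} {r s : ℝ}

theorem ti_of {z : Circle × ℂ} (h : sg t p = t.τ z) : ti t p = z := by
  rw [ti, h, leftInverse_invFun t.inj]

theorem continuousAt_ti (h : rho t p < 4) : ContinuousAt (ti t) p := by
  obtain ⟨z, h1, -⟩ := exists_τ h
  refine ContinuousAt.comp (g := invFun t.τ) ?_ (isOpenEmbedding_sg t).continuous.continuousAt
  rw [h1, ← t.isOpenEmbedding.continuousAt_iff, (leftInverse_invFun t.inj).comp_eq_id]
  exact continuousAt_id

theorem pol_ne' (h : 0 < r) (u : Circle) : (r : ℂ) * u ≠ 0 :=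
  mul_ne_zero (by exact_mod_cast h.ne') u.coe_ne_zero

theorem rad_polar (h : 0 < r) (h' : r ≤ 4) (hs : s ≤ 3) (y u : Circle) :
    rad t (tb t (y, r * u), s) = tb t (y, (max r s : ℝ) * u) := by
  simp only [rad, rho_polar t h h']
  split_ifs with k
  · rw [ti_of (sg_tb (pol_ne' h u)), dir_mul h]
  · rw [max_eq_left (hs.trans (not_lt.1 k))]

theorem rad_eq (hs : s ≤ rho t p) : rad t (p, s) = p := by
  simp only [rad]
  split_ifs with k
  · obtain ⟨z, h1, h2⟩ := exists_τ (k.trans (by norm_num))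
    rw [max_eq_left hs, ti_of h1, h2, norm_mul_dir, tb_of_sg h1]
  · rfl

theorem continuousAt_rad (h : 0 < rho t p) (hs : s < 3) : ContinuousAt (rad t) (p, s) := by
  have c : Continuous fun q : E3 × ℝ => rho t q.1 := (continuous_rho t).comp continuous_fst
  rcases lt_or_ge (rho t p) 3 with k | k
  · obtain ⟨z, h1, h2⟩ := exists_τ (k.trans (by norm_num : (3 : ℝ) < 4))
    have c1 : ContinuousAt (fun q : E3 × ℝ => ti t q.1) (p, s) :=
      (continuousAt_ti (p := p) (by linarith)).comp_of_eq continuousAt_fst rfl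
    have c2 : ContinuousAt (fun q : E3 × ℝ => dir (ti t q.1).2) (p, s) :=
      (contMDiffAt_dir (by rw [ti_of h1]; exact norm_pos_iff.1 (h2 ▸ h))).continuousAt.comp_of_eq
        c1.snd rfl
    refine ((contMDiffAt_tb (t := t) (pol_ne' (lt_max_of_lt_left h) _)).continuousAt.comp_of_eq
      (c1.fst.prodMk ((Complex.continuous_ofReal.comp (c.max continuous_snd)).continuousAt.mul
        (continuous_subtype_val.continuousAt.comp c2))) rfl).congr ?_
    filter_upwards [c.continuousAt.eventually_lt continuousAt_const k] with q hq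
    exact (if_pos hq).symm
  · refine continuousAt_fst.congr ?_
    filter_upwards [continuousAt_snd.eventually_lt c.continuousAt (hs.trans_le k)] with q h1
    exact (rad_eq h1.le).symm

theorem cont_rad {X : Type} [TopologicalSpace X] {f : X → E3} {r : X → ℝ} {x : X}
    (hf : ContinuousAt f x) (hr : ContinuousAt r x) (h : 0 < rho t (f x)) (hs : r x < 3) :
    ContinuousAt (fun x => rad t (f x, r x)) x :=
  (continuousAt_rad h hs).comp_of_eq (hf.prodMk hr) rfl

theorem le_rho_rad (h : 0 < rho t p) (hs : s ≤ 3) : s ≤ rho t (rad t (p, s)) := by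
  rcases le_total s (rho t p) with k | k
  · rwa [rad_eq k]
  · obtain ⟨y, u, e⟩ := exists_polar (t := t) (p := p) (by linarith)
    rw [e, rad_polar h (by linarith) hs, max_eq_right k, rho_polar t (h.trans_le k) (by linarith)]

theorem ext_iff' {x : S3} : x ∈ t.Ext ↔ ∀ u, t.τ (u, 0) ≠ x :=
  ⟨fun h u e => h ⟨(u, 0), ⟨trivial, rfl⟩, e⟩, fun h ⟨z, k, e⟩ => h z.1 (by
    rw [← e, ← show z.2 = 0 from k.2]; rfl)⟩

theorem rho_si {x : S3} (h : x ∈ t.Ext) : 0 < rho t (si t x) := by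
  rw [rho, sg_si t (ext_iff'.1 h 1).symm]
  by_cases e : x ∈ range t.τ
  · obtain ⟨z, rfl⟩ := e
    rw [rhoS_τ]
    exact lt_min (norm_pos_iff.2 (t.τ_mem_Ext.1 h)) (by norm_num)
  · rw [rhoS_out t e]; norm_num

theorem continuousOn_ret : ContinuousOn (fun x => rad t (si t x, 5 / 2)) t.Ext := fun _ h =>
  (cont_rad (contMDiffAt_si t (ext_iff'.1 h 1).symm).continuousAt continuousAt_const (rho_si h)
    (by norm_num)).continuousWithinAt

end rad

variable {k : KD} {η : ℝ≥0} {s : St} (g : Geo k η s) (h : Sm k η) {p : E3}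

/-- the open exterior -/
def Xo : Set E3 := {p | p ∈ g.R.B ∧ g.r0 < g.ρ p}

include g in
theorem ne_P : Nonempty s.P :=
  let ⟨x, _⟩ := support_nonempty_iff.2
    (Real.wt_mem (mem_B g (p := tb k.toTube (1, (1 : ℝ) * (1 : Circle)))
      (by rw [rho_polar] <;> norm_num))).ne_zero
  ⟨x⟩

theorem opn_eq [Nonempty s.P] (hA : IsUpperSet s.A) : opn g.R (Ch.top ⁻¹' s.A) = Xo g := by
  ext p
  refine and_congr_right fun hp => ?_
  have e : p ∈ g.R.spx s.Aᶜ ↔ g.ρ p ≤ g.r0 := by rw [g.spx_O]; exact and_iff_right hp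
  rw [← not_le, ← e, mem_spx, and_iff_right hp]
  exact ⟨fun k n => n _ (Ch.top_mem _) k, fun n => by_contra fun k => n fun _ hx j => k (hA (Ch.le_top hx) j)⟩

include h

theorem far_mem (hp : 5 / 2 ≤ rho k.toTube p) : p ∈ Xo g := by
  have hB := mem_B g (p := p) (by linarith)
  exact ⟨hB, by linarith [(abs_le.1 (rho_near g h hB)).1, g.r0_mem.2]⟩

theorem rho_of_mem (hp : p ∈ Xo g) : 1 / 2 < rho k.toTube p := by
  linarith [(abs_le.1 (rho_near g h hp.1)).2, g.r0_mem.1, hp.2]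

theorem rad_mem (hp : p ∈ Xo g) {r : ℝ} (hr : r ≤ 5 / 2) : rad k.toTube (p, r) ∈ Xo g := by
  have h0 := rho_of_mem g h hp
  rcases le_total r (rho k.toTube p) with l | l
  · rwa [rad_eq l]
  · refine ⟨mem_B g (le_trans (by linarith) (le_rho_rad (by linarith) (by linarith))),
      hp.2.trans_le ?_⟩
    obtain ⟨⟨a, b, c⟩, e1, e2⟩ := exists_kap (t := k.toTube) (p := p) (by linarith)
    dsimp only at e1
    have := ray_mono g h a c (r := b) (r' := r) (by linarith) (by linarith) hr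
    rw [← e2, kap_eq, pol, rad_polar (by linarith) (by linarith) (by linarith),
      max_eq_right (by linarith)]
    exact le_trans (le_add_of_nonneg_right (by linarith)) this

theorem ret_mem {x : S3} (hx : x ∈ k.Ext) : rad k.toTube (si k.toTube x, 5 / 2) ∈ Xo g :=
  far_mem g h (le_rho_rad (rho_si hx) (by norm_num))

theorem pre_Xo : IsPreconnected (Xo g) := by
  have hK := ((isPreconnected_iff_preconnectedSpace (s := (k.Ext : Set S3))).2
    (inferInstanceAs (PreconnectedSpace k.Ext))).image _ continuousOn_ret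
  obtain ⟨x, hx⟩ : Nonempty k.Ext := inferInstance
  refine isPreconnected_of_forall (rad k.toTube (si k.toTube x, 5 / 2)) fun p hp => ?_
  have h0 : 0 < rho k.toTube p := by linarith [rho_of_mem g h hp]
  refine ⟨(fun x => rad k.toTube (si k.toTube x, 5 / 2)) '' k.Ext ∪
    (fun r => rad k.toTube (p, r)) '' Icc 0 (5 / 2), union_subset ?_ ?_, .inl ⟨x, hx, rfl⟩,
    .inr ⟨0, ⟨le_rfl, by norm_num⟩, rad_eq h0.le⟩, hK.union (rad k.toTube (p, 5 / 2))
      ⟨_, sg_mem_Ext h0, by simp only [si_sg]⟩ ⟨_, ⟨by norm_num, le_rfl⟩, rfl⟩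
      (isPreconnected_Icc.image _ fun r hr => (cont_rad continuousAt_const continuousAt_id h0
        (hr.2.trans_lt (by norm_num))).continuousWithinAt)⟩
  · rintro _ ⟨y, hy, rfl⟩; exact ret_mem g h hy
  · rintro _ ⟨r, hr, rfl⟩; exact rad_mem g h hp hr.2

omit h in
variable (k) in
/-- the meridian -/
def mer (u : Circle) : E3 := tb k.toTube (1, (5 / 2 : ℝ) * u)

omit h in
theorem continuous_mer : Continuous (mer k) := continuous_iff_continuousAt.2 fun u =>
  (contMDiffAt_tb (pol_ne' (by norm_num) u)).continuousAt.comp_of_eq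
    (continuous_const.prodMk (continuous_const.mul continuous_subtype_val)).continuousAt rfl

theorem mer_mem (u : Circle) : mer k u ∈ Xo g :=
  far_mem g h (by rw [mer, rho_polar] <;> norm_num)

/-- a flat bundle which is trivial on the meridian is trivial -/
theorem tr_Xo {G : Type} [Group G] {c : E3 → E3 → G} (hc : Lev33.Coc (Xo g) c)
    (hm : Tr univ (Hz56.pb (mer k) c)) : Tr (Xo g) c := by
  have e : {p | ∀ u, k.τ (u, 0) ≠ p} = (k.Ext : Set S3) := Set.ext fun _ => ext_iff'.symm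
  have := Hz56.tr_tube k.isOpenEmbedding Hz56.h1_S3
    (c := Hz56.pb (fun x => rad k.toTube (si k.toTube x, 5 / 2)) c)
    (e ▸ hc.comp continuousOn_ret fun _ => ret_mem g h) (by
      have : ∀ u : Circle, rad k.toTube (si k.toTube (k.τ (1, u)), 5 / 2) = mer k u := fun u => by
        have := rad_polar (t := k.toTube) one_pos (by norm_num) (s := 5 / 2) (by norm_num) 1 u
        rwa [max_eq_right (by norm_num), Complex.ofReal_one, one_mul] at this
      exact hm.congr (Hz56.geq_of_eq fun x _ y _ => by simp only [Hz56.pb, this]))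
  have h0 : ∀ p ∈ Xo g, 0 < rho k.toTube p := fun p hp => by linarith [rho_of_mem g h hp]
  rw [e] at this
  refine Tr.of_deform hc (H := fun q => rad k.toTube (q.1, 5 / 2 * (1 - q.2))) (fun q hq =>
    (cont_rad continuousAt_fst (by fun_prop) (h0 _ hq.1) (by linarith [hq.2.1])).continuousWithinAt)
    (fun q hq => rad_mem g h hq.1 (by linarith [hq.2.1]))
    (fun p hp => rad_eq (by simpa using (h0 p hp).le)) ?_
  exact (this.comp (isOpenEmbedding_sg _).continuous.continuousOn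
    fun p hp => sg_mem_Ext (h0 p hp)).congr (Hz56.geq_of_eq fun x _ y _ => by
      simp only [Hz56.pb, si_sg, sub_zero, mul_one])

include g in
theorem h1_le (hA : IsUpperSet s.A) : ∃ w : s.P → s.P → ℚ, CocOn s.A w ∧
    ∀ z : s.P → s.P → ℚ, CocOn s.A z → ∃ l : ℚ, ExOn s.A (z - l • w) := by
  have := ne_P g
  by_cases a : ∀ z : s.P → s.P → ℚ, CocOn s.A z → ExOn s.A z
  · exact ⟨0, fun _ _ _ _ _ _ _ _ => by simp, fun z hz => ⟨0, by simpa using a z hz⟩⟩
  push Not at a
  obtain ⟨w, hw, nw⟩ := a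
  have c : ∀ z : s.P → s.P → ℚ, CocOn s.A z → Lev33.Coc (Xo g) (germ g.R z) := fun z hz =>
    opn_eq g hA ▸ coc_germ hz
  have e : ∀ z : s.P → s.P → ℚ, CocOn s.A z → IsHol (Hz56.pb (mer k) (germ g.R z)) 1 →
      ExOn s.A z := fun z hz a => (tr_germ hz).1 (opn_eq g hA ▸ tr_Xo g h (c z hz) a.tr)
  have x := fun z hz => Hz56.exists_hol ((c z hz).comp continuous_mer.continuousOn
    fun u _ => mer_mem g h u)
  obtain ⟨m, B, b1, b2⟩ := x w hw
  have m0 : m.toAdd ≠ 0 := fun a => nw (e w hw ⟨B, b1, (show m = 1 from a) ▸ b2⟩)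
  refine ⟨w, hw, fun z hz => ?_⟩
  obtain ⟨n, C, c1, c2⟩ := x z hz
  refine ⟨n.toAdd / m.toAdd, e _ (fun a ha b hb c hc l l' => ?_) ⟨fun t => Multiplicative.ofAdd
    ((C t).toAdd - n.toAdd / m.toAdd * (B t).toAdd), fun t ht => ?_, fun t => ?_⟩⟩
  · simp only [Pi.sub_apply, Pi.smul_apply, smul_eq_mul, hw a ha b hb c hc l l', hz a ha b hb c hc l l']
    ring
  · filter_upwards [b1 t ht, c1 t ht] with u e1 e2
    simp only [e1, e2, germ, toAdd_mul, toAdd_ofAdd, ← ofAdd_add, Pi.sub_apply, Pi.smul_apply,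
      smul_eq_mul]
    congr 1; ring
  · simp only [b2, c2, toAdd_mul, one_mul]
    congr 1; field_simp; ring

omit h in
/-- the PL angle lifts where the winding cocycle is exact -/
theorem exists_lift [Nonempty s.P] {V : Set s.P} (hV : V ⊆ g.W) (e : ExOn V g.z) :
    ∃ F : E3 → ℝ, ContinuousOn F (opn g.R (Ch.top ⁻¹' V)) ∧
      ∀ p ∈ opn g.R (Ch.top ⁻¹' V), ex (F p) = Th g p := by
  obtain ⟨u, hu⟩ := e
  have key : ∀ p ∈ opn g.R (Ch.top ⁻¹' V), ∀ T ∈ V, p ∈ g.R.spx (Iic T) →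
      g.R.pl (fun x => g.c + g.a x - g.z x (sup g.R p).top) p + u (sup g.R p).top =
        g.R.pl (fun x => g.c + g.a x - g.z x T) p + u T := fun p hp T hT l => by
    have l1 := (mem_spx.1 l).2
    have l2 := l1 _ (Ch.top_mem _)
    have : g.R.pl (fun x => g.c + g.a x - g.z x (sup g.R p).top) p =
        g.R.pl ((fun x => g.c + g.a x - g.z x T) + fun _ => (g.z (sup g.R p).top T : ℝ)) p :=
      Real.pl_congr fun x hx => by
        have hx' := Ch.le_top ((mem_sup hp.1).2 hx)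
        rw [Pi.add_apply, g.coc x (g.low hx' (hV hp.2)) _ (hV hp.2) T (hV hT) hx' l2]
        push_cast; ring
    rw [this, Real.pl, cmb_add, cmb_const, (Real.wt_mem hp.1).sum, one_smul, hu _ hp.2 T hT l2]
    push_cast
    rw [Real.pl]; ring
  refine ⟨fun p => g.R.pl (fun x => g.c + g.a x - g.z x (sup g.R p).top) p + u (sup g.R p).top,
    fun p hp => ?_, fun p hp => ?_⟩
  · rw [show opn g.R (Ch.top ⁻¹' V) = ⋃ T : V, opn g.R (Ch.top ⁻¹' V) ∩ g.R.spx (Iic T) from
      Subset.antisymm (fun q hq => mem_iUnion.2 ⟨⟨_, hq.2⟩, hq, mem_spx.2 ⟨hq.1, fun _ => Ch.le_top⟩⟩)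
        (iUnion_subset fun _ => inter_subset_left), ContinuousWithinAt, nhdsWithin_iUnion, tendsto_iSup]
    intro T
    by_cases l : p ∈ g.R.spx (Iic T)
    · exact (((g.R.continuousOn_pl _ p hp.1).mono fun _ a => a.1.1).add
        continuousWithinAt_const).congr (fun q hq => key q hq.1 T T.2 hq.2) (key p hp T T.2 l)
    · exact continuousWithinAt_of_notMem_closure fun a => l
        ((g.R.isCompact_spx _).isClosed.closure_subset (closure_mono inter_subset_right a))
  · rw [ex_add_int]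
    exact (g.cir p (mem_spx.2 ⟨hp.1, fun x hx => g.low (Ch.le_top hx) (hV hp.2)⟩) _ (hV hp.2)
      fun x hx => Ch.le_top ((mem_sup hp.1).2 hx)).symm

theorem cont_JJ {X : Type} [TopologicalSpace X] {f : X → R3} {x : X} (hf : ContinuousAt f x)
    (hr : (f x).2.1 ∈ Icc (5 / 8 : ℝ) (19 / 8)) : ContinuousAt (fun x => JJ g h (f x)) x :=
  (continuousAt_JJ g h hr).comp hf

theorem not_ex [Nonempty s.P] {V : Set s.P} (hV : V ⊆ g.W) {a r : ℝ}
    (hr : r ∈ Icc (5 / 8 : ℝ) (19 / 8)) (hm : ∀ φ, JJ g h (a, r, φ) ∈ opn g.R (Ch.top ⁻¹' V)) :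
    ¬ ExOn V g.z := fun e => by
  obtain ⟨F, h1, h2⟩ := exists_lift g hV e
  have c : Continuous fun φ : ℝ => φ - F (JJ g h (a, r, φ)) := continuous_id.sub
    (h1.comp_continuous (continuous_iff_continuousAt.2 fun φ =>
      cont_JJ g h (f := fun φ => (a, r, φ)) (by fun_prop) hr) hm)
  have i : ∀ φ, ∃ n : ℤ, φ - F (JJ g h (a, r, φ)) = n := fun φ =>
    (ex_eq.1 ((JJ_spec g h (b := (a, r, φ)) hr).2.2.symm.trans (h2 _ (hm φ)).symm)).imp
      fun n e => by dsimp only at e; linarith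
  have e1 : JJ g h (a, r, 1) = JJ g h (a, r, 0) :=
    JJ_congr g h rfl rfl (by simpa using ex_add_int 0 1)
  obtain ⟨φ, -, hφ⟩ := intermediate_value_Icc zero_le_one c.continuousOn
    (show 0 - F (JJ g h (a, r, 0)) + 1 / 2 ∈ Icc _ _ by
      rw [e1]; constructor <;> linarith)
  obtain ⟨n, hn⟩ := i φ
  obtain ⟨m, hm⟩ := i 0
  have : (2 * n : ℝ) = 2 * m + 1 := by dsimp only at hφ; linarith
  have : 2 * n = 2 * m + 1 := by exact_mod_cast this
  omega

omit h in
theorem r0_mem : g.r0 ∈ Icc (5 / 8 : ℝ) (19 / 8) := by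
  constructor <;> linarith [g.r0_mem.1, g.r0_mem.2]

omit h in
/-- the vertices of `O₋` are on the level `r0` -/
theorem rho_om {o : s.P} (ho : o ∈ Om s.A) : g.ρ (g.R.x o) = g.r0 := by
  have := ne_P g
  obtain ⟨ho, a, ha, l⟩ := ho
  refine le_antisymm (not_lt.1 fun e => ho ((g.mem_A o).2 e)) (not_lt.1 fun e => ?_)
  have ea := (g.mem_A a).1 ha
  have hc : IsChain (· ≤ ·) ({o, a} : Set s.P) := IsChain.pair l
  have m1 : g.R.x o ∈ g.R.spx {o, a} := g.R.x_mem_spx.2 (by simp)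
  have m2 : g.R.x a ∈ g.R.spx {o, a} := g.R.x_mem_spx.2 (by simp)
  set τ := (g.r0 - g.ρ (g.R.x o)) / (g.ρ (g.R.x a) - g.ρ (g.R.x o)) with hτ
  have d : 0 < g.ρ (g.R.x a) - g.ρ (g.R.x o) := by linarith
  have t0 : 0 < τ := div_pos (by linarith) d
  have t1 : 0 ≤ 1 - τ := sub_nonneg.2 ((div_le_one d).2 (by linarith))
  have w := Real.wt_seg hc m1 m2 t1 t0.le (by ring)
  have b := (Real.convex_spx hc m1 m2 t1 t0.le (by ring)).1
  have : (1 - τ) • g.R.x o + τ • g.R.x a ∈ g.R.spx s.Aᶜ := by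
    rw [g.spx_O]
    refine ⟨b, le_of_eq ?_⟩
    rw [g.ρ_pl _ b, Real.pl, w, map_add, map_smul, map_smul, ← Real.pl, ← Real.pl, Real.pl_x,
      Real.pl_x, smul_eq_mul, smul_eq_mul, hτ]
    field_simp; ring
  classical
  refine mem_of_mem_of_subset (x := a) ?_ this.2 ha
  rw [mem_support, w, g.R.wt_x, g.R.wt_x]
  have : a ≠ o := fun e => ho (e ▸ ha)
  simp [this, t0.ne']

/-- the points on the level `r0` are carried by `O₋` -/
theorem top_om [Nonempty s.P] (hA : IsUpperSet s.A) (a φ : ℝ) :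
    JJ g h (a, g.r0, φ) ∈ opn g.R (Ch.top ⁻¹' Om s.A) := by
  have r := r0_mem g
  have hB := (JJ_W g h (b := (a, g.r0, φ)) r).1
  refine ⟨hB, fun e => ((opn_eq g hA).le ⟨hB, e⟩).2.ne' (JJ_spec g h (b := (a, g.r0, φ)) r).2.1, ?_⟩
  have c : Tendsto (fun x => JJ g h (a, x, φ)) (𝓝[>] g.r0) (𝓝 (JJ g h (a, g.r0, φ))) :=
    (cont_JJ g h (f := fun x => (a, x, φ)) (by fun_prop) r).continuousWithinAt
  have m : ∀ᶠ x in 𝓝[>] g.r0, JJ g h (a, x, φ) ∈ Xo g := by
    filter_upwards [Ioo_mem_nhdsGT g.r0_mem.2] with x hx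
    have r' : x ∈ Icc (5 / 8 : ℝ) (19 / 8) := ⟨by linarith [hx.1, r.1], by linarith [hx.2]⟩
    exact ⟨(JJ_W g h (b := (a, x, φ)) r').1, by rw [(JJ_spec g h (b := (a, x, φ)) r').2.1]; exact hx.1⟩
  obtain ⟨x, h1, h2⟩ := (((tendsto_nhdsWithin_iff.2 ⟨c, m.mono fun _ a => a.1⟩).eventually
    (sup_lsc hB)).and m).exists
  exact ⟨_, ((opn_eq g hA).ge h2).2, Ch.top_mono h1⟩

theorem em (hA : IsUpperSet s.A) : EM s.A g.z := by
  have := ne_P g
  rintro V ⟨o, ho⟩ hV
  have r := r0_mem g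
  have e := rho_om g (hV.sub ho)
  obtain ⟨⟨a, b, φ₀⟩, rfl, e2⟩ := exists_JJ' g h (g.R.x_mem o) (e ▸ r)
  rw [e] at e2
  refine not_ex g h (fun x hx => let ⟨_, a, ha, l⟩ := hV.sub hx; g.star a ha x (.inr l)) (a := a) r
    fun φ => ⟨(top_om g h hA a φ).1, ?_⟩
  have : Lev33.LCo univ fun φ => (sup g.R (JJ g h (a, g.r0, φ))).top ∈ V := fun φ _ => by
    have c : Tendsto (fun x => JJ g h (a, g.r0, x)) (𝓝[univ] φ) (𝓝 (JJ g h (a, g.r0, φ))) :=
      (cont_JJ g h (f := fun x => (a, g.r0, x)) (by fun_prop) r).continuousWithinAt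
    filter_upwards [(tendsto_nhdsWithin_iff.2 ⟨c, .of_forall fun x => (top_om g h hA a x).1⟩).eventually
      (sup_lsc (top_om g h hA a φ).1)] with x hx
    exact propext ⟨fun j => hV.cl _ j _ (top_om g h hA a φ).2 (.inr (Ch.top_mono hx)),
      fun j => hV.cl _ j _ (top_om g h hA a x).2 (.inl (Ch.top_mono hx))⟩
  refine (this.eq isPreconnected_univ (mem_univ φ₀) (mem_univ φ)).mp ?_
  rwa [e2, sup_x, Ch.top_pt]

omit h in
theorem coc_z : Coc s.A g.z := fun a ha x y w l l' c1 c2 c3 =>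
  g.coc x (g.star a ha x c1) y (g.star a ha y c2) w (g.star a ha w c3) l l'

/-- START -/
theorem start (hH : ∀ c, Cut21.Stt c → ∃ t f, Desc c t f ∧ Hier t) (hs : Good s)
    (hA : IsUpperSet s.A) :
    ∃ (t : St) (f : t.P → s.P) (w : t.P → t.P → ℤ) (c : St) (q : c.P → t.P), Desc s t f ∧
      Coh t.A (pb f g.z) w ∧ Adm t w ∧ Cov t c w q ∧ Hier c := by
  have := ne_P g
  have cn : Conn s.A := conn_of_opn (opn_eq g hA ▸ pre_Xo g h)
  obtain ⟨-, ho, a, ha, l⟩ := top_om g h hA 0 0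
  have he : Esc s.A s.A := fun b hb => ⟨a, ha, cn b hb a ha, _, ho, .inr l⟩
  obtain ⟨w, hw, hw'⟩ := h1_le g h hA
  refine first_hier hH hs hA he (le_antisymm (not_lt.1 fun e => ?_)
    (zero_le_eu hs.mf ⟨a, ha⟩ he hw hw')) (coc_z g) (em g h hA)
  obtain ⟨u, hu⟩ := eqD_cb_of_eu hs.mf hs.nice hs.bnd2 hs.bnd cn e (coc_z g)
  have r : (19 / 8 : ℝ) ∈ Icc (5 / 8 : ℝ) (19 / 8) := ⟨by norm_num, le_rfl⟩
  refine not_ex g h (fun x hx => g.star x hx x Cm.rfl) (a := 0) r (fun φ => ?_) (EqD.exOn hu)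
  rw [opn_eq g hA]
  exact ⟨(JJ_W g h (b := (0, _, φ)) r).1, by
    rw [(JJ_spec g h (b := (0, _, φ)) r).2.1]; linarith [g.r0_mem.2]⟩

end Crest.Agent.X212.St29
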