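import Crest.Agent.X212.St29.Lf
import Crest.Agent.X212.St29.Start
import Crest.Agent.X212.Hel40.Bas

/-!
# X212 / St29 (helper29): the data of stage `-1` from the triangulation
-/

set_option autoImplicit false
set_option linter.unusedSectionVars false

open Set Filter Topology Function Classical
open scoped ContDiff Manifold NNReal Real
open Crest.GeometryTopology.DehnSurgery Crest.Agent.X212.Glue52 Crest.Agent.X212.Ext52
open Crest.Agent.X212.Sm10 Crest.Agent.X212.Hp13 Crest.Agent.X212.Mol27 Crest.Agent.X212.Alg36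
open Crest.Agent.X212.Hel40 (dl dl_congr dl_exp contMDiffAt_log)
open Crest.Agent.X212.Ind26 (Coh Adm)

noncomputable section

namespace Crest.Agent.X212.St29

variable {k : KD} {η : ℝ≥0} {s : St} (g : Geo k η s) (h : Sm k η) {p : E3} {x b b' : s.P}
  {δ a c : ℝ} {W : Set E3} {w : s.P → s.P → ℤ}

theorem near_v (hp : p ∈ g.R.B) (hx : g.R.lam x p ≠ 0) :
    |rho k.toTube p - rho k.toTube (g.R.x x)| ≤ η :=
  (g.mesh _ (Real.wt_mem hp).chain p (Real.mem_spx_support hp) _ (g.R.x_mem_spx.2 hx)).2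

include h in
theorem rho_of_A (hp : p ∈ g.R.B) (hx : g.R.lam x p ≠ 0) (hA : x ∈ s.A) : 1 / 2 < rho k.toTube p := by
  linarith [abs_le.1 (near_v g hp hx), abs_le.1 (rho_near g h (g.R.x_mem x)), (g.mem_A x).1 hA,
    g.r0_mem.1, eta_le h]

include h in
theorem near_mol (M : Mol (bary g.R) W δ) (hδ : 0 < δ) (hs : Fintype.card s.P * δ ≤ 1 / 100)
    (hp : p ∈ W) (hB : p ∈ g.R.B) (hx : M.Λ p x ≠ 0) : |rho k.toTube p - g.ρ (g.R.x x)| ≤ 3 / 16 := by
  obtain ⟨σ, h1, h2, h3⟩ := M.supp p hp x hx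
  obtain ⟨t, -, ht⟩ := exists_gt (S := univ) (μ := g.R.wt p) hδ.le (by
    have := wS_compl (∅ : Set s.P) (g.R.wt p)
    rw [compl_empty, (Real.wt_mem hB).sum, wS_zero (S := ∅) fun _ h => h.elim] at this
    linarith)
  have e1 := abs_le.1 (near_v g hB (hδ.trans ht).ne')
  have e2 := abs_le.1 (g.mesh _ h1 _ (g.R.x_mem_spx.2 (h3 t ht.le)) _ (g.R.x_mem_spx.2 h2)).2
  have e3 := abs_le.1 (rho_near g h (g.R.x_mem x))
  rw [abs_le]
  constructor <;> linarith [eta_le h]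

/-- the lift of the PL angle near the vertex `b` -/
def GG (b : s.P) (p : E3) : ℝ := g.R.pl (fun x => g.c + g.a x + Cut21.pot g.z b x) p

theorem GG_eq [Nonempty s.P] (hp : p ∈ g.R.spx g.W) (hb : g.R.lam b p ≠ 0) : GG g b p =
    g.R.pl (fun x => g.c + g.a x - g.z x (sup g.R p).top) p + g.z b (sup g.R p).top := by
  have m := (mem_spx.1 hp).2
  have mb := (mem_sup hp.1).2 hb
  have mT := m _ (Ch.top_mem _)
  have : GG g b p = g.R.pl ((fun x => g.c + g.a x - g.z x (sup g.R p).top) +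
      fun _ => (g.z b (sup g.R p).top : ℝ)) p := Real.pl_congr fun x hx => by
    have mx := (mem_sup hp.1).2 hx
    rw [Pi.add_apply, Cut21.pot]
    split_ifs with l
    · rw [g.coc b (m b mb) x (m x mx) _ mT l (Ch.le_top mx)]
      push_cast; ring
    · rw [g.coc x (m x mx) b (m b mb) _ mT ((Ch.total _ mb mx).resolve_left l) (Ch.le_top mb)]
      push_cast; ring
  rw [this, Real.pl, cmb_add, cmb_const, (Real.wt_mem hp.1).sum, one_smul, Real.pl]

theorem ex_GG (hp : p ∈ g.R.spx g.W) (hb : g.R.lam b p ≠ 0) : ex (GG g b p) = Th g p := by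
  have := ne_P g
  rw [GG_eq g hp hb, ex_add_int]
  exact (g.cir p hp _ ((mem_spx.1 hp).2 _ (Ch.top_mem _))
    fun x hx => Ch.le_top ((mem_sup hp.1).2 hx)).symm

theorem GG_change (hp : p ∈ g.R.spx g.W) (hb : g.R.lam b p ≠ 0) (hb' : g.R.lam b' p ≠ 0)
    (l : b ≤ b') : GG g b p = GG g b' p + g.z b b' := by
  have := ne_P g
  have m := (mem_spx.1 hp).2
  have mb' := (mem_sup hp.1).2 hb'
  rw [GG_eq g hp hb, GG_eq g hp hb', g.coc b (m b ((mem_sup hp.1).2 hb)) b' (m _ mb') _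
    (m _ (Ch.top_mem _)) l (Ch.le_top mb')]
  push_cast; ring

theorem continuousAt_δ (hp : 1 / 4 < rho k.toTube p) : ContinuousAt g.δ p := by
  obtain ⟨r, r0, hr⟩ := Metric.isOpen_iff.1 (isOpen_Ioi.preimage (continuous_rho k.toTube)) p hp
  exact (g.δ_lip _ (convex_ball p r) (hr.trans fun q h => le_of_lt (show 1 / 4 < rho k.toTube q from h))).continuousOn.continuousAt
    (Metric.ball_mem_nhds p r0)

/-- the cutting function is homotopic to the angle -/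
theorem exists_psi (L : LC E3 s.A δ) (hl : L.lam = g.R.wt)
    (hU : ∀ y ∈ L.U, 1 / 2 < rho k.toTube y) (hk : Coh s.A g.z w) (hz : Zc s.A w) (hc : c < 1 / 2) :
    ∃ ψ : E3 → ℝ, ContDiffOn ℝ ∞ ψ (L.O c) ∧ ∀ y ∈ L.O c, An k ψ y = L.phi w c y := by
  obtain ⟨u, hu⟩ := hk
  let f : s.P → E3 → ℝ := fun b y => 2 * π * (L.uu w c b y - GG g b y + u b + g.δ y)
  have hW : ∀ y ∈ L.U, y ∈ g.R.spx g.W := fun y hy => g.mem_W y (by linarith [hU y hy])
  have ne : ∀ y b, δ ≤ L.lam y b → g.R.lam b y ≠ 0 := fun y b l => by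
    have := LC.ne_of_le l
    rwa [hl] at this
  have ch : ∀ y ∈ L.O c, ∀ b ∈ s.A, ∀ b' ∈ s.A, δ ≤ L.lam y b → δ ≤ L.lam y b' → b ≤ b' →
      f b y = f b' y := fun y hy b hb b' hb' l l' e => by
    simp only [f, LC.uu_change hz hc hy.1 hy.2.1.le hy.2.2.le hb hb' l l' e,
      GG_change g (hW y hy.1) (ne y b l) (ne y b' l') e, hu b b' (Dp.of_left hb e), Pi.add_apply, cb]
    push_cast; ring
  have an : ∀ y ∈ L.O c, ∀ b ∈ s.A, δ ≤ L.lam y b →
      th k y * Circle.exp (f b y) = L.phi w c y := fun y hy b hb l => by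
    rw [LC.phi_eq hz hc hy.1 hy.2.1.le hy.2.2.le hb l]
    show th k y * ex _ = ex _
    rw [ex_add, ex_add_int, ex_sub, ex_GG g (hW y hy.1) (ne y b l), Th, mul_comm, mul_assoc,
      mul_comm (ex (g.δ y)), div_mul_cancel]
  let ψ : E3 → ℝ := fun y => if e : ∃ b ∈ s.A, L.Big y b then f e.choose y else 0
  have eq : ∀ y ∈ L.O c, ∀ b ∈ s.A, δ ≤ L.lam y b → ψ y = f b y := fun y hy b hb l => by
    have e := LC.exists_bigA hy.1
    have e' := e.choose_spec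
    simp only [ψ, dif_pos e]
    rcases LC.cm_of_le hy.1 l (e'.2.le hy.1) with n | n
    exacts [(ch y hy b hb _ e'.1 l (e'.2.le hy.1) n).symm, ch y hy _ e'.1 b hb (e'.2.le hy.1) l n]
  have an' : ∀ y ∈ L.O c, An k ψ y = L.phi w c y := fun y hy => by
    obtain ⟨b, hb, l⟩ := LC.exists_bigA hy.1
    rw [An, eq y hy b hb (l.le hy.1), an y hy b hb (l.le hy.1)]
  refine ⟨ψ, fun y hy => ContDiffAt.contDiffWithinAt ?_, an'⟩
  obtain ⟨b, hb, l⟩ := LC.exists_bigA hy.1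
  have r := hU y hy.1
  have su : ContDiffAt ℝ ∞ (L.uu w c b) y :=
    (L.contDiffOn_uu w c b).contDiffAt (L.isOpen.mem_nhds hy.1)
  refine (contMDiffAt_log (I := 𝓡 3) (ContinuousAt.congr (f := f b) ?_ ?_) ?_).contDiffAt
  · exact continuousAt_const.mul (((su.continuousAt.sub ((g.R.continuousOn_pl _).continuousAt
      (mem_interior_iff_mem_nhds.1 (g.far y (by linarith))))).add continuousAt_const).add
      (continuousAt_δ g (by linarith)))
  · filter_upwards [(L.isOpen_O c).mem_nhds hy, l.ev hy.1] with x h1 h2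
    exact (eq x h1 b hb (h2.le h1.1)).symm
  · refine (((contMDiff_ex _).comp y su.contMDiffAt).mul
      (contMDiffAt_th k (by linarith)).inv).congr_of_eventuallyEq ?_
    filter_upwards [(L.isOpen_O c).mem_nhds hy, LC.phi_ev hz hc hy hb l] with x h1 h2
    rw [Pi.mul_apply, eq_mul_inv_iff_mul_eq, mul_comm]
    exact (an' x h1).trans h2

theorem dl_phi {L : LC E3 s.A δ} {ψ : E3 → ℝ} (hψ : ∀ y ∈ L.O c, An k ψ y = L.phi w c y)
    (hz : Zc s.A w) (hc : c < 1 / 2) (hp : p ∈ L.O c) (hb : b ∈ s.A) (l : L.Big p b) (v : E3) :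
    dl (𝓡 3) (An k ψ) p v = 2 * π * fderiv ℝ (L.uu w c b) p v := by
  have su : ContDiffAt ℝ ∞ (L.uu w c b) p :=
    (L.contDiffOn_uu w c b).contDiffAt (L.isOpen.mem_nhds hp.1)
  rw [dl_congr (EventuallyEq.trans (eventually_of_mem ((L.isOpen_O c).mem_nhds hp) hψ)
    (LC.phi_ev hz hc hp hb l)), dl_exp (contDiffAt_const.mul su).contMDiffAt, Dr59.mf_eq_fderiv,
    fderiv_const_mul (su.differentiableAt (by simp))]
  rfl

theorem base_fld' {A : Set s.P} {R : Real s.P E3} (M : Mol (bary R) W δ) (hδ : 0 < δ)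
    (hs : Fintype.card s.P * δ ≤ 1 / 100) (hA : A.OrdConnected) (hW : IsOpen W)
    (hB : W ⊆ interior R.B) (hK : ∀ ν, IsWt ν → wS Aᶜ ν ≤ 1 / 6 → pt R.x ν ∈ W)
    {c : s.P → s.P → ℝ} (hc : ∀ x y, 0 < c x y) : (LC.base M hδ hs hA hW hB hK).Fld (M.fld c) :=
  fun y _ => ⟨rate c δ (M.Λ y), rate_nonneg (fun x y => (hc x y).le) hδ _,
    fun _ _ h => ⟨(rate_ne hδ h).1, (rate_ne hδ h).2.2⟩,
    fun _ _ h hs ht => rate_pos hδ h (hc _ _) hs ht, by
      simp only [Mol.fld, upV, pt_sum, pt_smul, pt_sub, pt_e]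
      rfl⟩

theorem exists_large {X : Type} [TopologicalSpace X] {K : Set X} (hK : IsCompact K) {f₁ f₂ : X → ℝ}
    (h1 : Continuous f₁) (h2 : Continuous f₂) (h : ∀ x ∈ K, 0 < f₂ x) :
    ∃ C, 0 ≤ C ∧ ∀ x ∈ K, 0 < f₁ x + C * f₂ x := by
  obtain ⟨C, hC⟩ := (hK.image_of_continuousOn (f := fun x => (1 - f₁ x) / f₂ x)
    ((continuousOn_const.sub h1.continuousOn).div h2.continuousOn fun x hx => (h x hx).ne')).bddAbove
  refine ⟨max C 0, le_max_right _ _, fun x hx => ?_⟩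
  have := (div_le_iff₀ (h x hx)).1 ((hC ⟨x, hx, rfl⟩).trans (le_max_left C 0))
  linarith

include h in
/-- a field which raises the smoothed radius -/
theorem exists_fld (hA : IsUpperSet s.A) (M : Mol (bary g.R) W δ) (hδ : 0 < δ)
    (hW : ∀ p, 1 / 2 ≤ rho k.toTube p → p ∈ W) (h1 : 2 * (Fintype.card s.P * δ) < a)
    (h2 : Fintype.card s.P * δ ≤ 1 / 100) {μ : E3 → ℝ}
    (hμ : ∀ p, 1 / 2 ≤ rho k.toTube p → ∀ x y, δ ≤ g.R.lam x p → δ ≤ g.R.lam y p →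
      fderiv ℝ μ p (g.R.x y - g.R.x x) = g.ρ (g.R.x y) - g.ρ (g.R.x x)) :
    ∃ c : s.P → s.P → ℝ, (∀ x y, 0 < c x y) ∧ ∀ p, 1 / 2 ≤ rho k.toTube p → a ≤ wS s.Aᶜ (M.Λ p) →
      wS s.Aᶜ (M.Λ p) ≤ 1 / 2 → 0 < fderiv ℝ μ p (M.fld c p) := by
  let F : (s.P → s.P → ℝ) → E3 → ℝ := fun c p => pr (fun x => g.ρ (g.R.x x)) (upV c δ (M.Λ p))
  have cF : ∀ c, Continuous (F c) := fun c =>
    (prL _).continuous.comp ((contDiff_upV c δ).continuous.comp M.smooth.continuous)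
  have cm : Continuous fun p => wS s.Aᶜ (M.Λ p) := (wL _).continuous.comp M.smooth.continuous
  obtain ⟨C, h0, hC⟩ := exists_large (((isCompact_far k.toTube (r := 1 / 2) (by norm_num)).inter_right
    ((isClosed_Icc (a := a) (b := 1 / 2)).preimage cm))) (cF fun _ _ => 1)
    (cF fun x y => io s.Aᶜ x * io s.A y) fun p hp => by
      have hp' := hW p hp.1
      obtain ⟨x, hx, bx⟩ := exists_gt (S := s.Aᶜ) (μ := M.Λ p) (c := 2 * δ) (by linarith)
        (by linarith [hp.2.1])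
      obtain ⟨y, hy, by'⟩ := exists_gt (S := s.A) (μ := M.Λ p) (c := 2 * δ) (by linarith)
        (by linarith [hp.2.2, wS_compl s.A (M.Λ p), M.sum_one p hp'])
      have lt : ∀ x y, x ∉ s.A → y ∈ s.A → g.ρ (g.R.x x) < g.ρ (g.R.x y) := fun x y hx hy =>
        (not_lt.1 fun e => hx ((g.mem_A x).2 e)).trans_lt ((g.mem_A y).1 hy)
      refine pr_upV_pos (fun x y => mul_nonneg (io_nonneg _ _) (io_nonneg _ _)) hδ
        (fun x y _ e _ _ => (lt x y (fun n => e (by rw [io_not (not_not.2 n), zero_mul]))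
          (by_contra fun n => e (by rw [io_not n, mul_zero]))).le) ?_
        (by rw [io_mem hx, io_mem hy]; norm_num) bx by' (lt x y hx hy)
      have := (Real.wt_mem (mem_B g (p := p) (by linarith [show 1 / 2 ≤ rho k.toTube p from hp.1]))).cm
        (hδ.trans (M.big hp' bx)).ne' (hδ.trans (M.big hp' by')).ne'
      exact (this.resolve_right fun l => hx (hA l hy)).lt_of_ne fun e => hx (e ▸ hy)
  refine ⟨fun x y => 1 + C * (io s.Aᶜ x * io s.A y), fun x y => add_pos_of_pos_of_nonneg one_pos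
    (mul_nonneg h0 (mul_nonneg (io_nonneg _ _) (io_nonneg _ _))), fun p r l l' => ?_⟩
  refine (hC p ⟨r, l, l'⟩).trans_eq ?_
  simp only [F, pr_upV]
  simp only [Mol.fld, upV, pt_sum, pt_smul, pt_sub, pt_e, map_sum, map_smul, smul_eq_mul,
    Finset.mul_sum, ← Finset.sum_add_distrib]
  refine Finset.sum_congr rfl fun x _ => Finset.sum_congr rfl fun y _ => ?_
  by_cases e : rate (fun x y => 1 + C * (io s.Aᶜ x * io s.A y)) δ (M.Λ p) x y = 0
  · rw [e, zero_mul, ← mul_assoc, ← add_mul, mul_eq_zero]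
    left
    rw [← e]
    simp only [rate]
    split_ifs <;> ring
  · have b := (rate_ne hδ e).2.2
    rw [bary_x, hμ p r x y (M.big (hW p r) b.1).le (M.big (hW p r) b.2).le]
    simp only [rate]
    split_ifs <;> ring

include h in
/-- coordinates, weight and field of stage `-1` -/
theorem exists_lc (hA : IsUpperSet s.A) (hδ : 0 < δ) (h1 : 2 * (Fintype.card s.P * δ) < a)
    (h2 : Fintype.card s.P * δ ≤ 1 / 100) {μ : E3 → ℝ}
    (hμ : ∀ p, 1 / 2 ≤ rho k.toTube p → ∀ x y, δ ≤ g.R.lam x p → δ ≤ g.R.lam y p →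
      fderiv ℝ μ p (g.R.x y - g.R.x x) = g.ρ (g.R.x y) - g.ρ (g.R.x x)) :
    ∃ (L : LC E3 s.A δ) (v : E3 → E3) (m : E3 → ℝ), L.lam = g.R.wt ∧ L.Fld v ∧ ContDiff ℝ ∞ v ∧
      ContDiff ℝ ∞ m ∧ (∀ p, p ∈ L.U ↔ 1 / 2 < rho k.toTube p ∧ m p < 1 / 4) ∧
      (∀ p ∈ L.U, L.p p = 0 ∧ L.m p = m p) ∧
      (∀ p, 1 / 2 < rho k.toTube p → rho k.toTube p ≤ 3 / 4 → m p = 1) ∧
      (∀ p, 5 / 2 ≤ rho k.toTube p → m p = 0) ∧
      ∀ p, 1 / 2 ≤ rho k.toTube p → a ≤ m p → m p ≤ 1 / 2 → 0 < fderiv ℝ μ p (v p) := by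
  obtain ⟨W, hW, hK, -, hB, ⟨M⟩⟩ := (bary g.R).exists_mol
    (isCompact_far k.toTube (r := 1 / 2) (by norm_num))
    (fun p hp => g.far p (by linarith [show 1 / 2 ≤ rho k.toTube p from hp])) hδ
  have hB' : W ⊆ interior g.R.B := subset_closure.trans hB
  obtain ⟨c, hc, hv⟩ := exists_fld g h hA M hδ (fun _ hp => hK hp) h1 h2 hμ
  have hν : ∀ ν, IsWt ν → wS s.Aᶜ ν ≤ 1 / 6 → pt g.R.x ν ∈ W := fun ν hν l => by
    obtain ⟨x, hx, e⟩ := exists_gt (S := s.A) (μ := ν) (c := 0) le_rfl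
      (by linarith [wS_compl s.A ν, hν.sum])
    exact hK (rho_of_A g h (Real.cmb_mem hν) (by
      rw [Real.lam, Real.wt_cmb hν]; exact e.ne') hx).le
  let L := LC.base M hδ h2 hA.ordConnected hW hB' hν
  have p0 : ∀ p, L.p p = 0 := fun p => wS_zero fun q ⟨n, a, ha, l⟩ => (n (hA l ha)).elim
  have nr := fun p x (r : 1 / 2 ≤ rho k.toTube p) (hx : M.Λ p x ≠ 0) =>
    abs_le.1 (near_mol g h M hδ h2 (hK r) (mem_B g (by linarith)) hx)
  refine ⟨L, M.fld c, fun p => wS s.Aᶜ (M.Λ p), rfl, base_fld' M hδ h2 _ hW hB' hν hc,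
    M.contDiff_fld c, (wL s.Aᶜ).contDiff.comp M.smooth, fun p => ⟨fun hp => ⟨?_, hp.2⟩,
      fun hp => ⟨hK hp.1.le, hp.2⟩⟩, fun p hp => ⟨p0 p, ?_⟩, fun p r r' => ?_, fun p r => ?_, hv⟩
  · obtain ⟨b, hb, l⟩ := LC.exists_bigA hp
    exact rho_of_A g h (interior_subset (hB' hp.1)) (LC.ne_of_le (l.le hp)) hb
  · rw [← zero_add (L.m p), ← p0 p, ← LC.w_not hp]
    rfl
  · show wS _ _ = 1
    rw [wS_compl, M.sum_one p (hK r.le), wS_zero fun x hx => by_contra fun n => ?_, sub_zero]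
    linarith [nr p x r.le n, (g.mem_A x).1 hx, g.r0_mem.1]
  · refine wS_zero fun x hx => by_contra fun n => hx ((g.mem_A x).2 ?_)
    linarith [nr p x (by linarith) n, g.r0_mem.2]

include h in
/-- the data of stage `-1` -/
theorem dat (H1 : I1Stmt) (H2 : I2Stmt) (hA : IsUpperSet s.A) (hk : Coh s.A g.z w) (hw : Adm s w)
    (hδ : 0 < δ) {b : ℝ} (T : Thr (Fintype.card s.P * δ) a b c) {μ : E3 → ℝ} (sμ : ContDiff ℝ ∞ μ)
    (rμ : ∀ (y u : Circle) (r : ℝ), 1 / 2 ≤ r → r ≤ 5 / 2 →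
      0 < deriv (fun r : ℝ => μ (tb k.toTube (y, r * u))) r)
    (hμ : ∀ p, 1 / 2 ≤ rho k.toTube p → ∀ x y, δ ≤ g.R.lam x p → δ ≤ g.R.lam y p →
      fderiv ℝ μ p (g.R.x y - g.R.x x) = g.ρ (g.R.x y) - g.ρ (g.R.x x)) :
    ∃ (L : LC E3 s.A δ) (D : Lev39.Dat k), L.Fld D.v ∧
      (∀ p ∈ L.U, 1 / 2 < rho k.toTube p ∧ D.m p ≤ 1 / 4 ∧ L.p p = 0) ∧
      D.M = {y | y ∈ L.U ∧ L.m y ≤ a ∧ L.phi w c y = 1} := by
  have := ne_P g
  have e0 : 0 < Fintype.card s.P * δ := mul_pos (by exact_mod_cast Fintype.card_pos) hδ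
  obtain ⟨t0, t1, t2, t3⟩ := id T
  have hz := zc_of hw.sf.coc hw.sf.mono hw.spr
  obtain ⟨L, v, m, hl, hv, sv, sm, hU, hm, m1, m0, vμ⟩ := exists_lc g h (a := a) hA hδ (by linarith)
    (by linarith) hμ
  have hc : c < 1 / 2 := by linarith
  obtain ⟨ψ, sψ, hψ⟩ := exists_psi g L hl (fun y hy => ((hU y).1 hy).1) hk hz hc
  have U : ∀ {p}, 1 / 2 < rho k.toTube p → m p < c → p ∈ L.U := fun r l =>
    (hU _).2 ⟨r, by linarith⟩
  have O : ∀ {p}, p ∈ L.U → m p < c → p ∈ L.O c := fun {p} hp l =>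
    ⟨hp, by rw [(hm p hp).1]; linarith, by rwa [(hm p hp).2]⟩
  refine ⟨L, ⟨m, μ, ψ, v, a, b, c, by linarith, by linarith, by linarith, sm, sμ, sv,
    sψ.mono fun p hp => O (U hp.1 hp.2) hp.2, m1, fun p r => by rw [m0 p r]; norm_num, rμ,
    fun p r _ l => ?_, fun p r => vμ p r.le, fun p r l => ?_, fun p r l n => ?_, fun p r l e => ?_,
    fun p u r l l' u0 e => ?_⟩, hv, fun p hp => ⟨((hU p).1 hp).1, ((hU p).1 hp).2.le, (hm p hp).1⟩,
    Set.ext fun p => ⟨fun hp => ?_, fun ⟨hp, l, e⟩ => ?_⟩⟩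
  · have hp := U r (by linarith)
    rw [← EventuallyEq.fderiv_eq (eventually_of_mem (L.isOpen.mem_nhds hp) fun y hy => (hm y hy).2)]
    exact hv.m_nonpos hp
  · have hp := U r (by linarith)
    obtain ⟨x, hx, bx⟩ := LC.exists_bigA hp
    rw [dl_phi hψ hz hc (O hp (by linarith)) hx bx]
    exact mul_nonneg (by positivity) (hv.uu_nonneg hz hc hp hx)
  · have hp := U r (by linarith)
    have hO := O hp (by linarith)
    obtain ⟨x, hx, bx, ps⟩ := hv.uu_pos hz hc hp hO.2.1.le (by linarith [(hm p hp).2])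
      (hψ p hO ▸ n)
    rw [dl_phi hψ hz hc hO hx bx]
    exact mul_pos (by positivity) ps
  · have hp := U r (by linarith)
    obtain ⟨S, s1, s2, ⟨q, s3, s4⟩, s5⟩ := H1 _ _ w δ a b c L hA hz hw.sf.nc T p hp
      (by rwa [(hm p hp).2]) (hψ p (O hp (by linarith)) ▸ e)
    refine ⟨S, s1, s2, ⟨q, s3, (hm q (s5 q s3).1).2 ▸ s4⟩, fun y hy => ?_⟩
    obtain ⟨y1, y2, y3⟩ := s5 y hy
    rw [(hm y y1).2] at y2
    exact ⟨((hU y).1 y1).1, y2, hψ y (O y1 (by linarith)) ▸ y3⟩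
  · have hp := U r (by linarith)
    obtain ⟨S, s1, s2, s3, s5⟩ := H2 _ _ w δ a b c L hA hz hw.cd T p hp u
      (by rwa [(hm p hp).2]) (by rwa [(hm p hp).2]) u0 (hψ p (O hp (by linarith)) ▸ e)
    refine ⟨S, s1, s2, s3, fun y hy => ?_⟩
    obtain ⟨y1, y2, y3, y4, y5⟩ := s5 y hy
    rw [(hm _ y1).2] at y2 y3
    exact ⟨((hU _).1 y1).1, y2, y3, y4, hψ _ (O y1 (by linarith)) ▸ y5⟩
  · obtain ⟨r, l, e⟩ : 1 / 2 < rho k.toTube p ∧ m p ≤ a ∧ An k ψ p = 1 := hp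
    have hp := U r (by linarith)
    exact ⟨hp, by rwa [(hm p hp).2], hψ p (O hp (by linarith)) ▸ e⟩
  · rw [(hm p hp).2] at l
    exact ⟨((hU p).1 hp).1, l, (hψ p (O hp (by linarith))).trans e⟩

end Crest.Agent.X212.St29
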