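import Crest.Agent.X212.Loc74.Main
import Crest.Agent.X212.Num57.Rad
import Crest.Agent.X212.Sw88.Wz

/-!
# Row 212, EC-LOCA (helper29): the local bootstrap with a second spinor
-/

set_option autoImplicit false
set_option linter.unusedSectionVars false
noncomputable section
open scoped Manifold ContDiff Topology InnerProductSpace NNReal
open MeasureTheory Set Function Filter

namespace Crest.Agent.X212.St29.Ec
open An An.Pre Sob92 Lw78 Sw Rad57 Loc74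
open Prm93 (Mix)
open M (Mf)

variable {κ lam ν : Type} [Fintype κ] [Fintype lam] [Fintype ν] [DecidableEq ν] {α : Type}
  {l : Filter α} {X : Mf 4} {nc : ℕ} {V : Type} [NormedAddCommGroup V] [NormedSpace ℝ V]
  {ι : Type} [Fintype ι] {z : X.M} {F : Pre X.I X.M ι} {j : ℕ}

/-- from bounds in moving frames -/
theorem hb_mov {G : α → Pre X.I X.M ι} {n : α → ι → ι → X.M → ℝ}
    (hn : ∀ᶠ i in l, Mix (G i) F (n i)) (bn : ∀ j a b, HB l z F 0 j fun i => n i a b) :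
    ∀ (j : ℕ) {f : α → X.M → V}, (∀ᶠ i in l, Sm X.I (f i)) →
      (∃ C, ∀ᶠ q : α × X.M in l ×ˢ 𝓝 z, ∀ w : List ι, w.length ≤ j →
        ‖(G q.1).Dw w (f q.1) q.2‖ ≤ C) → HB l z F 0 (j + 1) f
  | 0, _, hs, ⟨C, h⟩ => .one0 hs ⟨C, h.mono fun _ k => k [] le_rfl⟩
  | j + 1, f, hs, ⟨C, h⟩ => .succ (.one0 hs ⟨C, h.mono fun _ k => k [] (Nat.zero_le _)⟩) fun a =>
      (HB.sum fun b => (bn _ a b).smul (hb_mov hn bn j (f := fun i => (G i).D b (f i))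
        (hs.mono fun i k => (G i).sm_D k b) ⟨C, h.mono fun _ k w hw =>
          k (b :: w) (Nat.succ_le_succ hw)⟩)).eq (hn.mono fun i k x => congrFun (k.D a (f i)) x)

theorem hb_dw : ∀ (w : List ι) {j : ℕ} {f : α → X.M → V}, HB l z F 0 (j + 1) f → w.length ≤ j →
    ∃ C, ∀ᶠ q : α × X.M in l ×ˢ 𝓝 z, ‖F.Dw w (f q.1) q.2‖ ≤ C
  | [], _, _, h, _ => h.bdd
  | a :: w, _ + 1, _, h, k => hb_dw w (h.D a) (Nat.le_of_succ_le_succ k)

/-- to bounds of iterated derivatives in any frame -/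
theorem hb_bd {f : α → X.M → V} (h : HB l z F 0 (j + 1) f) (F' : Pre X.I X.M ι) :
    ∃ C, ∀ᶠ q : α × X.M in l ×ˢ 𝓝 z, ∀ w : List ι, w.length ≤ j → ‖F'.Dw w (f q.1) q.2‖ ≤ C := by
  choose C hC using fun w : {w : List ι | w.length ≤ j} =>
    hb_dw (F := F') w.1 (.of_mb h.sm h.mb) w.2
  have := (List.finite_length_le ι j).to_subtype
  obtain ⟨B, hB⟩ := (finite_range C).bddAbove
  exact ⟨B, (eventually_all.2 hC).mono fun q k w hw => (k ⟨w, hw⟩).trans (hB ⟨_, rfl⟩)⟩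

theorem of_l2' {f : α → X.M → V} (hs : ∀ᶠ i in l, Sm X.I (f i)) {O : Set X.M} (hO : O ∈ 𝓝 z)
    (h : L2 F.μ l O f) : HB l z F 2 1 f := by
  have := Manifold.locallyCompact_of_finiteDimensional (M := X.M) X.I
  obtain ⟨K, hz, k1, hK⟩ := local_compact_nhds hO
  obtain ⟨B, hB⟩ := l2_mono h k1
  refine .of_int hz hK two_ne_zero hs ⟨B, (hB.and hs).mono fun i k => ?_⟩
  rw [integral_eq_lintegral_of_nonneg_ae (.of_forall fun _ => by positivity)
    (k.2.continuous.norm.fun_pow 2).aestronglyMeasurable]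
  refine ENNReal.toReal_le_coe_of_le_coe (le_trans (le_of_eq ?_) k.1)
  simp only [ENNReal.ofReal_pow (norm_nonneg _), ofReal_norm]

section nb
variable {b₀ : Bg X.I X.M κ lam ν nc} {b : α → Bg X.I X.M κ lam ν nc}
  {m : α → Option κ → Option κ → X.M → ℝ} {c : α → Cfg X.M κ ν} [l.NeBot] (h : Nb l b₀ b m)
include h

/-- the linear step -/
theorem stpL (hc : ∀ᶠ i in l, (b i).Adm (c i))
    (hr : HB l z b₀.F.toPre 2 (j + 1) fun i => (b i).eD (c i))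
    (ha : ∀ k, HB l z b₀.F.toPre 0 (j + 1) fun i => (c i).a k)
    (k : HB l z b₀.F.toPre 2 (j + 1) fun i => (c i).Φ) :
    HB l z b₀.F.toPre 2 (j + 2) fun i => (c i).Φ := by
  have hb := h.ok₀
  obtain ⟨_, hF⟩ := hb.tame
  obtain ⟨_, hA⟩ := good_s hb
  have ρ := fun a => (hb.cρ a).choose_spec.1
  have hp : ∀ᶠ i in l, ∀ x, (sOp b₀).p x ((c i).Φ x) = (c i).Φ x := (hc.and h.ok).mono
    fun i k x => (congrArg (·.p x ((c i).Φ x)) k.2.2.2.1).symm.trans (Win45.p_of k.2.1 (k.1.pΦ x))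
  have k1 := fun i => (Cb_bil (.mul ℝ _) (hb.cρ i) (cb_jp hb)).choose_spec.1
  have hv := hr.sub (((HB.sum fun a => HB.bil (.mul ℝ _) (holL 0) (.fixed (ρ a)) (h.hA a)).add
    (.of_mbOn (h.ok.mono fun _ s => s.1.cms.choose_spec.1) fun n => h.ms n z trivial)).app k)
  have he : ∀ k, Cmp73.Cv X.I l univ (fun i x => b₀.m.ρ k x - ∑ a, m i a k x • b₀.m.ρ a x)
      fun _ => 0 := fun k => ((Cmp73.Cv.fixed' (ρ k)).sub (.sum fun a => (h.cm a k).smul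
        (.fixed' (ρ a)))).congr (fun _ _ => .of_forall fun _ => rfl) fun x _ => by
    simp only [b₀.F.P_symm _ k, show b₀.F.P = b₀.B.P from hb.G.P, (hb.m.cl x trivial).proj k, sub_self]
  have hs : ∀ k, ∀ᶠ i in l, Sm X.I fun x => b₀.m.ρ k x - ∑ a, m i a k x • b₀.m.ρ a x := fun k =>
    h.sm.mono fun i s => (ρ k).sub (contMDiff_finsetSum fun a _ => (s a k).smul (ρ a))
  refine HB.ell hF hA (cliff_s hb) hp k he hs ((((HB.sum fun i => (ha i).smulR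
    (.fixed (k1 i))).neg).app k).add hv) ((tendsto_fst.eventually h.ok).mono fun q k => ?_)
  have := app_s (b := b q.1) (c q.1) q.2
  rw [Op.app, k.2.2.2.2.op] at this
  simp only [sOp, Bg.jp, k.2.2.1] at this
  simp only [ContinuousLinearMap.mul_apply', Bg.jp]
  rw [← this]
  simp [Op.app, Pre.op, sOp, -Fintype.sum_option]

/-- the local bootstrap -/
theorem bootL {φ : α → X.M → Eu ν} {g : α → Option κ → X.M → ℝ} (hg : ∀ i, Frm b₀.F (g i))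
    (hd : ∀ᶠ x in 𝓝 z, ∀ i, dv1 b₀.F (g i) x = 0)
    (hc : ∀ᶠ i in l, (b i).Adm (c i) ∧ (b i).Adm ⟨(c i).a, φ i⟩ ∧ (c i).a = t1 (m i) (g i))
    (h1 : ∀ k, HB l z b₀.F.toPre 2 1 fun i => g i k)
    (h0 : HB l z b₀.F.toPre 0 1 fun i => (c i).Φ) (hφ : HB l z b₀.F.toPre 2 1 φ)
    (hD : ∀ᶠ q : α × X.M in l ×ˢ 𝓝 z,
      (b q.1).eD (c q.1) q.2 = 0 ∧ (b q.1).eD ⟨(c q.1).a, φ q.1⟩ q.2 = 0)
    (hC : HB l z b₀.F.toPre 2 6 fun i => (b i).eC (c i)) :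
    (∀ k, HB l z b₀.F.toPre 0 4 fun i => (c i).a k) ∧ HB l z b₀.F.toPre 0 4 φ := by
  obtain ⟨_, hF⟩ := h.ok₀.tame
  have ha : ∀ {n}, (∀ k, HB l z b₀.F.toPre 2 n fun i => g i k) →
      ∀ a, HB l z b₀.F.toPre 2 n fun i => (c i).a a := fun k a =>
    (HB.sum fun e => (h.hm a e).smul (k e)).eq (hc.mono fun i k x => congrFun₂ k.2.2 a x)
  have D1 : ∀ n, HB l z b₀.F.toPre 2 n fun i => (b i).eD (c i) := fun n =>
    (HB.const 0).congr ((hc.and h.ok).mono fun i k x =>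
      Sep15.S.sa_eD k.2.1 (k.1.1.sa · x) (k.1.1.sΦ x)) (hD.mono fun _ k => k.1)
  have D2 : ∀ n, HB l z b₀.F.toPre 2 n fun i => (b i).eD ⟨(c i).a, φ i⟩ := fun n =>
    (HB.const 0).congr ((hc.and h.ok).mono fun i k x =>
      Sep15.S.sa_eD k.2.1 (k.1.2.1.sa · x) (k.1.2.1.sΦ x)) (hD.mono fun _ k => k.2)
  have A : ∀ j ≤ 6, (∀ k, HB l z b₀.F.toPre 2 (j + 1) fun i => g i k) ∧
      HB l z b₀.F.toPre 2 (j + 1) fun i => (c i).Φ := fun j => by
    induction j with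
    | zero => exact fun _ => ⟨h1, h0.of0⟩
    | succ j ih =>
      intro hj
      have i := ih (Nat.le_of_succ_le hj)
      have k1 := stpA hF (vol4 h.ok₀) h.ok₀.co h.sm h.cm (fun i => (hg i).sm) (fun i => (hg i).pr)
        i.1 hd ((h.fc h0 i.2 (hC.of_le hj)).eq ((hc.and (h.ok.and h.sm)).mono fun i k x => by
          rw [fc_da k.2.1.1 k.1.1.sa, add_sub_cancel_left, k.1.2.2,
            da_mix k.2.1.2.2.2.2 k.2.2 (hg i).sm (hg i).pr, p2_eq h.ok₀]))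
      exact ⟨k1, h.stpS (hc.mono fun _ k => k.1) h0 (D1 _) (ha k1) i.2⟩
  have a7 := ha (A 6 le_rfl).1
  have a0 := fun k => HB.sob0 (j := 4) X.dim.le (a7 k)
  have c2 := hc.mono fun _ k => k.2.1
  have L : ∀ {j}, j ≤ 3 → HB l z b₀.F.toPre 2 (j + 1) φ → HB l z b₀.F.toPre 2 (j + 2) φ :=
    fun hj k => stpL (c := fun i => ⟨(c i).a, φ i⟩) h c2 (D2 _)
      (fun k => (a0 k).of_le (Nat.succ_le_succ hj)) k
  have p4 := L (by omega) (L (by omega) (L (Nat.zero_le _) hφ))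
  have S : ∀ {j}, j ≤ 5 → HB l z b₀.F.toPre 2 (j + 1) φ → HB l z b₀.F.toPre 2 (j + 2) φ :=
    fun hj k => h.stpS (c := fun i => ⟨(c i).a, φ i⟩) c2 (HB.sob0 (j := 1) X.dim.le p4) (D2 _)
      (fun k => (a7 k).of_le (by omega)) k
  exact ⟨a0, HB.sob0 (j := 4) X.dim.le (S le_rfl (S (by omega) (S (by omega) p4)))⟩

end nb

end Crest.Agent.X212.St29.Ec
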