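import Crest.Agent.X212.St29.EcA
import Crest.Agent.X212.End23.Cor

/-!
# Row 212, EC-LOCA (helper29): local bounds in a good gauge
-/

set_option autoImplicit false
set_option linter.unusedSectionVars false
noncomputable section
open scoped Manifold ContDiff Topology InnerProductSpace NNReal
open MeasureTheory Set Function Filter

namespace Crest.Agent.X212.St29.Ec
open An An.Pre Sob92 Lw78 Sw Rad57 Loc74
open Prm93 (Mix)
open M (Mf)

variable {κ lam ν : Type} [Fintype κ] [Fintype lam] [Fintype ν] [DecidableEq ν] {α : Type}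
  {l : Filter α} {X : Mf 4} {nc : ℕ} {V : Type} [NormedAddCommGroup V] [NormedSpace ℝ V]
  {z : X.M} {j : ℕ}

/-- cutting off a configuration -/
def cut (χ : X.M → ℝ) (c : Cfg X.M κ ν) : Cfg X.M κ ν :=
  ⟨fun k x => χ x • c.a k x, fun x => χ x • c.Φ x⟩

theorem adm_cut {b : Bg X.I X.M κ lam ν nc} {c : Cfg X.M κ ν} {U : Set X.M} {χ : X.M → ℝ}
    (h : b.AdmOn c U) (hU : IsOpen U) (h1 : Sm X.I χ) (h2 : tsupport χ ⊆ U) : b.Adm (cut χ c) := by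
  have z : ∀ x ∉ U, χ x = 0 := fun x hx => image_eq_zero_of_notMem_tsupport fun k => hx (h2 k)
  refine ⟨fun k => Neck67.sm_bil_on (ContinuousLinearMap.lsmul ℝ ℝ).flip
    (fun x hx => (h.sa k).contMDiffAt (hU.mem_nhds hx)) h1 h2,
    Neck67.sm_bil_on (ContinuousLinearMap.lsmul ℝ ℝ).flip
      (fun x hx => h.sΦ.contMDiffAt (hU.mem_nhds hx)) h1 h2, fun k x => ?_, fun x => ?_⟩
  · by_cases hx : x ∈ U
    · simp only [cut, mul_smul_comm, ← Finset.smul_sum, h.pa k x hx]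
    · simp [cut, z x hx]
  · by_cases hx : x ∈ U
    · simp only [cut, map_smul, h.pΦ x hx]
    · simp [cut, z x hx]

theorem cut_a {c : Cfg X.M κ ν} {χ : X.M → ℝ} (h : χ =ᶠ[𝓝 z] fun _ => 1) (k : Option κ) :
    (cut χ c).a k =ᶠ[𝓝 z] c.a k := h.mono fun x e => by simp only [cut, e, one_smul]

theorem cut_Φ {c : Cfg X.M κ ν} {χ : X.M → ℝ} (h : χ =ᶠ[𝓝 z] fun _ => 1) :
    (cut χ c).Φ =ᶠ[𝓝 z] c.Φ := h.mono fun x e => by simp only [cut, e, one_smul]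

theorem bd_cpt {f : α → X.M → V} {K : Set X.M} (hK : IsCompact K) (k : Cmp73.MBOn X.I l univ f) :
    ∃ A, ∀ᶠ i in l, ∀ x ∈ K, ‖f i x‖ ≤ A :=
  hK.induction_on (p := fun K => ∃ A, ∀ᶠ i in l, ∀ x ∈ K, ‖f i x‖ ≤ A) ⟨0, by simp⟩
    (fun _ _ e ⟨A, k⟩ => ⟨A, k.mono fun _ k x hx => k x (e hx)⟩)
    (fun _ _ ⟨A, k⟩ ⟨A', k'⟩ => ⟨max A A', (k.and k').mono fun _ k x hx =>
      hx.elim (fun e => le_max_of_le_left (k.1 x e)) fun e => le_max_of_le_right (k.2 x e)⟩)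
    fun x _ => let ⟨A, k⟩ := (k 0 x trivial).bdd; let ⟨_, k1, _, k2, k⟩ := eventually_prod_iff.1 k
      ⟨_, nhdsWithin_le_nhds k2, A, k1.mono fun _ e _ e' => k e e'⟩

variable {d : Dt κ lam ν} {N : Type} [Fintype N] {ty : N → d.𝓔}
  {T : Type} [NormedAddCommGroup T] [NormedSpace ℝ T] [FiniteDimensional ℝ T]
  {s : Pz X 0 fun i => d.e (ty i)} {𝓕 : Fam s nc T} {t₀ : T} {t : α → T} [l.NeBot]
  (h : 𝓕.OK) (h₀ : t₀ ∈ 𝓕.Q) (ht : Tendsto t l (𝓝 t₀))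
include h h₀ ht

/-- `L²` bounds for the moving measures give `L²` bounds for the limit measure -/
theorem l2_mov {K : Set X.M} (hK : IsCompact K) {f : α → X.M → V} {C : ℝ}
    (H : ∀ᶠ i in l, ∫⁻ x in K, ‖f i x‖ₑ ^ 2 ∂(𝓕.P (t i)).bg.F.μ ≤ ENNReal.ofReal C) :
    L2 (𝓕.P t₀).bg.F.μ l K f := by
  obtain ⟨g, h1, h2⟩ := h.dens
  have c := (h1.cb _ h₀).choose_spec.1.continuous
  obtain ⟨δ, d0, hδ⟩ := hK.exists_forall_le' c.continuousOn fun x _ => (h2 _ h₀).1 x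
  rw [(h2 _ h₀).2]
  refine l2_dens c hK ⟨((δ / 2)⁻¹ * C).toNNReal, ?_⟩
  filter_upwards [H, ht.eventually (h.opn.mem_nhds h₀),
    (sb_cv h h₀ ht h1).unif isOpen_univ hK (subset_univ _) (half_pos d0)] with i k1 k2 k3
  rw [(h2 _ k2).2, restrict_withDensity hK.measurableSet] at k1
  replace k1 := (lintegral_mono' (withDensity_mono (f := fun _ => ENNReal.ofReal (δ / 2))
    ((ae_restrict_mem hK.measurableSet).mono fun x hx => ENNReal.ofReal_le_ofReal (by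
      linarith [hδ x hx, (abs_lt.1 (k3 x hx)).1]))) le_rfl).trans k1
  rw [withDensity_const, lintegral_smul_measure, smul_eq_mul] at k1
  change _ ≤ ENNReal.ofReal _
  rw [ENNReal.ofReal_mul (by positivity), ENNReal.ofReal_inv_of_pos (half_pos d0)]
  exact (ENNReal.mul_le_iff_le_inv (by simpa) (by simp)).1 k1

theorem cv_mx (a k : Option κ) :
    Cmp73.Cv X.I l univ (fun i => mx 𝓕 (t i) t₀ a k) (mx 𝓕 t₀ t₀ a k) :=
  .sum fun e => (Cmp73.Cv.fixed' ((h.sS a e).cb _ h₀).choose_spec.1).mul (sb_cv h h₀ ht (h.sSi e k))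

/-- the first gauge -/
theorem gauge {c : α → Cfg X.M κ ν} (hc : ∀ᶠ i in l, (𝓕.P (t i)).bg.Adm (c i)) {K : Set X.M}
    (hK : IsCompact K) (hz : K ∈ 𝓝 z) {C : ℝ} (H : ∀ᶠ i in l,
      ∫⁻ x in K, ‖(𝓕.P (t i)).bg.fc (c i) x‖ₑ ^ 2 ∂(𝓕.P (t i)).bg.F.μ ≤ ENNReal.ofReal C) :
    ∃ (θ : α → X.M → ℝ) (g : α → Option κ → X.M → ℝ), (∀ i, Sm X.I (θ i)) ∧
      (∀ i, Frm (𝓕.P t₀).bg.F (g i)) ∧ (∀ᶠ x in 𝓝 z, ∀ i, dv1 (𝓕.P t₀).bg.F (g i) x = 0) ∧
      (∀ k, HB l z (𝓕.P t₀).bg.F.toPre 2 1 fun i => g i k) ∧ ∀ᶠ i in l, ((𝓕.P (t i)).bg.act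
        (fun x => Complex.exp (θ i x • Complex.I)) (c i)).a = t1 (mx 𝓕 t₀ (t i)) (g i) := by
  classical
  have n := nb h h₀ ht
  obtain ⟨_, hF⟩ := n.ok₀.tame
  have Q := ht.eventually (h.opn.mem_nhds h₀)
  let g := fun i => if t i ∈ 𝓕.Q ∧ (𝓕.P (t i)).bg.Adm (c i) then t1 (mx 𝓕 (t i) t₀) (c i).a else 0
  have g1 : ∀ i, Frm (𝓕.P t₀).bg.F (g i) := fun i => by
    simp only [g]
    split_ifs with k
    exacts [(adm_mx h h₀ k.1 k.2).1, ⟨fun _ => contMDiff_const, by simp⟩]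
  have g2 : ∀ᶠ i in l, g i = t1 (mx 𝓕 (t i) t₀) (c i).a := (Q.and hc).mono fun i k => if_pos k
  have g3 : L2 (𝓕.P t₀).bg.F.μ l K fun i => da (𝓕.P t₀).bg.F (g i) := by
    obtain ⟨A, hA⟩ := bd_cpt (f := fun i => t2 (mx 𝓕 (t i) t₀)) hK (cv_tp fun s => .sum fun r =>
      ((cv_mx h h₀ ht _ _).mul (cv_mx h h₀ ht _ _)).smul (.const _)).mb
    obtain ⟨A', hA'⟩ := bd_cpt hK fun k z _ => (n.fc0 (z := z) (p := 0) (j := k + 1)).mb
    refine l2_le (l2_add (f := fun _ _ => |A'|) (g := fun i x => ‖(𝓕.P (t i)).bg.fc (c i) x‖)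
      (l2_bdd hK.measurableSet hK.measure_ne_top _ (.of_forall fun _ _ _ => le_rfl))
      (l2_mov h h₀ ht hK (by simpa only [enorm_norm] using H)) fun _ => continuous_const)
      hK.measurableSet A ?_
    filter_upwards [g2, Q, hc, hA, hA'] with i k1 k2 k3 k4 k5 x hx
    have o := (h.ok _ k2).bg
    rw [k1, da_mix (mix_mx h k2 h₀) (sm_mx h k2 h₀) k3.sa ((show (𝓕.P (t i)).bg.F.P = _ from
      o.G.P) ▸ k3.pa), eq_sub_of_add_eq' (fc_da o k3.sa x).symm]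
    refine (ContinuousLinearMap.le_opNorm _ _).trans (mul_le_mul (k4 x hx) ((norm_sub_le _ _).trans
      (le_trans ?_ (le_abs_self _))) (norm_nonneg _) ((norm_nonneg _).trans (k4 x hx)))
    linarith [k5 x hx, le_abs_self A']
  obtain ⟨O, o1, o2, o3, C₁, o4, -⟩ := rad X _ (𝓕.P t₀).bg.F z K hz
  choose ψ p1 p2 using fun i => o4 _ (g1 i)
  have fr : ∀ {g : Option κ → X.M → ℝ} {ψ : X.M → ℝ}, Frm (𝓕.P t₀).bg.F g → Sm X.I ψ →
      Frm (𝓕.P t₀).bg.F fun k x => g k x - (𝓕.P t₀).bg.F.D k ψ x := fun k1 k2 =>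
    ⟨fun k => (k1.sm k).sub (sm_D _ k2 k), fun k y => by
      simp only [mul_sub, Finset.sum_sub_distrib, k1.pr, Lw78.projD]⟩
  have g4 := fun i => fr (g1 i) (p1 i)
  have g5 : ∀ k, HB l z (𝓕.P t₀).bg.F.toPre 2 1 fun i x => g i k x - (𝓕.P t₀).bg.F.D k (ψ i) x :=
    fun k => of_l2' (.of_forall fun i => (g4 i).sm k) (o1.mem_nhds o2) <|
      let ⟨B, hB⟩ := l2_mono g3 o3
      ⟨C₁ * B, hB.mono fun i e => (p2 i k).trans (by push_cast; exact mul_le_mul_right e _)⟩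
  obtain ⟨W, w1, ξ, w2, w3, w4⟩ := coulomb (X.dim.symm ▸ four_pos) hF (fun i => (g4 i).sm)
    (fun i => (g4 i).pr) g5
  refine ⟨fun i x => ψ i x + ξ i x, _, fun i => (p1 i).add (w2 i), fun i => fr (g4 i) (w2 i),
    mem_of_superset w1 fun x hx i => w3 i x hx, fun k => (g5 k).sub ((w4 z).D k), ?_⟩
  filter_upwards [g2, Q, hc, n.ok] with i k1 k2 k3 k4
  refine funext₂ fun a x => (congrArg₂ (· - ·) (congrFun₂ (adm_mx h h₀ k2 k3).2 a x)
    ((Cyl58.gau_exp (𝓕.P (t i)).bg.F ((p1 i).add (w2 i))).2 a x)).trans ?_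
  rw [← k1]
  simp only [t1, k4.2.2.2.2.D, smul_eq_mul, ← Finset.sum_sub_distrib, ← mul_sub]
  refine Finset.sum_congr rfl fun e _ => congrArg _ ?_
  rw [sub_sub, D_def, D_def, D_def]
  exact congrArg _ (Wz78.dv_add' (p1 i x) (w2 i x))

omit h h₀ ht in
variable (d ty X nc T) in
/-- **EC-LOCA** -/
theorem loca : End23.LocaStmt d ty X nc T := by
  intro s 𝓕 h α 𝒰 t c φ t₀ C U h₀ ht hU H z hz
  have := Manifold.locallyCompact_of_finiteDimensional (M := X.M) X.I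
  have n := nb h h₀ ht
  have Q := ht.eventually (h.opn.mem_nhds h₀)
  obtain ⟨χ, c1, -, c3, c4, -⟩ := exists_bump (I := X.I) (hU.mem_nhds hz)
  obtain ⟨K, k1, k2, k3⟩ := local_compact_nhds
    (inter_mem (eventually_eventually_nhds.2 c4) (hU.mem_nhds hz))
  have A := H.mono fun i k => And.intro (adm_cut k.1.adm hU c1 c3) (adm_cut k.1.adm' hU c1 c3)
  obtain ⟨θ, g, s1, s2, s3, s4, s5⟩ := gauge h h₀ ht (A.mono fun _ k => k.1) k3 k1 (C := C)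
    (H.mono fun i k => (setLIntegral_congr_fun k3.measurableSet fun x hx => by
      rw [Sw88.fc_congr (cut_a (k2 hx).1)]).trans_le
      ((lintegral_mono_set (k2.trans inter_subset_right)).trans k.1.fc))
  have u := fun i => (Cyl58.gau_exp s.bg.F (s1 i)).1
  set v := fun i x => Complex.exp (θ i x • Complex.I)
  have A' := (A.and n.ok).mono fun i k => And.intro
    (Pb50.adm_of fun x => (Pb50.LA.of_adm k.1.1 x).act k.2.1 ((u i).1 x))
    (Pb50.adm_of fun x => (Pb50.LA.of_adm k.1.2 x).act k.2.1 ((u i).1 x))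
  have E := ((H.and A).and n.ok).prod_mk k1
  obtain ⟨r1, r2⟩ := bootL n (c := fun i => (𝓕.P (t i)).bg.act (v i) (cut χ (c i)))
    (φ := fun i => ((𝓕.P (t i)).bg.act (v i) (cut χ ⟨(c i).a, φ i⟩)).Φ) s2 s3
    ((A'.and s5).mono fun _ k => ⟨k.1.1, k.1.2, k.2⟩) s4
    (.one0 (A'.mono fun _ k => k.1.sΦ) ⟨C, E.mono fun q k => by
      rw [Pb50.norm_act k.1.2.1 ((u _).2 _), (cut_Φ (k2 k.2).1).self_of_nhds]
      exact k.1.1.1.1.sup _ (k2 k.2).2⟩)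
    (of_l2' (A'.mono fun _ k => k.2.sΦ) k1 (l2_mov h h₀ ht k3 (C := C) ((H.and n.ok).mono fun i k =>
      (setLIntegral_congr_fun k3.measurableSet fun x hx => by
        rw [← ofReal_norm, Pb50.norm_act k.2.1 ((u _).2 _), (cut_Φ (k2 hx).1).self_of_nhds,
          ofReal_norm]).trans_le ((lintegral_mono_set (k2.trans inter_subset_right)).trans k.1.2))))
    (E.mono fun q k => ⟨by
      rw [Pb50.eD_act k.1.2.1 (.of_adm k.1.1.2.1 _) (.of_gau (u _) _), Sw88.eD_congr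
        (cut_a (k2 k.2).1) (cut_Φ (k2 k.2).1), (k.1.1.1.1.eD _ (k2 k.2).2).1, ← Pb50.cB_apply,
        map_zero], (Pb50.eD_act k.1.2.1 (.of_adm k.1.1.2.2 _) (.of_gau (u _) _)).trans (by
      rw [Sw88.eD_congr (cut_a (k2 k.2).1) (cut_Φ (k2 k.2).1), (k.1.1.1.1.eD _ (k2 k.2).2).2,
        ← Pb50.cB_apply, map_zero])⟩)
    (hb_mov (Q.mono fun i k => mix_mx h k h₀) (fun j a b => .of_mbOn
      (Q.mono fun i k => sm_mx h k h₀ a b) fun n => (cv_mx h h₀ ht a b).mb n z trivial) 5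
      ((A'.and n.ok).mono fun i k x => Sep15.S.sa_eC k.2.1 (k.1.1.sa · x) (k.1.1.sΦ x))
      ⟨C, E.mono fun q k w hw => by
        rw [(Pb50.Dw_congr w (g := (𝓕.P (t q.1)).bg.eC (c q.1)) ((eventually_eventually_nhds.2
          (k2 k.2).1).mono fun y hy => (Pb50.eC_act k.1.2.1 (k.1.1.2.1.sa · y)
            (.of_gau (u _) _)).trans (Sw88.eC_congr (cut_a hy) (cut_Φ hy)))).self_of_nhds]
        exact k.1.1.1.1.eC w (hw.trans (by omega)) _ (k2 k.2).2⟩).of0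
  obtain ⟨B1, b1⟩ := hb_bd (j := 3) (f := fun i => 𝓕.al (t i) ((𝓕.P (t i)).bg.act (v i)
    (cut χ (c i)))) (.pi fun e => .sum fun a => (HB.of_mbOn (Q.mono fun i k =>
      ((h.sSi e a).cb _ k).choose_spec.1) fun n =>
        (sb_cv h h₀ ht (h.sSi e a)).mb n z trivial).smul (r1 a)) s.bg.F.toPre
  obtain ⟨B2, b2⟩ := hb_bd (j := 3) r2 s.bg.F.toPre
  obtain ⟨pa, e1, pb, e2, e⟩ := eventually_prod_iff.1 (b1.and b2)
  obtain ⟨W, w1, w2, w3⟩ := mem_nhds_iff.1 (inter_mem e2 k1)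
  have wU : W ⊆ U := fun x hx => (k2 (w1 hx).2).2
  refine ⟨W, w2, w3, wU, v, .of_forall fun i => ⟨(u i).1.contMDiffOn, fun x _ => (u i).2 x⟩,
    max B1 B2, ?_⟩
  filter_upwards [e1, H, n.ok] with i j1 j2 j3
  refine ⟨Pb50.admOn_of fun x hx => (Pb50.LA.of_on j2.1.adm' hU (wU hx)).act j3.1 ((u i).1 x),
    fun w hw x hx => ⟨le_max_of_le_left (le_of_eq_of_le (congrArg _ (Pb50.Dw_congr w ?_).self_of_nhds)
      ((e j1 (w1 hx).1).1 w hw)), le_max_of_le_right (le_of_eq_of_le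
        (congrArg _ (Pb50.Dw_congr w ?_).self_of_nhds) ((e j1 (w1 hx).1).2 w hw))⟩⟩
  · exact (k2 (w1 hx).2).1.mono fun y hy => by simp only [Fam.al, Bg.act, cut, hy, one_smul]
  · exact (k2 (w1 hx).2).1.mono fun y hy => by simp only [Bg.act, cut, hy, one_smul]

end Crest.Agent.X212.St29.Ec
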