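import Crest.Agent.X212.St29.EcB
import Crest.Agent.X212.Ucp64.Man

/-!
# Row 212, EC-LOCU (helper29): limits of harmonic spinors with three bounded derivatives
-/

set_option autoImplicit false
set_option linter.unusedSectionVars false
noncomputable section
open scoped Manifold ContDiff Topology InnerProductSpace NNReal
open MeasureTheory Set Function Filter

namespace Crest.Agent.X212.St29.Ec
open An An.Pre Sob92 Lw78 Sw Loc74
open Cmp73 (MB cb_tendsto)
open M (Mf)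

theorem jt_unif {α Y G : Type} [TopologicalSpace Y] [NormedAddCommGroup G] {l : Filter α} [l.NeBot]
    {f : α → Y → G} {g : Y → G} {x : Y} (hp : ∀ᶠ y in 𝓝 x, Tendsto (fun i => f i y) l (𝓝 (g y)))
    (h : Tendsto (fun q : α × Y => f q.1 q.2) (l ×ˢ 𝓝 x) (𝓝 (g x))) :
    ContinuousAt g x ∧ TendstoUniformlyOnFilter f g l (𝓝 x) := by
  have c : ContinuousAt g x := (closed_nhds_basis (g x)).tendsto_right_iff.2 fun C hC => by
    obtain ⟨_, k1, _, k2, k⟩ := eventually_prod_iff.1 (h.eventually hC.1)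
    exact (hp.and k2).mono fun y hy => hC.2.mem_of_tendsto hy.1 (k1.mono fun i hi => k hi hy.2)
  exact ⟨c, (((c.tendsto.comp tendsto_snd).prodMk_nhds h).mono_right (nhds_le_uniformity _) :)⟩

theorem ex_lim {α Y G : Type} [NormedAddCommGroup G] [NormedSpace ℝ G] [FiniteDimensional ℝ G]
    {𝒰 : Ultrafilter α} {f : α → Y → G} {U : Set Y}
    (h : ∀ x ∈ U, ∃ C, ∀ᶠ i in (𝒰 : Filter α), ‖f i x‖ ≤ C) :
    ∃ g : Y → G, ∀ x ∈ U, Tendsto (fun i => f i x) 𝒰 (𝓝 (g x)) := by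
  have := FiniteDimensional.proper_real G
  choose! C hC using h
  choose! g hg using fun x (hx : x ∈ U) =>
    (isCompact_closedBall (0 : G) (C x)).ultrafilter_le_nhds (𝒰.map fun i => f i x)
      (le_principal_iff.2 ((hC x hx).mono fun i hi => by simpa using hi))
  exact ⟨g, fun x hx => (hg x hx).2⟩

section flat
variable {α E : Type} [NormedAddCommGroup E] [NormedSpace ℝ E] [FiniteDimensional ℝ E]
  {𝒰 : Ultrafilter α} {U : Set E} (hU : IsOpen U)
include hU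

theorem cb_d {G : Type} [NormedAddCommGroup G] [NormedSpace ℝ G] [FiniteDimensional ℝ G]
    {f : α → E → G} {g : E → G} (h : ∀ x ∈ U, Pat85.CB (𝒰 ×ˢ 𝓝 x) 2 f)
    (hp : ∀ x ∈ U, Tendsto (fun i => f i x) 𝒰 (𝓝 (g x))) : ∀ x ∈ U, DifferentiableAt ℝ g x ∧
      Tendsto (fun i => fderiv ℝ (f i) x) 𝒰 (𝓝 (fderiv ℝ g x)) := by
  obtain ⟨g', k⟩ := ex_lim (𝒰 := 𝒰) (f := fun i => fderiv ℝ (f i)) fun x (hx : x ∈ U) =>
    (h x hx).fd.bdd.imp fun _ k => k.curry.mono fun _ k => k.self_of_nhds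
  intro x hx
  have := hasFDerivAt_of_tendstoUniformlyOnFilter (jt_unif (mem_of_superset (hU.mem_nhds hx) k)
    (cb_tendsto (h x hx).fd (k x hx))).2 ((h x hx).smooth.mono fun _ k =>
      (k.differentiableAt (by simp)).hasFDerivAt) (mem_of_superset (hU.mem_nhds hx) hp)
  exact ⟨this.differentiableAt, this.fderiv ▸ k x hx⟩

theorem cb_ck (k : ℕ) : ∀ {G : Type} [NormedAddCommGroup G] [NormedSpace ℝ G]
    [FiniteDimensional ℝ G] {f : α → E → G} {g : E → G},
    (∀ x ∈ U, Pat85.CB (𝒰 ×ˢ 𝓝 x) (k + 1) f) →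
    (∀ x ∈ U, Tendsto (fun i => f i x) 𝒰 (𝓝 (g x))) → ContDiffOn ℝ k g U := by
  induction k with
  | zero =>
    exact fun h hp => contDiffOn_zero.2 fun x hx => (jt_unif (mem_of_superset (hU.mem_nhds hx) hp)
      (cb_tendsto (h x hx) (hp x hx))).1.continuousWithinAt
  | succ k ih =>
    intro G _ _ _ f g h hp
    have d := cb_d hU (fun x hx => (h x hx).of_le (by omega)) hp
    exact (contDiffOn_succ_iff_fderiv_of_isOpen hU).2 ⟨fun x hx => (d x hx).1.differentiableWithinAt,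
      by simp, ih (fun x hx => (h x hx).fd) fun x hx => (d x hx).2⟩

end flat

section man
variable {E : Type} [NormedAddCommGroup E] [NormedSpace ℝ E] [FiniteDimensional ℝ E]
  [MeasurableSpace E] [BorelSpace E]
  {HM : Type} [TopologicalSpace HM] {I : ModelWithCorners ℝ E HM} [I.Boundaryless]
  {M : Type} [TopologicalSpace M] [ChartedSpace HM M] [IsManifold I ∞ M]
  [MeasurableSpace M] {ι : Type} [Fintype ι] {α : Type}
  {V W : Type} [NormedAddCommGroup V] [InnerProductSpace ℝ V] [FiniteDimensional ℝ V]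
  [NormedAddCommGroup W] [InnerProductSpace ℝ W] {O : Set M}

theorem mb_dw {l : Filter α} {x : M} (F : Pre I M ι) : ∀ (k : ℕ) {f : α → M → V},
    (∀ᶠ q : α × M in l ×ˢ 𝓝 x, ContMDiffAt I 𝓘(ℝ, V) ∞ (f q.1) q.2) →
    (∃ C, ∀ᶠ q : α × M in l ×ˢ 𝓝 x, ∀ w : List ι, w.length ≤ k → ‖F.Dw w (f q.1) q.2‖ ≤ C) →
    MB I l x k f
  | 0, _, hs, ⟨C, h⟩ => .zero_of hs ⟨C, h.mono fun _ k => k [] le_rfl⟩
  | k + 1, _, hs, ⟨C, h⟩ => .gainP F (.zero_of hs ⟨C, h.mono fun _ k => k [] (Nat.zero_le _)⟩)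
      fun a => mb_dw F k (hs.mono fun _ k => dv_smoothAt (F.sm a _) k)
        ⟨C, h.mono fun _ k w hw => k (a :: w) (Nat.succ_le_succ hw)⟩

theorem mb_lim {𝒰 : Ultrafilter α} {f : α → M → V} (hO : IsOpen O) (h : ∀ x ∈ O, MB I 𝒰 x 3 f) :
    ∃ g : M → V, ∀ x ∈ O, ContMDiffAt I 𝓘(ℝ, V) 2 g x ∧ Tendsto (fun i => f i x) 𝒰 (𝓝 (g x)) ∧
      ∀ Y, Tendsto (fun i => dv I Y (f i) x) 𝒰 (𝓝 (dv I Y g x)) := by
  obtain ⟨g, k⟩ := ex_lim (𝒰 := 𝒰) fun x (hx : x ∈ O) =>
    (h x hx).bdd.imp fun _ k => k.curry.mono fun _ k => k.self_of_nhds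
  refine ⟨g, fun x hx => ?_⟩
  have hs := mem_chart_source HM x
  have o := Cmp73.isOpen_chart_pre (I := I) hO x
  have m : extChartAt I x x ∈ (extChartAt I x).target ∩ (extChartAt I x).symm ⁻¹' O :=
    ⟨mem_extChartAt_target x, by simpa only [mem_preimage, extChartAt_to_inv] using hx⟩
  have c : ∀ y ∈ (extChartAt I x).target ∩ (extChartAt I x).symm ⁻¹' O,
      Pat85.CB (𝒰 ×ˢ 𝓝 y) 3 fun i y => f i ((extChartAt I x).symm y) := fun y hy => by
    have := (MB.chart (x₀ := x) (by simpa using (extChartAt I x).map_target hy.1)).1 (h _ hy.2)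
    rwa [(extChartAt I x).right_inv hy.1] at this
  have c2 : ContMDiffAt I 𝓘(ℝ, V) 2 g x := ((((cb_ck o 2 c fun y hy => k _ hy.2).contDiffAt
    (o.mem_nhds m)).contMDiffAt).comp x (contMDiffAt_extChartAt' hs)).congr_of_eventuallyEq
      (eq_comp_chart hs g)
  refine ⟨c2, k x hx, fun Y => ?_⟩
  rw [Cmp73.dv_chart hs (c2.mdifferentiableAt two_ne_zero) Y]
  refine (((isBoundedBilinearMap_apply (𝕜 := ℝ) (E := E) (F := V)).continuous.tendsto _).comp
    ((cb_d o (fun y hy => (c y hy).pred) (fun y hy => k _ hy.2) _ m).2.prodMk_nhds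
      tendsto_const_nhds)).congr' ?_
  filter_upwards [(h x hx).smooth.curry] with i hi
  exact (Cmp73.dv_chart hs (hi.self_of_nhds.mdifferentiableAt (by simp)) _).symm

/-- unique continuation at a point, for `C²` sections -/
theorem ucp2 (F : Fr I M ι) (A : An.Op M ι V W) {C : ℕ → ℝ} (hA : A.Good F C) (hcl : A.CliffL F)
    (hO : IsOpen O) {u : M → V} (hu : ∀ x ∈ O, ContMDiffAt I 𝓘(ℝ, V) 2 u x)
    (hpu : ∀ x ∈ O, A.p x (u x) = u x)
    (hL : ∀ x ∈ O, ∃ C, ∀ᶠ y in 𝓝 x, ‖∑ a, A.σ a y (F.D a u y)‖ ≤ C * ‖u y‖)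
    {x₀ : M} (hx : x₀ ∈ O) (hz : x₀ ∈ closure {y | u =ᶠ[𝓝 y] 0}) : u =ᶠ[𝓝 x₀] 0 := by
  set φ := extChartAt I x₀ with hφ
  set Ω := φ.target ∩ φ.symm ⁻¹' O with hΩ
  have ho : IsOpen Ω := Cmp73.isOpen_chart_pre hO x₀
  have hs : ∀ z ∈ Ω, φ.symm z ∈ (chartAt HM x₀).source := fun z hz => by
    simpa [hφ] using φ.map_target hz.1
  have sy : ∀ z ∈ Ω, ContMDiffAt 𝓘(ℝ, E) I ∞ φ.symm z := fun z hz =>
    (contMDiffOn_extChartAt_symm x₀).contMDiffAt ((isOpen_extChartAt_target x₀).mem_nhds hz.1)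
  have l2 : (2 : ℕ∞ω) ≤ ∞ := (WithTop.coe_le_coe.2 le_top : ((2 : ℕ∞) : WithTop ℕ∞) ≤ ∞)
  have loc : ∀ {N : Type} [NormedAddCommGroup N] [NormedSpace ℝ N] {f : M → N},
      (∀ z ∈ Ω, ContMDiffAt I 𝓘(ℝ, N) 2 f (φ.symm z)) → ContDiffOn ℝ 2 (f ∘ φ.symm) Ω :=
    fun hf z hz => ((hf z hz).comp z ((sy z hz).of_le l2)).contDiffAt.contDiffWithinAt
  have u2 := loc fun z hz => hu _ hz.2
  have hD : ∀ z ∈ Ω, ∀ a, F.D a u (φ.symm z) =
      fderiv ℝ (u ∘ φ.symm) z (F.D a φ (φ.symm z)) := fun z hz a => by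
    have h1 := ((u2.contDiffAt (ho.mem_nhds hz)).differentiableAt two_ne_zero).hasFDerivAt
    rw [← φ.right_inv hz.1] at h1
    have := (of_chart_hasFDerivAt (hs z hz) h1).2 (F.e a)
    rwa [φ.right_inv hz.1] at this
  have key := Ucp64.ev_zero_frame ho (e := fun a => F.D a φ ∘ φ.symm)
    (P := fun a c => F.P a c ∘ φ.symm)
    (σ := fun a => A.σ a ∘ φ.symm) (p := A.p ∘ φ.symm) (u := u ∘ φ.symm)
    (fun a => (loc fun z hz => (dv_smoothAt (F.sm a _)
      (contMDiffAt_extChartAt' (hs z hz))).of_le l2).of_le (by norm_num))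
    (fun z hz => by
      obtain ⟨L, hL⟩ := isInvertible_mfderiv_extChartAt (I := I) (φ.map_target hz.1)
      let L' : TangentSpace I (φ.symm z) ≃ₗ[ℝ] E := L.toLinearEquiv
      have h1 : (range fun a => (F.D a φ ∘ φ.symm) z) =
          L'.toLinearMap '' range fun a => F.e a (φ.symm z) := by
        rw [← range_comp]
        congr 1
        funext a
        exact (congrArg (fun T => T (F.e a (φ.symm z))) hL).symm
      rw [h1, Submodule.span_image, F.span, Submodule.map_top, LinearEquiv.range])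
    (fun z _ a => by
      have := congrArg (mfderiv I 𝓘(ℝ, E) φ (φ.symm z)) (F.P_e a (φ.symm z))
      rw [map_sum] at this
      simp only [map_smul] at this
      exact this)
    (fun a => (loc fun z _ => ((hA.σ a).1 _).of_le l2).of_le (by norm_num))
    ((loc fun z _ => (hA.p.cb.1 _).of_le l2).of_le (by norm_num))
    (fun z _ => hA.p.idem _) (fun z _ => hA.p.symm _) (fun z _ a c => hcl a c _) u2
    (fun z hz => hpu _ hz.2)
    (fun z hz => by
      obtain ⟨C, hC⟩ := hL _ hz.2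
      refine ⟨C, ?_⟩
      filter_upwards [(sy z hz).continuousAt.tendsto.eventually hC, ho.mem_nhds hz] with w h1 h2
      simpa only [hD w h2, Function.comp] using h1)
    (x := φ x₀) ⟨mem_extChartAt_target x₀, by simpa [hφ] using hx⟩ (by
      refine ContinuousWithinAt.mem_closure (f := φ) (s := {y | u =ᶠ[𝓝 y] 0} ∩ φ.source)
        (continuousAt_extChartAt x₀).continuousWithinAt ?_ ?_
      · exact (isOpen_extChartAt_source (I := I) x₀).closure_inter ⟨hz, mem_extChartAt_source x₀⟩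
      · intro w hw
        have h1 := continuousAt_extChartAt_symm' hw.2
        refine h1.tendsto.eventually (p := fun x => u x = 0) ?_
        rw [φ.left_inv hw.2]
        exact hw.1)
  filter_upwards [(continuousAt_extChartAt x₀).tendsto.eventually key,
    extChartAt_source_mem_nhds (I := I) x₀] with w h1 h2
  exact (congrArg u (φ.left_inv h2)).symm.trans h1

end man

variable {κ lam ν : Type} [Fintype κ] [Fintype lam] [Fintype ν] [DecidableEq ν]
  (d : Dt κ lam ν) {N : Type} [Fintype N] (ty : N → d.𝓔) (X : Mf 4) (nc : ℕ)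
  (T : Type) [NormedAddCommGroup T] [NormedSpace ℝ T] [FiniteDimensional ℝ T]

/-- **EC-LOCU** -/
theorem locu : End23.LocuStmt d ty X nc T := by
  intro s 𝓕 h α 𝒰 t c t₀ V h₀ ht hV ⟨B, H⟩ hD
  have n := nb h h₀ ht
  have Q := ht.eventually (h.opn.mem_nhds h₀)
  have hb := n.ok₀
  obtain ⟨_, hA⟩ := good_s hb
  have E := fun x (hx : x ∈ V) => (((H.and hD).and Q).and n.ok).prod_mk (hV.mem_nhds hx)
  have M : ∀ x ∈ V, MB X.I 𝒰 x 3 fun i => (c i).Φ := fun x hx => mb_dw s.bg.F.toPre 3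
    ((E x hx).mono fun q k => k.1.1.1.1.1.sΦ.contMDiffAt (hV.mem_nhds k.2))
    ⟨B, (E x hx).mono fun q k w hw => (k.1.1.1.1.2 w hw _ k.2).2⟩
  obtain ⟨u, hu⟩ := mb_lim hV M
  have ρ := fun a => (hb.cρ a).choose_spec.1
  refine ⟨fun x => ‖u x‖, tendstoLocallyUniformlyOn_iff_filter.2 fun x hx =>
    (jt_unif (mem_of_superset (hV.mem_nhds hx) fun y hy => (hu y hy).2.1.norm)
      (((M x hx).of_le (by omega)).tendsto (hu x hx).2.1).norm).2.mono_right nhdsWithin_le_nhds,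
    fun z hz k => ?_⟩
  have e : ∀ y, (fun x => ‖u x‖) =ᶠ[𝓝 y] 0 ↔ u =ᶠ[𝓝 y] 0 := fun y =>
    eventually_congr (.of_forall fun x => norm_eq_zero)
  simp only [e] at k ⊢
  refine ucp2 _ _ hA (cliff_s hb) hV (fun x hx => (hu x hx).1) (fun x hx => ?_) (fun x hx => ?_) hz k
  · refine tendsto_nhds_unique_of_eventuallyEq ((((sOp (𝓕.P t₀).bg).p x).continuous.tendsto _).comp
      (hu x hx).2.1) (hu x hx).2.1 ((H.and n.ok).mono fun i k => ?_)
    exact (congrArg (·.p x ((c i).Φ x)) k.2.2.2.1).symm.trans (Win45.p_of k.2.1 (k.1.1.pΦ x hx))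
  have sa := fun a => (E x hx).mono fun q k => (k.1.1.1.1.1.sa a).contMDiffAt (hV.mem_nhds k.2)
  have ha : ∀ a, MB X.I 𝒰 x 0 fun i => (c i).a a := fun a =>
    (MB.sum fun e => ((sb_cv h h₀ ht (h.sS a e)).mb 0 x trivial).mul (MB.zero_of
      (f := fun i y => 𝓕.al (t i) (c i) y e) (((eventually_all.2 sa).and (E x hx)).mono fun q k =>
        contMDiffAt_finsetSum fun b _ => (((h.sSi e b).cb _ k.2.1.1.2).choose_spec.1 _).mul (k.1 b))
      ⟨B, (E x hx).mono fun q k => (PiLp.norm_apply_le _ e).trans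
        (k.1.1.1.1.2 [] (Nat.zero_le _) _ k.2).1⟩)).congr ((E x hx).mono fun q k => by
      simp only [Fam.al, Finset.mul_sum, ← mul_assoc]
      rw [Finset.sum_comm, ← k.1.1.1.1.1.pa a _ k.2, h.B _ k.1.1.2]
      exact Finset.sum_congr rfl fun j _ => by rw [← Finset.sum_mul, h.SSi _ k.1.1.2])
  obtain ⟨K, hK⟩ := ((MB.sum fun a => (ha a).smul (.fixed' (Cb_bil (.mul ℝ _) (hb.cρ a)
    (cb_jp hb)).choose_spec.1)).neg.sub ((MB.sum fun a => (MB.fixed' (ρ a)).mul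
      (n.A a 0 x trivial)).add (n.ms 0 x trivial))).bdd
  obtain ⟨pa, e1, pb, e2, hK⟩ := eventually_prod_iff.1 hK
  refine ⟨K, (e2.and (hV.mem_nhds hx)).mono fun y hy => ?_⟩
  have t1 : ∀ k, Tendsto (fun i => ∑ a, mx 𝓕 t₀ (t i) a k y • (𝓕.P t₀).bg.m.ρ a y) 𝒰
      (𝓝 ((𝓕.P t₀).bg.m.ρ k y)) := fun k => by
    have := tendsto_finsetSum Finset.univ fun a _ =>
      ((n.cm a k).pt y trivial).smul_const ((𝓕.P t₀).bg.m.ρ a y)
    simpa only [(𝓕.P t₀).bg.F.P_symm _ k, show (𝓕.P t₀).bg.F.P = (𝓕.P t₀).bg.B.P from hb.G.P,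
      (hb.m.cl y trivial).proj k] using this
  refine le_of_tendsto_of_tendsto (tendsto_finsetSum Finset.univ fun k _ =>
    ((isBoundedBilinearMap_apply (𝕜 := ℝ)).continuous.tendsto _).comp
      ((t1 k).prodMk_nhds ((hu y hy.2).2.2 _))).norm ((hu y hy.2).2.1.norm.const_mul K) ?_
  filter_upwards [e1, hD, n.ok] with i k1 k2 k3
  have := app_s (b := (𝓕.P (t i)).bg) (c i) y
  rw [Op.app, k3.2.2.2.2.op, k2 y hy.2, zero_sub, ← sub_eq_add_neg, ← sub_apply] at this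
  simp only [sOp, Bg.jp, k3.2.2.1, Pre.op, Pi.zero_apply, zero_apply, add_zero] at this
  exact (congrArg norm this).trans_le ((ContinuousLinearMap.le_opNorm _ _).trans
    (mul_le_mul_of_nonneg_right (hK k1 hy.1) (norm_nonneg _)))

end Crest.Agent.X212.St29.Ec
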