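import Crest.Agent.X212.Loc74.SwD
import Crest.Agent.X212.St29.Ms
import Crest.Agent.X212.St29.Mc

/-!
# Row 212, LOC-LIM (helper29): continuous convergence; limits of integrals and of cut functions
-/

set_option autoImplicit false
set_option linter.unusedSectionVars false
noncomputable section
open scoped Manifold ContDiff Topology InnerProductSpace
open MeasureTheory Set Function Filter Metric

namespace Crest.Agent.X212.St29.Lim
open An hiding Cfg Pt
open Sob92 Prm93 Kop92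
open Cmp73 (MB ev_compact)
open Sw (R4 JC)

variable {α : Type} {l : Filter α} {A B : Type} [TopologicalSpace A] [TopologicalSpace B]
  {V W : Type} [NormedAddCommGroup V] [NormedAddCommGroup W] {f : α → A → V} {g : A → V}

variable (l) in
/-- continuous convergence of continuous functions -/
structure JT (f : α → A → V) (g : A → V) : Prop where
  c : ∀ᶠ n in l, Continuous (f n)
  c0 : Continuous g
  t : ∀ y, Tendsto (fun q : α × A => f q.1 q.2) (l ×ˢ 𝓝 y) (𝓝 (g y))

theorem JT.unif (h : JT l f g) {K : Set A} (hK : IsCompact K) {ε : ℝ} (hε : 0 < ε) :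
    ∀ᶠ n in l, ∀ x ∈ K, ‖f n x - g x‖ < ε :=
  ev_compact hK (p := fun i x => ‖f i x - g x‖ < ε) fun x _ =>
    NormedAddGroup.tendsto_nhds_zero.1 (sub_self (g x) ▸ (h.t x).sub
      ((h.c0.tendsto x).comp tendsto_snd)) ε hε

theorem JT.pull (h : JT l f g) {a : B → A} (ha : Continuous a) :
    JT l (fun n y => f n (a y)) fun y => g (a y) :=
  ⟨h.c.mono fun _ k => k.comp ha, h.c0.comp ha,
    fun y => (h.t (a y)).comp (tendsto_id.prodMap (ha.tendsto y))⟩

theorem JT.fix (h : Continuous g) : JT l (fun _ => g) g :=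
  ⟨.of_forall fun _ => h, h, fun y => (h.tendsto y).comp tendsto_snd⟩

theorem JT.prod {f' : α → A → W} {g' : A → W} (h : JT l f g) (h' : JT l f' g') :
    JT l (fun n y => (f n y, f' n y)) fun y => (g y, g' y) :=
  ⟨(h.c.and h'.c).mono fun _ k => k.1.prodMk k.2, h.c0.prodMk h'.c0,
    fun y => (h.t y).prodMk_nhds (h'.t y)⟩

theorem JT.comp {φ : V → W} (hφ : Continuous φ) (h : JT l f g) :
    JT l (fun n y => φ (f n y)) fun y => φ (g y) :=
  ⟨h.c.mono fun _ k => hφ.comp k, hφ.comp h.c0, fun y => (hφ.tendsto _).comp (h.t y)⟩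

theorem JT.congr {f' : α → A → V} {g' : A → V} (h : JT l f g) (e : ∀ᶠ n in l, f' n = f n)
    (e' : g' = g) : JT l f' g' :=
  ⟨(h.c.and e).mono fun _ k => k.2 ▸ k.1, e' ▸ h.c0, fun y => e' ▸ (h.t y).congr'
    ((tendsto_fst.eventually e).mono fun _ k => (congrFun k _).symm)⟩

theorem JT.cm [CompactSpace A] (h : JT l f g) :
    Tendsto (fun n => ContinuousMap.mkD (f n) 0) l (𝓝 (ContinuousMap.mkD g 0)) := by
  refine Metric.tendsto_nhds.2 fun ε hε => ?_
  filter_upwards [h.c, h.unif isCompact_univ hε] with n h1 h2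
  rw [ContinuousMap.mkD_of_continuous h1, ContinuousMap.mkD_of_continuous h.c0,
    ContinuousMap.dist_lt_iff hε]
  exact fun x => (dist_eq_norm _ _).trans_lt (h2 x trivial)

theorem JT.int {f : α → R4 → ℂ} {g : R4 → ℂ} (h : JT l f g) {S : Set R4} (hS : IsCompact S)
    (h1 : ∀ᶠ n in l, ∀ y ∉ S, f n y = 0) (h2 : ∀ y ∉ S, g y = 0) :
    Tendsto (fun n => ∫ y, f n y ∂leb R4) l (𝓝 (∫ y, g y ∂leb R4)) := by
  have := isCompact_iff_compactSpace.1 hS
  obtain ⟨L, hL⟩ := exists_int (S := S) (leb R4)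
  have k := h.pull (continuous_subtype_val (p := (· ∈ S)))
  rw [← hL _ g (fun x => ContinuousMap.mkD_apply_of_continuous k.c0) h2]
  exact ((L.continuous.tendsto _).comp k.cm).congr' ((k.c.and h1).mono fun n k =>
    hL _ _ (fun x => ContinuousMap.mkD_apply_of_continuous k.1) k.2)

theorem jt_K {β : α → R4 → R4 →L[ℝ] ℝ} {β₀ : R4 → R4 →L[ℝ] ℝ} (h : JT l β β₀) {ρ : R4 → ℝ}
    (hρ : Continuous ρ) (cρ : HasCompactSupport ρ) :
    JT l (fun n => K (leb R4) ρ (β n)) (K (leb R4) ρ β₀) := by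
  obtain ⟨R₀, r⟩ := exists_sp cρ
  have c0 := continuous_K (μ := leb R4) hρ r h.c0
  refine ⟨h.c.mono fun _ k => continuous_K hρ r k, c0, fun y => ?_⟩
  have hR := r.mono (le_max_left R₀ (‖y‖ + 1))
  have hy : ∀ᶠ z in 𝓝 y, ‖z‖ < max R₀ (‖y‖ + 1) :=
    continuous_norm.continuousAt.eventually_lt continuousAt_const (lt_max_of_lt_right (lt_add_one _))
  generalize max R₀ (‖y‖ + 1) = R at hR hy
  rw [← zero_add (K _ ρ β₀ y)]
  refine (Tendsto.add (f := fun q : α × R4 => K (leb R4) ρ (β q.1) q.2 - K (leb R4) ρ β₀ q.2)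
    (NormedAddGroup.tendsto_nhds_zero.2 fun ε hε => ?_) ((c0.tendsto y).comp tendsto_snd)).congr
      fun q => sub_add_cancel _ _
  set C := |2 * R * ∫ y, |ρ y| ∂leb R4| + 1
  have hC : 0 < C := by positivity
  filter_upwards [((h.unif (isCompact_closedBall 0 R) (div_pos hε hC)).and h.c).prod_mk hy]
    with q ⟨⟨h1, h2⟩, h3⟩
  have e := K_add (μ := leb R4) hρ hR (h2.sub h.c0) h.c0 q.2
  rw [sub_add_cancel] at e
  rw [e, add_sub_cancel_right]
  refine (abs_K_le hρ hR h3.le fun z hz => (h1 z (mem_closedBall_zero_iff.2 hz)).le).trans_lt ?_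
  rw [mul_div_assoc', div_lt_iff₀' hC]
  exact mul_lt_mul_of_pos_right ((le_abs_self _).trans_lt (lt_add_one _)) hε

theorem sum_lim [NormedSpace ℝ V] {ι : Type} {q : α → ι →₀ ℝ} {q₀ : ι →₀ ℝ} (h : St.Cv l q q₀)
    {u : α → ι → V} {u₀ : ι → V} (hu : ∀ w, Tendsto (fun n => u n w) l (𝓝 (u₀ w))) :
    Tendsto (fun n => (q n).sum fun w r => r • u n w) l (𝓝 (q₀.sum fun w r => r • u₀ w)) := by
  classical
  obtain ⟨J, h1, h2⟩ := h
  have e : ∀ (p : ι →₀ ℝ) (u : ι → V), (∀ w ∉ J, p w = q₀ w) →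
      (p.sum fun w r => r • u w) = ∑ w ∈ J ∪ q₀.support, p w • u w := fun p u k =>
    Finsupp.sum_of_support_subset p (fun w hw => by_contra fun k' => by
      rw [Finset.mem_union, not_or] at k'
      exact k'.2 (Finsupp.mem_support_iff.2 (k w k'.1 ▸ Finsupp.mem_support_iff.1 hw))) _
      fun _ _ => zero_smul _ _
  simp only [e _ _ (h1 _), e q₀ _ fun _ _ => rfl]
  exact tendsto_finsetSum _ fun w _ => (h2 w).smul (hu w)

variable {T : Type} [NormedAddCommGroup T] [NormedSpace ℝ T] {Q : Set T} {t : α → T} {t₀ : T}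
  (hQ : IsOpen Q) (h₀ : t₀ ∈ Q) (ht : Tendsto t l (𝓝 t₀))

include hQ h₀ ht in
theorem jt_on [NormedSpace ℝ V] {η : T → R4 → V} (h : ContinuousOn (uncurry η) (Q ×ˢ univ)) :
    JT l (fun n => η (t n)) (η t₀) := by
  have c : ∀ t ∈ Q, Continuous (η t) := fun t k =>
    h.comp_continuous (.prodMk_right t) fun _ => ⟨k, trivial⟩
  exact ⟨(ht.eventually (hQ.mem_nhds h₀)).mono fun n => c _, c _ h₀, fun y =>
    (h.continuousAt ((hQ.prod isOpen_univ).mem_nhds (show (t₀, y) ∈ _ from ⟨h₀, trivial⟩))).tendsto.comp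
      ((ht.comp tendsto_fst).prodMk_nhds tendsto_snd)⟩

variable {E : Type} [NormedAddCommGroup E] [NormedSpace ℝ E] [FiniteDimensional ℝ E]
  [MeasurableSpace E] [BorelSpace E]
  {HM : Type} [TopologicalSpace HM] {I : ModelWithCorners ℝ E HM} [I.Boundaryless]
  {M : Type} [TopologicalSpace M] [ChartedSpace HM M] [IsManifold I ∞ M]
  [MeasurableSpace M] {ι : Type} [Fintype ι] {F : Pre I M ι} [NormedSpace ℝ V]

theorem jt_cv [l.NeBot] [FiniteDimensional ℝ V] {f : α → M → V} {g : M → V}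
    (h : Cmp73.Cv I l univ f g) (hs : ∀ᶠ n in l, Sm I (f n)) : JT l f g :=
  ⟨hs.mono fun _ k => k.continuous, continuous_iff_continuousAt.2 fun _ =>
    (h.smoothAt isOpen_univ trivial).continuousAt, fun _ => h.tendsto trivial⟩

include hQ h₀ ht

theorem sb_mb (x : M) : ∀ (k : ℕ) {f : T → M → V}, SB F Q f → MB I l x k fun i => f (t i)
  | 0, f, h => by
    obtain ⟨C, hC⟩ := h.bound 0 h₀
    rw [hQ.nhdsWithin_eq h₀] at hC
    exact MB.zero_of (tendsto_fst.eventually ((ht.eventually (hQ.mem_nhds h₀)).mono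
      fun i hi y => (h.cb _ hi).choose_spec.1 y) |>.mono fun q hq => hq q.2)
      ⟨C, (tendsto_fst.eventually (ht.eventually hC)).mono fun q hq => hq [] le_rfl q.2⟩
  | k + 1, _, h => MB.gainP F (sb_mb x 0 h) fun a => sb_mb x k (h.D a)

theorem sb_cv {f : T → M → V} (h : SB F Q f) : Cmp73.Cv I l univ (fun i => f (t i)) (f t₀) :=
  ⟨fun k x _ => sb_mb hQ h₀ ht x k h, fun x _ =>
    ((h.ev x).continuousOn.continuousAt (hQ.mem_nhds h₀)).tendsto.comp ht⟩

end Crest.Agent.X212.St29.Lim
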