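import Crest.Agent.X212.St29.Lj

/-!
# Row 212, SW-MAP (helper29): jets of the points of the Banach model, decay on the ends
-/

set_option autoImplicit false
set_option linter.unusedSectionVars false
noncomputable section
open scoped Manifold ContDiff Topology InnerProductSpace
open MeasureTheory Set Function Filter

namespace Crest.Agent.X212.St29
open An hiding Cfg Pt
open Cyf70 Sw Sw.En3 Sob92 Prm93 Pb50
open Win39 (Jt jt lJ)
open M (Mf pm)

variable {κ lam ν : Type} [Fintype κ] [Fintype lam] [Fintype ν] [DecidableEq ν] {X : Mf 4}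
  {K : Type} [TopologicalSpace K] [CompactSpace K] {a : K → X.M}
  {P : Type} [NormedAddCommGroup P] [NormedSpace ℝ P] {O : Set P}

section gen
variable {ι : Type} [Fintype ι] {F : Pre X.I X.M ι} {V V' : Type} [NormedAddCommGroup V]
  [NormedSpace ℝ V] [NormedAddCommGroup V'] [NormedSpace ℝ V'] {W : Type} [NormedAddCommGroup W]
  [InnerProductSpace ℝ W] [CompleteSpace W] {p : X.M → W →L[ℝ] W} {S : ℝ} {k : ℕ}
  {f f' : P → X.M → V}

theorem sf_sb (ha : Continuous a) (h : SB F O f) : SF O fun q z => f q (a z) :=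
  ((SF.lin (O := univ) (f := fun (u : B F 0 V) z => B.fn u (a z)) (fun u => u.sm.continuous.comp ha)
    (fun _ _ _ => rfl) (fun _ _ _ => rfl) (C := 1)
    fun u _ => (CB_bound u.CB _).trans_eq (one_mul _).symm).reparam (h.sm 0)
      fun _ _ => trivial).congr fun q hq z => by rw [fn_toB (h.cb q hq)]

theorem sf_val (ha : Continuous a) (hS : Sup F S) (hk : 4 ≤ k) {g : P → F.H k p}
    (hg : ContDiffOn ℝ ∞ g O) : SF O fun q z => F.val k p (g q) (a z) :=
  (SF.lin (O := univ) (f := fun (u : F.H k p) z => F.val k p u (a z))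
    (fun u => (continuous_val hS hk u).comp ha) (fun u v _ => congrFun (val_add u v) _)
    (fun r u _ => congrFun (val_smul r u) _) fun u _ => norm_val_le hS hk u _).reparam hg
      fun _ _ => trivial

variable (F a O) in
/-- smooth families of `C¹` functions, along `a` -/
structure D1 (f : P → X.M → V) : Prop where
  md : ∀ q ∈ O, MDifferentiable X.I 𝓘(ℝ, V) (f q)
  v : SF O fun q z => f q (a z)
  d : ∀ b, SF O fun q z => F.D b (f q) (a z)

theorem D1.sb (ha : Continuous a) (h : SB F O f) : D1 a O F f :=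
  ⟨fun q hq => (Cb.sm (h.cb q hq)).mdifferentiable (by simp), sf_sb ha h, fun b => sf_sb ha (h.D b)⟩

theorem D1.val (ha : Continuous a) (hS : Sup F S) (hk : 4 ≤ k) {g : P → F.H (k + 1) p}
    (hg : ContDiffOn ℝ ∞ g O) : D1 a O F fun q => F.val (k + 1) p (g q) :=
  ⟨fun q _ => (val_DH hS hk (g q)).1, sf_val ha hS (by omega) hg, fun b =>
    (sf_val ha hS hk ((DH F k p b).contDiff.comp_contDiffOn hg)).congr
      fun q _ _ => congrFun ((val_DH hS hk (g q)).2 b) _⟩

theorem D1.add (h : D1 a O F f) (h' : D1 a O F f') : D1 a O F fun q x => f q x + f' q x :=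
  ⟨fun q hq => (h.md q hq).add (h'.md q hq), h.v.add h'.v, fun b => ((h.d b).add (h'.d b)).congr
    fun q hq _ => dv_add (h.md q hq _) (h'.md q hq _)⟩

theorem D1.clm (L : V →L[ℝ] V') (h : D1 a O F f) : D1 a O F fun q x => L (f q x) :=
  ⟨fun q hq => L.mdifferentiable.comp (h.md q hq), h.v.clm L, fun b => ((h.d b).clm L).congr
    fun q hq _ => dv_clm L (h.md q hq _)⟩

theorem D1.smul {c : P → X.M → ℝ} (h : D1 a O F c) (h' : D1 a O F f) :
    D1 a O F fun q x => c q x • f q x :=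
  ⟨fun q hq => (h.md q hq).smul (h'.md q hq), h.v.smul h'.v, fun b =>
    (((h.d b).smul h'.v).add (h.v.smul (h'.d b))).congr
      fun q hq _ => dv_smul (h.md q hq _) (h'.md q hq _)⟩

theorem D1.sum {α : Type} [Fintype α] {u : α → P → X.M → V} (h : ∀ i, D1 a O F (u i)) :
    D1 a O F fun q x => ∑ i, u i q x :=
  ⟨fun q hq _ => mdiff_sum _ fun i _ => (h i).md q hq _, .fsum _ fun i => (h i).v, fun b =>
    (SF.fsum _ fun i => (h i).d b).congr fun q hq _ => dv_sum _ fun i _ => (h i).md q hq _⟩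

theorem val_far (hS : Sup F S) (hk : 4 ≤ k) {g : P → F.H k p} {q₀ : P} (hg : ContinuousAt g q₀) :
    Tendsto (fun z : P × X.M => F.val k p (g z.1) z.2) (𝓝 q₀ ×ˢ cocompact X.M) (𝓝 0) := by
  refine NormedAddGroup.tendsto_nhds_zero.2 fun ε hε => ?_
  obtain ⟨u, hu⟩ := (F.dense_toH k p).exists_dist_lt (g q₀) (show 0 < ε / (√|S| + 1) by positivity)
  filter_upwards [prod_mem_prod ((hg.dist continuousAt_const).eventually_lt continuousAt_const hu)
    u.2.2.1.compl_mem_cocompact] with z hz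
  have h := norm_val_le hS hk (g z.1 - F.toH k p u) z.2
  have h1 : dist (g z.1) (F.toH k p u) < _ := hz.1
  rw [val_sub, val_toH hS hk, Pi.sub_apply, image_eq_zero_of_notMem_tsupport hz.2, sub_zero] at h
  rw [dist_eq_norm, lt_div_iff₀ (by positivity)] at h1
  nlinarith [norm_nonneg (g z.1 - F.toH k p u), Real.sqrt_nonneg |S|]

variable (F O) in
/-- smooth families with locally uniform compact support -/
def LC (f : P → X.M → V) : Prop := ∀ q ∈ O, ∃ U ∈ 𝓝 q, ∃ A, IsCompact A ∧ SB F U f ∧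
  ∀ u ∈ U, ∀ x ∉ A, f u x = 0

theorem LC.of_zero (h : ∀ q ∈ O, (∀ᶠ u in 𝓝 q, f u = 0) ∨ LC {q} F f) : LC O F f := fun q hq =>
  (h q hq).elim (fun h => ⟨_, h, ∅, isCompact_empty, (SB.fixed (Cb_const 0)).congr fun _ h => h,
    fun _ h x _ => congrFun h x⟩) fun h => h q rfl

theorem LC.add (h : LC O F f) (h' : LC O F f') : LC O F fun q x => f q x + f' q x := fun q hq =>
  let ⟨_, h1, _, h2, h3, h4⟩ := h q hq
  let ⟨_, k1, _, k2, k3, k4⟩ := h' q hq
  ⟨_, inter_mem h1 k1, _, h2.union k2, (h3.mono inter_subset_left).add (k3.mono inter_subset_right),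
    fun u hu x hx => by
      simp only [h4 u hu.1 x fun e => hx (.inl e), k4 u hu.2 x fun e => hx (.inr e), add_zero]⟩

theorem LC.sum {α : Type} (s : Finset α) {u : α → P → X.M → V} (h : ∀ i, LC O F (u i)) :
    LC O F fun q x => ∑ i ∈ s, u i q x := by
  classical
  induction s using Finset.induction_on with
  | empty => exact .of_zero fun _ _ => .inl (.of_forall fun _ => rfl)
  | insert i s hi ih => simpa only [Finset.sum_insert hi] using (h i).add ih

theorem LC.toH {F : Fr X.I X.M ι} {C : ℕ → ℝ} (hT : F.Tame C) {f : P → X.M → W}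
    (h : LC O F.toPre f) (hp : ∀ q ∈ O, ∀ x, p x (f q x) = f q x) (hk : 4 ≤ k) :
    ∃ g : P → F.H k p, ContDiffOn ℝ ∞ g O ∧ ∀ q ∈ O, F.val k p (g q) = f q := by
  classical
  let s : P → Sec X.I (triv X.M W) := fun q => if h : f q ∈ Sec X.I (triv X.M W) then ⟨_, h⟩ else 0
  have e : ∀ {U A}, IsCompact A → SB F.toPre U f → (∀ u ∈ U, ∀ x ∉ A, f u x = 0) → ∀ u ∈ U,
      f u ∈ Sec X.I (triv X.M W) := fun h2 h3 h4 u hu =>
    mem_triv (Cb.sm (h3.cb u hu)) (.intro h2 (h4 u hu))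
  refine ⟨fun q => (fg F.toPre k p).adjoint (F.toH k _ (s q)), fun q hq => ?_, fun q hq => ?_⟩ <;>
    obtain ⟨U, h1, A, h2, h3, h4⟩ := h q hq
  · obtain ⟨χ, c1, c2, -, c3⟩ := hT.exh A h2
    have e1 : ∀ u ∈ U, (s u).1 = f u := fun u hu => by simp only [s, dif_pos (e h2 h3 h4 u hu)]
    refine (((ContinuousLinearMap.contDiff _).comp_contDiffOn (SB.toH (h3.congr e1) (Cb_const _)
      (fun _ _ => rfl) c1.1 c2 fun u hu x => ?_)).contDiffAt h1).contDiffWithinAt
    by_cases hx : x ∈ A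
    · rw [c3 x hx, one_smul]
    · rw [e1 u hu, h4 u hu x hx, smul_zero]
  · have m := e h2 h3 h4 q (mem_of_mem_nhds h1)
    obtain ⟨v, hv, e2⟩ := rep_fg (F := F.toPre) (k := k) (p := p) ⟨f q, m.1, m.2.1, hp q hq⟩
    obtain rfl : s q = v := Subtype.ext (by simp only [s, dif_pos m, hv, id])
    beta_reduce
    rw [← e2, ← ContinuousLinearMap.comp_apply,
      ((fg F.toPre k p).norm_map_iff_adjoint_comp_self).1 norm_fg]
    exact val_toH (Sup.of_tame hT) hk _

end gen

variable {nc nr : ℕ}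

/-- the jet of a configuration in the directions of the slices -/
def JX (b : Bg X.I X.M κ lam ν nc) (c : Cfg X.M κ ν) (x : X.M) : Jt κ ν :=
  (fun k => c.a (some k) x, fun i k => b.F.D (some i) (c.a (some k)) x, c.Φ x,
    fun i => b.F.D (some i) c.Φ x)

section nk
variable {e : En3 κ lam ν} {b : Bg X.I X.M κ lam ν nc} (L : Nk e b) {c : Cfg X.M κ ν} {τ : ℝ}

theorem D_sl {V : Type} [NormedAddCommGroup V] [NormedSpace ℝ V] {f : X.M → V} (hτ : τ ∈ L.J)
    (hf : MDifferentiable X.I 𝓘(ℝ, V) f) (i : κ) (y : e.Y.M) :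
    e.D.F.D i (fun y => f (L.ψ (y, τ))) y = b.F.D (some i) f (L.ψ (y, τ)) :=
  ((D_ψ L (src L hτ y) f _).trans (D_some_at e.D.F.toPre ((hf _).comp _ ((L.iso.sm.contMDiffAt
    (L.ψ.open_source.mem_nhds (src L hτ y))).mdifferentiableAt (by simp))) i)).symm

theorem jt_pb (hτ : τ ∈ L.J) (ha : ∀ i, MDifferentiable X.I 𝓘(ℝ, ℝ) (c.a i))
    (hΦ : MDifferentiable X.I 𝓘(ℝ, Eu ν) c.Φ) (y : e.Y.M) :
    jt (sl (L.pb c) τ) y = JX b c (L.ψ (y, τ)) :=
  Prod.ext rfl (Prod.ext (funext₂ fun i _ => D_sl L hτ (ha _) i y)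
    (Prod.ext rfl (funext fun i => D_sl L hτ hΦ i y)))

theorem ψ_far {s : Bool} (h : L.Inf s) : Tendsto L.ψ (nd e.Y.M s) (cocompact X.M) := by
  refine hasBasis_cocompact.tendsto_right_iff.2 fun A hA => ?_
  obtain ⟨C, hC⟩ := hA.exists_bound_of_continuousOn L.cont.continuousOn
  filter_upwards [ev_ψ L h, nd_basis.mem_of_mem (i := C) trivial] with x hx h1 h2
  have := hC _ h2
  rw [L.tm_ψ x hx, Real.norm_eq_abs, ← Wal9.abs_pm s] at this
  exact (this.trans_lt (h1.trans_le (le_abs_self _))).false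

end nk

variable {N : Type} [Fintype N] {d : Dt κ lam ν} {ty : N → d.𝓔}
  {T : Type} [NormedAddCommGroup T] [NormedSpace ℝ T] [FiniteDimensional ℝ T]
  {s : Pz X 0 fun i => d.e (ty i)} (σ : Cel s nc nr T) {k : ℕ}

/-- the configuration of a point of the model in the frame of the site -/
def c0 (v : σ.C k) : Cfg X.M κ ν :=
  ⟨fun a x => (s.base σ.β).a a x + s.bg.F.val _ _ v.1 x a,
    fun x => (s.base σ.β).Φ x + s.bg.F.val _ _ v.2.1 x⟩

/-- the configuration of a point of the model -/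
def cv (v : σ.C k) : Cfg X.M κ ν :=
  ⟨fun a x => ∑ b, σ.S v.2.2 x a b * (c0 σ v).a b x, (c0 σ v).Φ⟩

variable {σ} (h : σ.toFam.OK) (hβ : s.Cr σ.β) (hk : 4 ≤ k)
include h

theorem isOpen_U : IsOpen (σ.U k) := h.opn.preimage continuous_snd.snd

theorem supS : Sup s.bg.F.toPre (h.site.bg.tame.choose 0) := Sup.of_tame h.site.bg.tame.choose_spec

include hβ hk

theorem cv_pt (y : σ.Pnt) : cv σ (σ.pt k y) = y.1.2 := by
  refine Cfg.ext (funext₂ fun a x => ?_) (funext fun x => ?_)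
  · simp only [cv, c0, val_a h hβ (by omega : 3 ≤ k), PiLp.sub_apply, add_sub_cancel]
    exact S_al h y.2.1 ((adm_fam h y.2.1 _).1 y.2.2.1).2 a x
  · simp only [cv, c0, val_Φ h hβ (by omega : 3 ≤ k), Pi.sub_apply, add_sub_cancel]

theorem d1_c0 (ha : Continuous a) (b : Option κ) :
    D1 a (σ.U k) s.bg.F.toPre fun v : σ.C k => (c0 σ v).a b :=
  (D1.sb ha (.fixed (cb_base_a hβ b))).add
    ((D1.val ha (supS h) hk contDiffOn_fst).clm (EuclideanSpace.proj b))

theorem d1_Φ (ha : Continuous a) : D1 a (σ.U k) s.bg.F.toPre fun v : σ.C k => (cv σ v).Φ :=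
  (D1.sb ha (.fixed (cb_base_Φ hβ))).add (D1.val ha (supS h) hk contDiff_snd.fst.contDiffOn)

theorem d1_a (ha : Continuous a) (b : Option κ) :
    D1 a (σ.U k) s.bg.F.toPre fun v : σ.C k => (cv σ v).a b :=
  .sum fun c => (D1.sb ha ((h.sS b c).reparam contDiff_snd.snd.contDiffOn fun _ hv => hv)).smul
    (d1_c0 h hβ hk ha c)

theorem sf_JX (ha : Continuous a) :
    SF (σ.U k) fun (v : σ.C k) z => JX (σ.P v.2.2).bg (cv σ v) (a z) := by
  have hS := fun b c => sf_sb ha ((h.sS b c).reparam (O' := σ.U k) contDiff_snd.snd.contDiffOn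
    fun _ hv => hv)
  have h1 := d1_a h hβ hk ha
  have h2 := d1_Φ h hβ hk ha
  have h3 : ∀ i j, SF (σ.U k) fun (v : σ.C k) z => (σ.P v.2.2).bg.F.D i ((cv σ v).a j) (a z) :=
    fun i j => (SF.fsum _ fun b => (hS i b).smul ((h1 j).d b)).congr
      fun v hv _ => congrFun ((h.mix _ hv).D _ _) _
  have h4 : ∀ i, SF (σ.U k) fun (v : σ.C k) z => (σ.P v.2.2).bg.F.D i (cv σ v).Φ (a z) :=
    fun i => (SF.fsum _ fun b => (hS i b).smul (h2.d b)).congr
      fun v hv _ => congrFun ((h.mix _ hv).D _ _) _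
  exact (SF.pi fun j => (h1 (some j)).v).prod ((SF.pi fun i => SF.pi fun j => h3 (some i)
    (some j)).prod (h2.v.prod (SF.pi fun i => h4 (some i))))

theorem jt_cv {v : σ.C k} (hv : v ∈ σ.U k) {e : En3 κ lam ν} {nc' : ℕ} {b : Bg X.I X.M κ lam ν nc'}
    (L : Nk e b) {τ : ℝ} (hτ : τ ∈ L.J) (y : e.Y.M) :
    jt (sl (L.pb (cv σ v)) τ) y = JX b (cv σ v) (L.ψ (y, τ)) :=
  jt_pb L hτ (fun i => (d1_a h hβ hk (a := Empty.elim) (by fun_prop) i).md v hv)
    ((d1_Φ h hβ hk (a := Empty.elim) (by fun_prop)).md v hv) y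

/-- far out on an end the slices are close to the limit, locally uniformly -/
theorem jt_far {i : N} {L : Nk (d.e (ty i)) s.bg} (hL : L ∈ s.nk i) {b : Bool} (hb : L.Inf b)
    {v₀ : σ.C k} (hv : v₀ ∈ σ.U k) :
    Tendsto (fun z : σ.C k × (d.e (ty i)).Y.M × ℝ => jt (sl (L.pb (cv σ z.1)) z.2.2) z.2.1 -
      jt (σ.β i b) z.2.1) (𝓝 v₀ ×ˢ nd _ b) (𝓝 0) := by
  have hS := supS h
  have t0 := (tendsto_id (x := 𝓝 v₀)).prodMap (ψ_far L hb)
  have t1 := (val_far hS (by omega) (continuousAt_fst (p := v₀))).comp t0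
  have t2 := fun j => (val_far hS hk (((DH s.bg.F.toPre k s.bg.p1 j).continuous.comp
    continuous_fst).continuousAt (x := v₀))).comp t0
  have t3 := (val_far hS (by omega) (continuous_snd.fst.continuousAt (x := v₀))).comp t0
  have t4 := fun j => (val_far hS hk (((DH s.bg.F.toPre k s.bg.pp j).continuous.comp
    continuous_snd.fst).continuousAt (x := v₀))).comp t0
  have p := fun j => ((EuclideanSpace.proj (𝕜 := ℝ) (some j : Option κ)).continuous.tendsto' 0 0
    (map_zero _))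
  refine ((tendsto_pi_nhds.2 fun j => (p j).comp t1).prodMk_nhds ((tendsto_pi_nhds.2 fun j =>
    tendsto_pi_nhds.2 fun l => (p l).comp (t2 (some j))).prodMk_nhds (t3.prodMk_nhds
      (tendsto_pi_nhds.2 fun j => t4 (some j))))).congr' ?_
  obtain ⟨R, -, hR⟩ := nd_basis.eventually_iff.1 ((ev_J L hb).and ((eventually_all.2 fun j =>
    base_ev h.site (g := fun i s => (fz (σ.β i s)).a (some j)) hL hb).and
      (base_ev h.site (g := fun i s => (fz (σ.β i s)).Φ) hL hb)))
  filter_upwards [prod_mem_prod ((isOpen_U h).mem_nhds hv) (nd_basis.mem_of_mem (i := R) trivial)]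
    with ⟨v, y, τ⟩ hz
  have hτ : τ ∈ L.J := (hR hz.2).1
  have ab := adm_base hβ
  have m1 := fun j => (ab.sa j).mdifferentiable (by simp)
  have m2 := ab.sΦ.mdifferentiable (by simp)
  have v1 := val_DH hS hk v.1
  have v2 := val_DH hS hk v.2.1
  have m3 := fun j => (EuclideanSpace.proj (𝕜 := ℝ) (j : Option κ)).mdifferentiable.comp v1.1
  have e1 : σ.β i b = sl (L.pb (s.base σ.β)) τ := YC.ext
    (funext₂ fun j y => ((hR (x := (y, τ)) hz.2).2.1 j).symm) (funext fun y => (hR (x := (y, τ)) hz.2).2.2.symm)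
  have e2 : sl (L.pb (cv σ v)) τ = sl (L.pb (c0 σ v)) τ := YC.ext (funext₂ fun j y => by
    simp only [sl, Cfg.pb, cv, c0, S_nk h hz.1 hL (src L hτ y), mul_add, Finset.sum_add_distrib, ab.pa]
    rw [← p1_apply, val_proj hS (by omega)]) rfl
  rw [e2, e1, jt_pb L hτ (fun j => (m1 j).add (m3 j)) (m2.add v2.1), jt_pb L hτ m1 m2]
  refine Eq.symm (sub_eq_of_eq_add' ?_)
  refine Prod.ext rfl (Prod.ext (funext₂ fun j l => ?_) (Prod.ext rfl (funext fun j => ?_)))
  · exact (dv_add (m1 _ _) (m3 _ _)).trans (congrArg _ ((dv_clm _ (v1.1 _)).trans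
      (congrArg _ (congrFun (v1.2 _) _))))
  · exact (dv_add (m2 _) (v2.1 _)).trans (congrArg _ (congrFun (v2.2 _) _))

end Crest.Agent.X212.St29
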