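import Crest.Agent.X212.St29.Jx

/-!
# Row 212, SW-MAP (helper29): the averaged level is jointly smooth and converges on the ends
-/

set_option autoImplicit false
set_option linter.unusedSectionVars false
noncomputable section
open scoped Manifold ContDiff Topology InnerProductSpace
open MeasureTheory Set Function Filter

namespace Crest.Agent.X212.St29
open An hiding Cfg Pt
open Cyf70 Sw Sw.En3 Sob92 Prm93 Pb50
open Win39 (Jt jt lJ)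
open Nd18 (Jv Dp ct)
open M (Mf pm)

variable {κ lam ν : Type} [Fintype κ] [Fintype lam] [Fintype ν] [DecidableEq ν] {X : Mf 4}
  {P : Type} [NormedAddCommGroup P] [NormedSpace ℝ P] {O : Set P} {nc nr : ℕ}

theorem sm_int {m : P × ℝ → ℝ} (hO : IsOpen O) (hm : ContDiffOn ℝ ∞ m (O ×ˢ univ))
    (h0 : ∀ q ∈ O, ∃ R, ∀ᶠ u in 𝓝 q, ∀ t, R < |t| → m (u, t) = 0) :
    ContDiffOn ℝ ∞ (fun q => ∫ t, m (q, t)) O := fun q hq => by
  obtain ⟨R, hR⟩ := h0 q hq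
  refine (((SF.intI0 (a := -R) (b := R) (F := fun q t => m (q, t))
    (SF.compOn (hO.prod isOpen_univ) hm ((SF.par contDiffOn_id).prod (.fix continuous_subtype_val))
      fun _ h _ => ⟨h, trivial⟩)).contDiffAt (hO.mem_nhds hq)).congr_of_eventuallyEq
        (hR.mono fun u hu => ?_)).contDiffWithinAt
  exact (setIntegral_eq_integral_of_forall_compl_eq_zero fun t ht =>
    hu t (not_le.1 fun k => ht (abs_le.1 k))).symm

section nk
variable {e : En3 κ lam ν} {b : Bg X.I X.M κ lam ν nc} (L : Nk e b) {c : Cfg X.M κ ν} {τ : ℝ}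

/-- the averaged level, through jets -/
def lbJ (c : e.ZC) (s : ℝ) : ℝ := av fun r => lJ (jt (sl c (s + r - 1 / 2)))

theorem lb_eq (H : e.OK) (hc : b.Adm c) (hτ : τ ∈ Dp L.p L.q 1) : lb (L.pb c) τ = lbJ (L.pb c) τ := by
  rw [lb, lbJ, Wal9.av_eq, Wal9.av_eq]
  refine setIntegral_congr_fun measurableSet_Ioo fun r hr => ?_
  have := Wal9.sa_pb L hc (half_J L hτ (Ioo_subset_Icc_self (Wal9.mem_Wn hr)))
  simp only [Win39.L_jt H this.a this.P]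

theorem cont_ψ {A : Type} [TopologicalSpace A] {t : A → ℝ} (ht : Continuous t) (hJ : ∀ x, t x ∈ L.J) :
    Continuous fun z : A × e.Y.M => L.ψ (z.2, t z.1) :=
  L.ψ.continuousOn.comp_continuous (by fun_prop) fun z => src L (hJ _) _

theorem oc_J : OrdConnected L.J :=
  ⟨fun _ hx _ hy _ h => ⟨fun a ha => (hx.1 a ha).trans_le h.1, fun a ha => h.2.trans_lt (hy.2 a ha)⟩⟩

theorem push {ι V : Type} [Fintype ι] (F : Pre X.I X.M ι) [NormedAddCommGroup V] [NormedSpace ℝ V]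
    {m : P × ℝ → ℝ} (hO : IsOpen O) (hm : ContDiffOn ℝ ∞ m (O ×ˢ univ)) {a a' : ℝ}
    (hJ : Icc a a' ⊆ L.J) (h0 : ∀ q ∈ O, ∀ t ∉ Icc a a', m (q, t) = 0) {g : e.Y.M → V}
    (hg : Sm e.Y.I g) {f : P → X.M → V} (hf : ∀ q ∈ O, ∀ x, f q x = m (q, L.tm x) • g (L.ψ.symm x).1) :
    ∃ A, IsCompact A ∧ SB F O f ∧ ∀ u ∈ O, ∀ x ∉ A, f u x = 0 := by
  have hs : (univ : Set e.Y.M) ×ˢ Icc a a' ⊆ L.ψ.source := fun z hz => L.mem_src.2 (hJ hz.2)
  have hA := (isCompact_univ.prod isCompact_Icc).image_of_continuousOn (L.ψ.continuousOn.mono hs)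
  have z : ∀ u ∈ O, ∀ x ∉ L.ψ '' (univ ×ˢ Icc a a'), f u x = 0 := fun u hu x hx => by
    rw [hf u hu, h0 u hu _ fun k => hx ?_, zero_smul]
    have ht : x ∈ L.ψ.target := L.tgt ▸ hJ k
    exact ⟨_, ⟨trivial, L.snd_symm ht ▸ k⟩, L.ψ.right_inv ht⟩
  have js : JS X.I O f := fun q hq x => by
    have n : ∀ᶠ z : P × X.M in 𝓝 (q, x), z.1 ∈ O := continuousAt_fst.eventually (hO.mem_nhds hq)
    by_cases hx : x ∈ L.ψ.target
    · have n' := L.ψ.open_target.mem_nhds hx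
      have s := (L.iso.sm'.contMDiffAt n').comp (q, x) (contMDiffAt_snd (I := 𝓘(ℝ, P)))
      refine JAt.congr (f := fun u x => m (u, (L.ψ.symm x).2) • g (L.ψ.symm x).1)
        (((hm.contDiffAt ((hO.prod isOpen_univ).mem_nhds ⟨hq, trivial⟩)).contMDiffAt.comp (q, x)
          (contMDiffAt_fst.prodMk_space s.snd)).smul ((hg _).comp (q, x) s.fst)) ?_
      filter_upwards [n, (continuousAt_snd (p := (q, x))).eventually n'] with z h1 h2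
      rw [hf _ h1, L.snd_symm h2]
    · refine JAt.congr (f := fun _ _ => 0) contMDiffAt_const ?_
      filter_upwards [n, (continuousAt_snd (p := (q, x))).eventually (hA.isClosed.isOpen_compl.mem_nhds
        fun ⟨y, hy, (k : _ = x)⟩ => hx (k ▸ L.ψ.map_source (hs hy)))] with w h1 h2 using z _ h1 _ h2
  exact ⟨_, hA, Prm93.Fam.sb hA hO ⟨js, fun q hq => Cb_of_hcs (js.sm hq) (.intro hA (z q hq)),
    fun q hq u hu x hx => by rw [z q hq x hx, z u hu x hx]⟩, z⟩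

end nk

variable {N : Type} [Fintype N] {d : Dt κ lam ν} {ty : N → d.𝓔}
  {T : Type} [NormedAddCommGroup T] [NormedSpace ℝ T] [FiniteDimensional ℝ T]
  {s : Pz X 0 fun i => d.e (ty i)} {i : N} {t₀ : T}

/-- near `t₀` the neck `i` is a reparametrisation of the neck `K₀` -/
structure Rp (𝓕 : Sw.Fam s nc T) (i : N) (t₀ : T) (K₀ : Nk (d.e (ty i)) (𝓕.P t₀).bg)
    (ℓ : T × ℝ → ℝ) (V : Set T) : Prop where
  mem₀ : K₀ ∈ (𝓕.P t₀).nk i
  op : IsOpen V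
  mem : t₀ ∈ V
  sub : V ⊆ 𝓕.Q
  sm : ContDiffOn ℝ ∞ ℓ (V ×ˢ univ)
  pos : ∀ t ∈ V, ∀ r, 0 < deriv (fun r => ℓ (t, r)) r
  nk : ∀ t ∈ V, ∃ K ∈ (𝓕.P t).nk i, K.p = K₀.p.map (fun a => ℓ (t, a)) ∧
    K.q = K₀.q.map (fun a => ℓ (t, a)) ∧ (∀ y, ∀ r ∈ K₀.J, K.ψ (y, ℓ (t, r)) = K₀.ψ (y, r)) ∧
      SurjOn (fun r => ℓ (t, r)) K₀.J K.J
  inf : ∀ b, K₀.Inf b → ℓ = Prod.snd

section fam
variable {𝓕 : Sw.Fam s nc T}

theorem rp_end (h : 𝓕.OK) (ht : t₀ ∈ 𝓕.Q) {L : Nk (d.e (ty i)) s.bg} (hL : L ∈ s.nk i) :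
    ∃ K₀, Rp 𝓕 i t₀ K₀ Prod.snd 𝓕.Q := by
  obtain ⟨K₀, h1, h2⟩ := h.en t₀ ht i L hL
  refine ⟨K₀, h1, h.opn, ht, subset_rfl, contDiffOn_snd, fun _ _ _ => by simp, fun t ht => ?_,
    fun _ _ => rfl⟩
  obtain ⟨K, h3, h4⟩ := h.en t ht i L hL
  have := h4.trans h2.symm
  exact ⟨K, h3, by simp [ng_p this], by simp [ng_q this], fun _ _ _ => by rw [ng_ψ this],
    fun r hr => ⟨r, Wal9.ng_J this ▸ hr, rfl⟩⟩

theorem rp_or_off (h : 𝓕.OK) (ht : t₀ ∈ 𝓕.Q) (i : N) :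
    (∀ᶠ t in 𝓝 t₀, (𝓕.P t).Off i) ∨ ∃ K₀ ℓ V, Rp 𝓕 i t₀ K₀ ℓ V := by
  cases e : s.nk i with
  | some L => exact .inr ((rp_end h ht e).imp fun _ k => ⟨_, _, k⟩)
  | none =>
    refine (h.nk t₀ ht i e).imp_right fun ⟨K₀, h0, a, b, hp, hq, ℓ, V, hV, h1, h2⟩ => ?_
    refine ⟨K₀, ℓ, interior V ∩ 𝓕.Q, h0, isOpen_interior.inter h.opn,
      ⟨mem_interior_iff_mem_nhds.2 hV, ht⟩, inter_subset_right, h1.mono fun z hz =>
        ⟨interior_subset hz.1.1, trivial⟩, fun t k => (h2 t (interior_subset k.1)).1, fun t k => ?_,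
      fun b hb => by cases b <;> simp [Nk.Inf, hp, hq] at hb⟩
    obtain ⟨h3, K, h4, h5, h6, h7⟩ := h2 t (interior_subset k.1)
    simp only [Nd18.Nk.J, hp, hq, Win39.Jv_some]
    refine ⟨K, h4, h5, h6, h7, ?_⟩
    rw [h5, h6, Win39.Jv_some]
    exact intermediate_value_Ioo (by linarith [K₀.len a hp b hq]) fun r _ =>
      (differentiableAt_of_deriv_ne_zero (h3 r).ne').continuousAt.continuousWithinAt

variable {K₀ : Nk (d.e (ty i)) (𝓕.P t₀).bg} {ℓ : T × ℝ → ℝ} {V : Set T} (R : Rp 𝓕 i t₀ K₀ ℓ V)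
  {t : T} (ht : t ∈ V)
include R ht

theorem Rp.mono : StrictMono fun r => ℓ (t, r) := strictMono_of_deriv_pos (R.pos t ht)

theorem Rp.at (r : ℝ) : ContDiffAt ℝ ∞ ℓ (t, r) :=
  R.sm.contDiffAt ((R.op.prod isOpen_univ).mem_nhds ⟨ht, trivial⟩)

theorem Rp.maps {r : ℝ} (hr : r ∈ K₀.J) :
    ℓ (t, r) ∈ Jv (K₀.p.map fun a => ℓ (t, a)) (K₀.q.map fun a => ℓ (t, a)) :=
  ⟨fun _ ha => let ⟨a, h, e⟩ := Option.mem_map.1 ha; e ▸ R.mono ht (hr.1 a h),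
    fun _ ha => let ⟨a, h, e⟩ := Option.mem_map.1 ha; e ▸ R.mono ht (hr.2 a h)⟩

end fam

variable {σ : Cel s nc nr T} {k : ℕ}

variable (σ i) in
/-- the averaged level on the neck `i` -/
def lbF (z : σ.C k × ℝ) : ℝ := ((σ.P z.1.2.2).nk i).elim 0 fun K => lbJ (K.pb (cv σ z.1)) z.2

variable (h : σ.toFam.OK) (hβ : s.Cr σ.β) (hk : 4 ≤ k)
include h hβ hk

theorem lbF_at {K₀ : Nk (d.e (ty i)) (σ.P t₀).bg} {ℓ : T × ℝ → ℝ} {V : Set T}
    (R : Rp σ.toFam i t₀ K₀ ℓ V) {v : σ.C k} (hv : v.2.2 ∈ V) {τ : ℝ}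
    (hτ : τ ∈ Dp (K₀.p.map fun a => ℓ (v.2.2, a)) (K₀.q.map fun a => ℓ (v.2.2, a)) 1) :
    ContDiffAt ℝ ∞ (lbF i σ) (v, τ) := by
  obtain ⟨K, -, h1, h2, -, h3⟩ := R.nk _ hv
  rw [← h1, ← h2] at hτ
  obtain ⟨a, ha, e1⟩ := h3 (show τ - 3 / 4 ∈ K.J from
    ⟨fun a ha => by linarith [hτ.1 a ha], fun a ha => by linarith [hτ.2 a ha]⟩)
  obtain ⟨b, hb, e2⟩ := h3 (show τ + 3 / 4 ∈ K.J from
    ⟨fun a ha => by linarith [hτ.1 a ha], fun a ha => by linarith [hτ.2 a ha]⟩)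
  have hJ := (oc_J K₀).out ha hb
  have c : ContDiff ℝ ∞ fun v : σ.C k => v.2.2 := contDiff_snd.snd
  have hO := R.op.preimage c.continuous
  have n := (continuousAt_fst (p := (v, τ))).eventually (hO.mem_nhds hv)
  have cl := fun r => ((R.at hv r).continuousAt.comp (x := (v, τ)) (f := fun z : σ.C k × ℝ =>
    (z.1.2.2, r)) (by fun_prop)).tendsto
  refine ((sm_av (ℓ := fun z : σ.C k × ℝ => ℓ (z.1.2.2, z.2)) hO (R.sm.comp
    ((c.comp contDiff_fst).prodMk contDiff_snd).contDiffOn fun z hz => ⟨hz.1, trivial⟩)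
    (fun v hv => R.pos _ hv) ((R.mono hv).le_iff_le.1 (e1.trans_le (Eq.trans_ge e2 (by linarith))))
    (g := fun v r => lJ fun y => JX (σ.P v.2.2).bg (cv σ v) (K₀.ψ (y, r)))
    (G := fun v τ => ((σ.P v.2.2).nk i).elim 0 fun K => lJ (jt (sl (K.pb (cv σ v)) τ)))
    (sf_lJ (h.site.en i) ((sf_JX h hβ hk (cont_ψ K₀ continuous_subtype_val fun x => hJ x.2)).mono
      fun v hv => R.sub hv)) fun v hv r hr => ?_).contDiffAt (inter_mem n (inter_mem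
      ((cl a).eventually_lt (by fun_prop : ContinuousAt (fun z : σ.C k × ℝ => z.2 - 1 / 2) _)
        (by change ℓ (v.2.2, a) < τ - 1 / 2; linarith [show ℓ (v.2.2, a) = _ from e1]))
      ((by fun_prop : ContinuousAt (fun z : σ.C k × ℝ => z.2 + 1 / 2) _).eventually_lt (cl b)
        (by change τ + 1 / 2 < ℓ (v.2.2, b); linarith [show ℓ (v.2.2, b) = _ from e2]))))).congr_of_eventuallyEq
    (n.mono fun z hz => ?_)
  · obtain ⟨K, k0, k1, k2, k3, -⟩ := R.nk _ hv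
    rw [Option.mem_def.1 k0]
    refine congrArg lJ (funext fun y => ?_)
    rw [jt_cv h hβ hk (R.sub hv) K (by simpa only [Nd18.Nk.J, k1, k2] using R.maps hv (hJ hr)),
      k3 y r (hJ hr)]
  · obtain ⟨K, k0, -⟩ := R.nk _ hz
    simp only [lbF, Option.mem_def.1 k0, Option.elim_some, lbJ]

omit hβ hk in
theorem lbF_end {L : Nk (d.e (ty i)) s.bg} (hL : L ∈ s.nk i) {z : σ.C k × ℝ} (hz : z.1 ∈ σ.U k) :
    lbF i σ z = lbJ (L.pb (cv σ z.1)) z.2 := by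
  obtain ⟨K, h1, h2⟩ := h.en _ hz i L hL
  simp only [lbF, Option.mem_def.1 h1, Option.elim_some, Wal9.ng_pb h2]

theorem cont_jt {L : Nk (d.e (ty i)) s.bg} (hL : L ∈ s.nk i) {v : σ.C k} (hv : v ∈ σ.U k)
    {A : Type} [TopologicalSpace A] [CompactSpace A] {τ : A → ℝ} (hτ : Continuous τ)
    (hJ : ∀ x, τ x ∈ L.J) :
    Continuous fun z : A × (d.e (ty i)).Y.M => jt (sl (L.pb (cv σ v)) (τ z.1)) z.2 := by
  obtain ⟨K, -, h2⟩ := h.en _ hv i L hL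
  rw [← Wal9.ng_J h2] at hJ
  simp only [← Wal9.ng_pb h2, jt_cv h hβ hk hv K (hJ _)]
  exact (sf_JX h hβ hk (cont_ψ K hτ hJ)).cont hv

/-- far out on an end the averaged level is close to the level of the limit -/
theorem lb_far {L : Nk (d.e (ty i)) s.bg} (hL : L ∈ s.nk i) {b : Bool} (hb : L.Inf b)
    {v₀ : σ.C k} (hv : v₀ ∈ σ.U k) {A : Set ℝ} (hA : A ∈ 𝓝 (En3.L (σ.β i b))) :
    ∃ r, ∀ᶠ v in 𝓝 v₀, ∀ τ, r < pm b * τ → lbF i σ (v, τ) ∈ A := by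
  obtain ⟨ε, hε, hA⟩ := Metric.nhds_basis_closedBall.mem_iff.1 hA
  have H := h.site.en i
  have hc := (hβ i b ⟨L, hL, hb⟩).1
  obtain ⟨δ, hδ, h1⟩ := Metric.continuousAt_iff.1 ((sm_lJ H).continuous.continuousAt
    (x := ⟨jt (σ.β i b), Win39.cont_jt (Win39.sm_a hc) (Win39.sm_P hc)⟩)) ε hε
  obtain ⟨U, hU, B, hB, h2⟩ := eventually_prod_iff.1
    (NormedAddGroup.tendsto_nhds_zero.1 (jt_far h hβ hk hL hb hv) δ hδ)
  obtain ⟨r, -, h3⟩ := nd_basis.eventually_iff.1 (hB.and (ev_J L hb))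
  refine ⟨r + 1, (hU.and ((isOpen_U h).mem_nhds hv)).mono fun v hv τ hτ => hA ?_⟩
  have m : ∀ p ∈ Icc (0 : ℝ) 1, ∀ y, B (y, τ + p - 1 / 2) ∧ τ + p - 1 / 2 ∈ L.J := fun p hp y =>
    h3 (x := (y, τ + p - 1 / 2)) (by
      cases b <;> simp only [pm, mem_ofPred_eq, Bool.false_eq_true, if_false, if_true] at hτ ⊢ <;>
        linarith [hp.1, hp.2])
  obtain ⟨y₀⟩ : Nonempty (d.e (ty i)).Y.M := inferInstance
  have c := cont_jt h hβ hk hL hv.2 (τ := fun p : Icc (0 : ℝ) 1 => τ + p - 1 / 2) (by fun_prop)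
    fun p => (m p p.2 y₀).2
  have c1 : ContinuousOn (fun p => lJ (jt (sl (L.pb (cv σ v)) (τ + p - 1 / 2)))) (Icc 0 1) :=
    continuousOn_iff_continuous_domRestrict.2 (Win39.cont_lJ H (j := fun p : Icc (0 : ℝ) 1 =>
      jt (sl (L.pb (cv σ v)) (τ + p - 1 / 2))) c)
  rw [lbF_end h hL (z := (v, τ)) hv.2, Metric.mem_closedBall, Real.dist_eq, lbJ]
  refine Wal9.av_near (c1.mono Ioo_subset_Icc_self) fun p hp => ?_
  have c2 : Continuous (jt (sl (L.pb (cv σ v)) (τ + p - 1 / 2))) :=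
    c.comp (.prodMk_right (⟨p, Ioo_subset_Icc_self hp⟩ : Icc (0 : ℝ) 1))
  rw [Win39.L_jt H (Win39.sm_a hc) (Win39.sm_P hc)]
  refine (h1 (x := ⟨_, c2⟩) ((ContinuousMap.dist_lt_iff hδ).2 fun y => ?_)).le
  rw [dist_eq_norm]
  exact @h2 v hv.1 (y, _) (m p (Ioo_subset_Icc_self hp) y).1

end Crest.Agent.X212.St29
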