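import Crest.Agent.X212.Lev39.Dat
import Crest.Agent.X212.Mol27.Phi
import Crest.Agent.X212.Cut21.Defs

/-!
# X212 / St29 (helper29): the leaves of the data of stage `-1`
-/

set_option autoImplicit false
set_option linter.unusedSectionVars false

open Set Filter Topology Function
open scoped ContDiff Manifold NNReal
open Crest.GeometryTopology.DehnSurgery Crest.Agent.X212.Glue52 Crest.Agent.X212.Ext52
open Crest.Agent.X212.Sm10 Crest.Agent.X212.Hp13 Crest.Agent.X212.Mol27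

noncomputable section

namespace Crest.Agent.X212.St29

/-- the thresholds -/
structure Thr (e a b c : ℝ) : Prop where
  h0 : 4 * e ≤ a
  h1 : a + 6 * e ≤ b
  h2 : b + 6 * e ≤ c
  h3 : c ≤ 1 / 14

/-- I1: every sheet of the surface reaches the boundary -/
def I1Stmt : Prop := ∀ (P : Type) [PartialOrder P] [Fintype P] (A : Set P) (z : P → P → ℤ)
  (δ a b c : ℝ) (L : LC E3 A δ), IsUpperSet A → Zc A z → Cut21.NC A z →
  Thr (Fintype.card P * δ) a b c → ∀ p ∈ L.U, L.m p ≤ a → L.phi z c p = -1 →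
    ∃ S : Set E3, IsPreconnected S ∧ p ∈ S ∧ (∃ q ∈ S, a < L.m q) ∧
      ∀ q ∈ S, q ∈ L.U ∧ L.m q < b ∧ L.phi z c q ≠ 1

/-- I2: climbing along the boundary -/
def I2Stmt : Prop := ∀ (P : Type) [PartialOrder P] [Fintype P] (A : Set P) (z : P → P → ℤ)
  (δ a b c : ℝ) (L : LC E3 A δ), IsUpperSet A → Zc A z → Ind26.CondD A z →
  Thr (Fintype.card P * δ) a b c → ∀ p ∈ L.U, ∀ u : ℝ, a < L.m p → L.m p < b → 0 < u →
    L.phi z c p = Circle.exp u → ∃ S : Set (E3 × ℝ), IsPreconnected S ∧ (p, u) ∈ S ∧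
      (∃ q ∈ S, u + 1 ≤ q.2) ∧ ∀ q ∈ S, q.1 ∈ L.U ∧ a < L.m q.1 ∧ L.m q.1 < b ∧ 0 < q.2 ∧
        L.phi z c q.1 = Circle.exp q.2

/-- MU: a smoothing of the PL radius -/
def MuStmt : Prop := ∀ k : KD, ∃ η₀ : ℝ≥0, 0 < η₀ ∧ ∀ η ≤ η₀, ∀ (s : St) (g : Geo k η s) (δ : ℝ),
  0 < δ → ∃ μ : E3 → ℝ, ContDiff ℝ ∞ μ ∧
    (∀ (y u : Circle) (r : ℝ), 1 / 2 ≤ r → r ≤ 5 / 2 →
      0 < deriv (fun r : ℝ => μ (tb k.toTube (y, r * u))) r) ∧
    ∀ p, 1 / 2 ≤ rho k.toTube p → ∀ x y, δ ≤ g.R.lam x p → δ ≤ g.R.lam y p →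
      fderiv ℝ μ p (g.R.x y - g.R.x x) = g.ρ (g.R.x y) - g.ρ (g.R.x x)

end Crest.Agent.X212.St29
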