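import Crest.Agent.X212.Wal9.Mo
import Crest.Agent.X212.St29.Om

/-!
# Row 212, SW-MAP (helper29): the functional is a smooth function of the jet; averages
-/

set_option autoImplicit false
set_option linter.unusedSectionVars false
noncomputable section
open scoped Manifold ContDiff Topology InnerProductSpace
open MeasureTheory Set Function Filter

namespace Crest.Agent.X212.St29
open An hiding Cfg Pt
open Cyf70 Sw Sw.En3 Sob92 Win39

variable {κ lam ν : Type} [Fintype κ] [Fintype lam] [Fintype ν] [DecidableEq ν] {e : En3 κ lam ν}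
  {K : Type} [TopologicalSpace K] [CompactSpace K] {P : Type} [NormedAddCommGroup P]
  [NormedSpace ℝ P] {O : Set P} {N : Type} [NormedAddCommGroup N] [NormedSpace ℝ N]

theorem SF.curry {K' : Type} [TopologicalSpace K'] [CompactSpace K'] {f : P → K × K' → N}
    (h : SF O f) : ∃ g : P → K → C(K', N), SF O g ∧ ∀ p ∈ O, ∀ x y, g p x y = f p (x, y) := by
  obtain ⟨g, h1, h2⟩ := h
  have : SF univ fun (u : C(K × K', N)) x => u.curry x := SF.lin (fun u => u.curry.continuous)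
    (fun _ _ _ => rfl) (fun _ _ _ => rfl) (C := 1) fun u x =>
      (ContinuousMap.norm_le _ (by positivity)).2 fun y => (u.norm_coe_le_norm _).trans_eq (one_mul _).symm
  exact ⟨_, this.reparam h1 fun _ _ => trivial, fun p hp x y => h2 p hp _⟩

section jet
variable {y : K → e.Y.M} {j : P → K → Jt κ ν}

theorem sf_o1 {a : P → K → κ → N} (ha : SF O a) (i : Option κ) : SF O fun p x => o1 (a p x) i := by
  cases i
  exacts [.const _, ha.apply _]

theorem sf_o2 {a : P → K → κ → κ → ℝ} (ha : SF O a) (i k : Option κ) :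
    SF O fun p x => o2 (a p x) i k := by
  cases i <;> cases k
  exacts [.const _, .const _, .const _, (ha.apply _).apply _]

variable (H : e.OK) (hy : Continuous y) (hj : SF O j)
include H hy

theorem sf_p2 {f : P → K → F2 κ} (hf : SF O f) : SF O fun p x => e.cyl.p2 (y x, 0) (f p x) :=
  (SF.fsum Finset.univ fun s => (hf.ofLp s).smul (.fix (cont_p2 H hy
    (continuous_const (y := EuclideanSpace.basisFun _ ℝ s))))).congr fun p _ x => by
    conv_lhs => rw [← (EuclideanSpace.basisFun _ ℝ).sum_repr (f p x), map_sum]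
    simp

include hj

theorem sf_jW (i : Option κ) : SF O fun p x => jW e (y x) (j p x) i :=
  (SF.fix (c0 (sm_A H i).continuous hy)).add
    ((sf_o1 hj.fst i).smul (.fix (c0 (sm_jp H).continuous hy)))

theorem sf_jD (i k : Option κ) : SF O fun p x => jD e (y x) (j p x) i k :=
  (SF.fix (c0 (e.D.Z.sm_D (sm_A H k) i).continuous hy)).add
    (((sf_o2 hj.snd.fst i k).smul (.fix (c0 (sm_jp H).continuous hy))).add
      ((sf_o1 hj.fst k).smul (.fix (c0 (e.D.Z.sm_D (sm_jp H) i).continuous hy))))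

theorem sf_jF : SF O fun p x => jF e (y x) (j p x) := by
  have hW := sf_jW H hy hj
  have hD := sf_jD H hy hj
  refine SF.toLp fun s => (SF.const _).mul
    ((SF.fix (hsL.continuous.comp (c0 (sm_jp H).continuous hy))).inner (SF.clm hsL ?_))
  exact (((hD _ _).sub (hD _ _)).add (((hW _).mul (hW _)).sub ((hW _).mul (hW _)))).sub
    (.fsum _ fun k => (SF.fix (c0 (e.D.Z.c_sm _ _ k).continuous hy)).smul (hW k))

theorem sf_jC : SF O fun p x => jC e (y x) (j p x) := by
  have hP := hj.snd.snd.fst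
  have h1 : SF O fun p x => e.cyl.qd (y x, 0) (j p x).2.2.1 (j p x).2.2.1 :=
    SF.toLp fun s => (SF.const _).mul ((SF.clm e.m.J ((SF.fix (cont_ρ H hy _)).app
      ((SF.fix (cont_ρ H hy _)).app hP))).inner hP)
  exact (sf_p2 H hy ((sf_jF H hy hj).sub ((SF.const e.w).smul h1))).sub
    (.fix (c0 H.cyl.com.choose_spec.1.continuous hy))

theorem sf_jE : SF O fun p x => jE e (y x) (j p x) :=
  (SF.fsum _ fun i => (SF.fix (cont_ρ H hy i)).app ((sf_o1 hj.snd.snd.snd i).add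
    ((sf_jW H hy hj i).app hj.snd.snd.fst))).add
      ((SF.fix (c0 H.cyl.cms.choose_spec.1.continuous hy)).app hj.snd.snd.fst)

end jet

variable (O) in
/-- smooth families of continuous configurations -/
def SC (u : P → K → e.YC) : Prop := (∀ k, SF O fun p (z : K × e.Y.M) => (u p z.1).a k z.2) ∧
  SF O fun p (z : K × e.Y.M) => (u p z.1).Φ z.2

variable {u u' : P → K → e.YC} {j : P → K → e.Y.M → Jt κ ν}

theorem SC.nm (h : SC O u) : SF O fun p x => nm (u p x) :=
  (h.2.comp (contDiff_norm_sq ℝ)).int e.D.F.μ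

theorem SC.ip (h : SC O u) (h' : SC O u') : SF O fun p x => ip (u p x) (u' p x) :=
  (((SF.const 2).mul (.fsum _ fun k => (h.1 k).mul (h'.1 k))).add
    ((SF.const e.w).mul (h.2.inner h'.2))).int e.D.F.μ

theorem SC.hol (H : e.OK) (h : SC O u) : SF O fun p x => hol (u p x) :=
  ((SF.const 4).mul (.fsum _ fun k => ((SF.fix (H.sζ.continuous.comp continuous_snd)).ofLp
    (none, some k)).mul (h.1 k))).int e.D.F.μ

theorem sc_vJ (hj : SF O fun p (z : K × e.Y.M) => j p z.1 z.2) : SC O fun p x => vJ (j p x) :=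
  ⟨fun k => hj.fst.apply k, hj.snd.snd.fst⟩

theorem sc_gJ (H : e.OK) (hj : SF O fun p (z : K × e.Y.M) => j p z.1 z.2) :
    SC O fun p x => gJ (j p x) := by
  have h1 := (sf_jC H continuous_snd hj).add (((((sc_vJ hj).hol H).comp
    (contDiff_infty_iff_deriv.1 H.sf).2).pull continuous_fst).smul
      (.fix (H.sζ.continuous.comp continuous_snd)))
  exact ⟨fun k => (SF.const 2).mul (h1.ofLp _), ((SF.fix (cont_ρ H continuous_snd none)).app
    (sf_jE H continuous_snd hj)).neg.sub ((((sc_vJ hj).nm.comp H.sb).pull continuous_fst).smul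
      hj.snd.snd.fst)⟩

theorem sm_lJ (H : e.OK) : ContDiff ℝ ∞ fun u : C(e.Y.M, Jt κ ν) => lJ u := by
  have h1 : SF univ fun (u : C(e.Y.M, Jt κ ν)) (z : Icc (0 : ℝ) 1 × e.Y.M) => u z.2 :=
    SF.self.pull continuous_snd
  have h2 := (sc_gJ H (j := fun (u : C(e.Y.M, Jt κ ν)) (r : Icc (0 : ℝ) 1) => (r : ℝ) • ⇑u)
    ((SF.fix (continuous_subtype_val.comp continuous_fst)).smul h1)).ip
      (sc_vJ (j := fun (u : C(e.Y.M, Jt κ ν)) _ => u) h1)
  refine contDiffOn_univ.1 ((SF.intI0 (F := fun (u : C(e.Y.M, Jt κ ν)) r =>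
    ip (gJ (r • ⇑u)) (vJ u)) h2).congr fun u _ => ?_)
  rw [lJ, intervalIntegral.integral_of_le zero_le_one, integral_Icc_eq_integral_Ioc]

theorem sf_lJ (H : e.OK) (hj : SF O fun p (z : K × e.Y.M) => j p z.1 z.2) :
    SF O fun p x => lJ (j p x) :=
  let ⟨_, h1, h2⟩ := hj.curry
  (h1.comp (sm_lJ H)).congr fun p hp x => congrArg lJ (funext fun y => (h2 p hp x y).symm)

theorem sm_dl {ℓ : P × ℝ → ℝ} (hO : IsOpen O) (h : ContDiffOn ℝ ∞ ℓ (O ×ˢ univ)) :
    ContDiffOn ℝ ∞ (fun z : P × ℝ => deriv (fun σ => ℓ (z.1, σ)) z.2) (O ×ˢ univ) := by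
  have ho := hO.prod (isOpen_univ (X := ℝ))
  refine ((h.fderiv_of_isOpen ho (m := ∞) le_rfl).clm_apply
    (contDiffOn_const (c := ((0 : P), (1 : ℝ))))).congr fun z hz => ?_
  exact (((h.contDiffAt (ho.mem_nhds hz)).differentiableAt (by simp)).hasFDerivAt.comp_hasDerivAt z.2
    ((hasDerivAt_const z.2 z.1).prodMk (hasDerivAt_id z.2))).deriv

/-- averages in a moving time coordinate -/
theorem sm_av {ℓ : P × ℝ → ℝ} (hO : IsOpen O) (h : ContDiffOn ℝ ∞ ℓ (O ×ˢ univ))
    (hd : ∀ p ∈ O, ∀ σ, 0 < deriv (fun σ => ℓ (p, σ)) σ) {a b : ℝ} (hab : a ≤ b) {g G : P → ℝ → ℝ}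
    (hg : SF O fun p (z : Icc a b) => g p z) (hG : ∀ p ∈ O, ∀ σ ∈ Icc a b, G p (ℓ (p, σ)) = g p σ) :
    ContDiffOn ℝ ∞ (fun z : P × ℝ => av fun r => G z.1 (z.2 + r - 1 / 2))
      {z | z.1 ∈ O ∧ ℓ (z.1, a) < z.2 - 1 / 2 ∧ z.2 + 1 / 2 < ℓ (z.1, b)} := by
  set Ω := {z : P × ℝ | z.1 ∈ O ∧ ℓ (z.1, a) < z.2 - 1 / 2 ∧ z.2 + 1 / 2 < ℓ (z.1, b)}
  have ho := hO.prod (isOpen_univ (X := ℝ))
  have h0 : SF Ω fun z (x : Icc a b) => (z.1, (x : ℝ)) :=
    (SF.par contDiffOn_fst).prod (.fix continuous_subtype_val)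
  have m : ∀ z ∈ Ω, ∀ x : Icc a b, (z.1, (x : ℝ)) ∈ O ×ˢ univ := fun z hz _ => ⟨hz.1, trivial⟩
  have hb : ContDiff ℝ ∞ bp := (contDiff_infty_iff_deriv.1 Real.smoothTransition.contDiff).2
  refine (SF.intI0 (F := fun (z : P × ℝ) σ => deriv (fun σ => ℓ (z.1, σ)) σ *
    (bp (ℓ (z.1, σ) - z.2 + 1 / 2) * g z.1 σ)) ((h0.compOn ho (sm_dl hO h) m).mul
      (((((h0.compOn ho h m).sub (.par contDiffOn_snd)).add (.const _)).comp hb).mul
        (hg.reparam contDiffOn_fst fun z hz => hz.1)))).congr fun z hz => ?_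
  have d : ∀ σ, DifferentiableAt ℝ (fun σ => ℓ (z.1, σ)) σ := fun σ =>
    differentiableAt_of_deriv_ne_zero (hd _ hz.1 σ).ne'
  have e1 := integral_image_eq_integral_abs_deriv_smul (s := Icc a b) measurableSet_Icc
    (fun σ _ => (d σ).hasDerivAt.hasDerivWithinAt) (strictMono_of_deriv_pos (hd _ hz.1)).injective.injOn
    fun τ => bp (τ - z.2 + 1 / 2) * G z.1 τ
  rw [setIntegral_eq_integral_of_forall_compl_eq_zero fun τ hτ => by
    rw [Pb50.bp_zero fun k => hτ (intermediate_value_Icc hab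
      (fun σ _ => (d σ).continuousAt.continuousWithinAt) ⟨by linarith [k.1, hz.2.1],
        by linarith [k.2, hz.2.2]⟩), zero_mul]] at e1
  rw [av, ← integral_add_right_eq_self _ (1 / 2 - z.2)]
  refine Eq.trans (congrArg _ (funext fun τ => ?_)) (e1.trans (setIntegral_congr_fun measurableSet_Icc
    fun σ hσ => by simp only [abs_of_pos (hd _ hz.1 σ), hG _ hz.1 σ hσ, smul_eq_mul]))
  congr 2 <;> ring

end Crest.Agent.X212.St29
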