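import Crest.Agent.X212.St29.SbA
import Crest.Agent.X212.Dgr80.E1b

/-!
# Row 212, SB (helper29): cut-off functions
-/

set_option autoImplicit false
set_option linter.unusedSectionVars false
noncomputable section
open scoped Manifold ContDiff Topology InnerProductSpace Classical
open MeasureTheory Set Function Filter

namespace Crest.Agent.X212.St29.Sb
open An Wz78 Sob92 Mp86 Nd18 Nka63
open Dgr80 (cA ct_le dct_le one_le_cA deriv_off)

section gen
variable {E : Type} [NormedAddCommGroup E] [NormedSpace ℝ E] [FiniteDimensional ℝ E]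
  [MeasurableSpace E] [BorelSpace E]
  {HM : Type} [TopologicalSpace HM] {I : ModelWithCorners ℝ E HM} [I.Boundaryless]
  {M : Type} [TopologicalSpace M] [ChartedSpace HM M] [IsManifold I ∞ M]
  [MeasurableSpace M] [T2Space M] [BorelSpace M] {ι : Type} [Fintype ι]
  {F : Fr I M ι} {N : ℝ} {f g : M → ℝ}

theorem Chi.const (hN : 0 ≤ N) {c : ℝ} (hc : |c| ≤ 1) : Chi F N fun _ => c :=
  ⟨contMDiff_const, fun _ => hc, fun x => by simpa [Pre.D_def, Mp86.dv_const] using hN,
    fun x => by simpa [Lop_const] using hN⟩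

theorem Chi.loc (h : ∀ x, ∃ g, Chi F N g ∧ f =ᶠ[𝓝 x] g) : Chi F N f := by
  choose g h1 h2 using h
  refine ⟨fun x => ((h1 x).sm x).congr_of_eventuallyEq (h2 x), fun x => (h2 x).eq_of_nhds ▸ (h1 x).le x,
    fun x => le_of_eq_of_le (Finset.sum_congr rfl fun i _ => ?_) ((h1 x).d1 x),
    fun x => (congrArg abs (Lop_congr (h2 x))).trans_le ((h1 x).d2 x)⟩
  exact congrArg (· ^ 2) (Mp86.dv_congr (h2 x))

theorem Chi.ind (h : Chi F N f) (hN : 0 ≤ N) {U : Set M} (hU : IsClopen U) :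
    Chi F N (U.indicator f) := .loc fun x => by
  by_cases hx : x ∈ U
  · exact ⟨_, h, eventually_of_mem (hU.2.mem_nhds hx) fun y hy => indicator_of_mem hy _⟩
  · exact ⟨_, .const hN (c := 0) (by simp), eventually_of_mem (hU.1.isOpen_compl.mem_nhds hx)
      fun y hy => indicator_of_notMem hy _⟩

theorem Chi.one_sub (h : Chi F N f) (h0 : ∀ x, 0 ≤ f x) : Chi F N fun x => 1 - f x := by
  have m := fun x => (h.sm x).mdifferentiableAt (by simp)
  refine ⟨contMDiff_const.sub h.sm, fun x => abs_le.2 ⟨by linarith [le_of_abs_le (h.le x)],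
    by linarith [h0 x]⟩, fun x => le_of_eq_of_le (Finset.sum_congr rfl fun i _ => ?_) (h.d1 x),
    fun x => ?_⟩
  · have := Mp86.dv_sub (v := F.e i) (mdifferentiableAt_const (c := (1 : ℝ))) (m x)
    rw [Mp86.dv_const, zero_sub] at this
    exact (congrArg (· ^ 2) this).trans (neg_sq _)
  · rw [Lop_sub (vf F.toPre x) contMDiffAt_const (cm2 h.sm x), Lop_const, zero_sub, abs_neg]
    exact h.d2 x

theorem Chi.mul (h : Chi F N f) (k : Chi F N g) : Chi F (4 * N) fun x => f x * g x := by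
  have m := fun x => (h.sm x).mdifferentiableAt (by simp)
  have m' := fun x => (k.sm x).mdifferentiableAt (by simp)
  have s : ∀ {t : ℝ}, |t| ≤ 1 → t ^ 2 ≤ 1 := fun e => (sq_le_one_iff_abs_le_one _).2 e
  refine ⟨h.sm.mul k.sm, fun x => (abs_mul _ _).trans_le (mul_le_one₀ (h.le x) (abs_nonneg _) (k.le x)),
    fun x => ?_, fun x => ?_⟩
  · refine (Finset.sum_le_sum (g := fun i => 2 * F.D i f x ^ 2 + 2 * F.D i g x ^ 2) fun i _ => ?_).trans ?_
    · have e : F.D i (fun x => f x * g x) x = F.D i f x * g x + f x * F.D i g x :=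
        Mp86.dv_mul (v := F.e i) (m x) (m' x)
      rw [e]
      nlinarith [mul_le_mul_of_nonneg_left (s (h.le x)) (sq_nonneg (F.D i g x)),
        mul_le_mul_of_nonneg_left (s (k.le x)) (sq_nonneg (F.D i f x)),
        sq_nonneg (F.D i f x * g x - f x * F.D i g x)]
    · rw [Finset.sum_add_distrib, ← Finset.mul_sum, ← Finset.mul_sum]
      linarith [h.d1 x, k.d1 x]
  · rw [Lop_mul_fun (vf F.toPre x) (cm2 h.sm x) (cm2 k.sm x)]
    have b1 := abs_le.1 ((abs_mul _ _).trans_le (mul_le_mul (h.d2 x) (k.le x) (abs_nonneg _)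
      ((abs_nonneg _).trans (h.d2 x))))
    have b2 := abs_le.1 ((abs_mul _ _).trans_le (mul_le_mul (h.le x) (k.d2 x) (abs_nonneg _)
      zero_le_one))
    have b3 : ∀ t : ℝ, t = 1 ∨ t = -1 → 2 * (t * ∑ a, F.D a f x * F.D a g x) ≤
        ∑ a, F.D a f x ^ 2 + ∑ a, F.D a g x ^ 2 := fun t ht => by
      rw [Finset.mul_sum, Finset.mul_sum, ← Finset.sum_add_distrib]
      refine Finset.sum_le_sum fun a _ => ?_
      rcases ht with rfl | rfl
      exacts [by nlinarith [sq_nonneg (F.D a f x - F.D a g x)],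
        by nlinarith [sq_nonneg (F.D a f x + F.D a g x)]]
    change |_ + _ + 2 * ∑ a, F.D a f x * F.D a g x| ≤ _
    exact abs_le.2 ⟨by linarith [b3 (-1) (.inr rfl), h.d1 x, k.d1 x, b1.1, b2.1],
      by linarith [b3 1 (.inl rfl), h.d1 x, k.d1 x, b1.2, b2.2]⟩

theorem Chi.prod {J : Type} (T : Finset J) {f : J → M → ℝ} (hN : 0 ≤ N) (h : ∀ j, Chi F N (f j)) :
    Chi F (4 ^ T.card * N) fun x => ∏ j ∈ T, f j x := by
  induction T using Finset.induction_on with
  | empty => simpa using Chi.const hN (c := 1) (by simp)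
  | insert j T hj ih =>
    simp only [Finset.prod_insert hj, Finset.card_insert_of_notMem hj, pow_succ', mul_assoc]
    exact ((h j).mono (le_mul_of_one_le_left hN (one_le_pow₀ (by norm_num)))).mul ih

/-- `Q` is an arc length parameter at `x` -/
def Arc (F : Fr I M ι) (Q : M → ℝ) (x : M) : Prop :=
  ∑ i, F.D i Q x ^ 2 ≤ 1 ∧ Lop I F.e F.dv Q x = 0

theorem Arc.congr {Q Q' : M → ℝ} {x : M} (h : Arc F Q x) (e : Q' =ᶠ[𝓝 x] Q) : Arc F Q' x :=
  ⟨le_of_eq_of_le (Finset.sum_congr rfl fun _ _ => congrArg (· ^ 2) (Mp86.dv_congr e)) h.1,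
    (Lop_congr e).trans h.2⟩

theorem Arc.sub {Q : M → ℝ} {x : M} (h : Arc F Q x) (hQ : Sm I Q) (L : ℝ) :
    Arc F (fun y => L - Q y) x := by
  refine ⟨le_of_eq_of_le (Finset.sum_congr rfl fun i _ => ?_) h.1, ?_⟩
  · have := Mp86.dv_sub (v := F.e i) (mdifferentiableAt_const (c := L))
      ((hQ x).mdifferentiableAt (by simp))
    rw [Mp86.dv_const, zero_sub] at this
    exact (congrArg (· ^ 2) this).trans (neg_sq _)
  · rw [Lop_sub (vf F.toPre x) contMDiffAt_const (cm2 hQ x), Lop_const, h.2, sub_zero]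

theorem arc_prd [DecidableEq ι] {τ : M → ℝ} {a₀ : ι} {O : Set M} (P : Dgr80.Prd F τ a₀ O) {x : M}
    (hx : x ∈ O) : Arc F τ x := by
  refine ⟨by simp [P.dτ x hx], Finset.sum_eq_zero fun a _ => ?_⟩
  have e1 : dv I (F.e a) (dv I (F.e a) τ) x = 0 := P.D_zero (fun y hy => P.dτ y hy a) hx a
  have e2 : dv I (F.e a) τ x = if a = a₀ then 1 else 0 := P.dτ x hx a
  rw [e1, e2]
  split_ifs with k
  · simp [k, P.dv x hx]
  · simp

/-- the constant of the cut-off functions -/
def nA : ℝ := cA ^ 2 + cA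

theorem nA_pos : 0 < nA := by have := one_le_cA; unfold nA; positivity

theorem ct_off {p q : Option ℝ} {d s : ℝ} (h : s ∉ Dq p q d ∨ s ∈ Dq p q (d + 1)) :
    deriv (ct p q d) s = 0 ∧ deriv (deriv (ct p q d)) s = 0 := by
  have c1 := Dgr80.cd_deriv (contDiff_ct (p := p) (q := q) (d := d))
  rcases h with h | h
  · have z : ∀ {k : ℝ → ℝ}, ContDiff ℝ ∞ k → (∀ s ∉ Dq p q d, k s = 0) →
        ∀ s ∉ Dq p q d, deriv k s = 0 := fun {k} hk h0 s hs => by
      rcases not_and_or.1 (mt mem_Dq.2 hs) with e | e <;> push Not at e <;> obtain ⟨a, rfl, e⟩ := e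
      · exact (uniqueDiffOn_Iic s s self_mem_Iic).eq_deriv _ (hk.differentiable (by simp)
          s).hasDerivAt.hasDerivWithinAt ((hasDerivWithinAt_const s _ 0).congr (fun t ht => h0 t
            fun k => by linarith [(mem_Dq.1 k).1 a rfl, show t ≤ s from ht]) (h0 s hs))
      · exact (uniqueDiffOn_Ici s s self_mem_Ici).eq_deriv _ (hk.differentiable (by simp)
          s).hasDerivAt.hasDerivWithinAt ((hasDerivWithinAt_const s _ 0).congr (fun t ht => h0 t
            fun k => by linarith [(mem_Dq.1 k).2 a rfl, show s ≤ t from ht]) (h0 s hs))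
    exact ⟨z contDiff_ct (fun _ => ct_zero') s h, z c1 (z contDiff_ct fun _ => ct_zero') s h⟩
  · have e : ∀ s ∈ Dq p q (d + 1), deriv (ct p q d) s = 0 := fun s hs => by
      rw [EventuallyEq.deriv_eq (f := fun _ => (1 : ℝ)) (mem_of_superset (isOpen_Dq.mem_nhds hs)
        fun _ k => ct_one (Dq_sub_Dp k)), deriv_const]
    refine ⟨e s h, ?_⟩
    rw [EventuallyEq.deriv_eq (f := fun _ => (0 : ℝ)) (mem_of_superset (isOpen_Dq.mem_nhds h) e),
      deriv_const]

/-- cut-off functions of an arc length parameter -/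
theorem chi_of {Q : M → ℝ} (hQ : Sm I Q) {p q : Option ℝ} {d : ℝ}
    (o : ∀ x, Arc F Q x ∨ deriv (ct p q d) (Q x) = 0 ∧ deriv (deriv (ct p q d)) (Q x) = 0) :
    Chi F nA fun x => ct p q d (Q x) := by
  have c0 := contDiff_ct (p := p) (q := q) (d := d)
  have c1 := Dgr80.cd_deriv c0
  have A0 := zero_le_one.trans one_le_cA
  refine ⟨sm_comp c0 hQ, fun x => (abs_of_nonneg ct_mem.1).trans_le ct_mem.2, fun x => ?_, fun x => ?_⟩
  · simp only [D_time hQ c0, smul_eq_mul, mul_pow, ← Finset.sum_mul]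
    rcases o x with k | k
    · refine (mul_le_mul k.1 ((sq_abs _).symm.trans_le (pow_le_pow_left₀ (abs_nonneg _) dct_le 2))
        (sq_nonneg _) zero_le_one).trans ?_
      unfold nA; linarith
    · simpa [k.1] using nA_pos.le
  · rw [Lop_comp (vf F.toPre x) (cm2 hQ x)
      (.of_forall fun t => (c0.differentiable (by simp) t).hasDerivAt)
      (c1.differentiable (by simp) _).hasDerivAt]
    rcases o x with k | k
    · have b : |deriv (deriv (ct p q d)) (Q x)| ≤ cA := by simpa [iteratedDeriv_succ] using ct_le 2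
      rw [k.2, mul_zero, add_zero, abs_mul]
      refine (mul_le_mul b ((abs_of_nonneg (by positivity)).trans_le k.1) (abs_nonneg _) A0).trans ?_
      unfold nA; nlinarith
    · simpa [k.1, k.2] using nA_pos.le

theorem chi_ct {Q : M → ℝ} (hQ : Sm I Q) {p q : Option ℝ} {d : ℝ}
    (h : ∀ x, Q x ∈ Dq p q d → Q x ∉ Dq p q (d + 1) → Arc F Q x) :
    Chi F nA fun x => ct p q d (Q x) := chi_of hQ fun x => by
  by_cases k : Q x ∈ Dq p q d ∧ Q x ∉ Dq p q (d + 1)
  exacts [.inl (h x k.1 k.2), .inr (ct_off ((not_and_or.1 k).imp id not_not.1))]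

/-- `1` up to `a - 1`, `0` from `a` on -/
abbrev dn (a : ℝ) : ℝ → ℝ := ct none (some a) 0

theorem dn_zero {a u : ℝ} (h : a ≤ u) : dn a u = 0 :=
  ct_zero' fun k => by linarith [(mem_Dq.1 k).2 a rfl]

theorem dn_one {a u : ℝ} (h : u ≤ a - 1) : dn a u = 1 :=
  ct_one ⟨fun _ k => (nomatch k), fun _ k => Option.some.inj k ▸ by linarith⟩

theorem chi_dn {Q : M → ℝ} (hQ : Sm I Q) {a : ℝ} (h : ∀ x, a - 1 < Q x → Q x < a → Arc F Q x) :
    Chi F nA fun x => dn a (Q x) := chi_of hQ fun x => by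
  have z : ∀ {k : ℝ → ℝ} {c : ℝ}, ContDiff ℝ ∞ k → (∀ s ≤ a - 1, k s = c) →
      ∀ s ≤ a - 1, deriv k s = 0 := fun {k c} hk h0 s hs =>
    (uniqueDiffOn_Iic s s self_mem_Iic).eq_deriv _ (hk.differentiable (by simp)
      s).hasDerivAt.hasDerivWithinAt ((hasDerivWithinAt_const s _ c).congr
        (fun t ht => h0 t (le_trans ht hs)) (h0 s hs))
  have z1 := z (contDiff_ct (p := none) (q := some a) (d := 0)) fun _ => dn_one
  rcases le_or_gt (Q x) (a - 1) with k | k
  · exact .inr ⟨z1 _ k, z (Dgr80.cd_deriv contDiff_ct) z1 _ k⟩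
  · rcases le_or_gt a (Q x) with k' | k'
    exacts [.inr (ct_off (.inl fun e => by linarith [(mem_Dq.1 e).2 a rfl])), .inl (h x k k')]

end gen

end Crest.Agent.X212.St29.Sb
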