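import Crest.Agent.X212.St29.SbG
import Crest.Agent.X212.St29.SbE
import Crest.Agent.X212.Pat85.Fj

/-!
# Row 212, SB (helper29): depth in the two long necks, the local bound of the spinor
-/

set_option autoImplicit false
set_option linter.unusedSectionVars false
noncomputable section
open scoped Manifold ContDiff Topology InnerProductSpace Classical
open MeasureTheory Set Function Filter

namespace Crest.Agent.X212.St29.Sb
open An M Nd18 Nka63
open An.Job (Sol)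
open Loc8 (hb)
open Cht98 (hZ)
open Fin37 (Ix nk core th Pm)
open Dgr80 (LB θc cA)

/-- reflection of the time -/
def rf (e : Bool) (L r : ℝ) : ℝ := bif e then L - r else r

theorem rf_rf (e : Bool) (L r : ℝ) : rf e L (rf e L r) = r := by cases e <;> simp [rf]

theorem rf_mem {e : Bool} {L r d : ℝ} : (d < rf e L r ∧ rf e L r < L - d) ↔ d < r ∧ r < L - d := by
  cases e
  exacts [.rfl, ⟨fun h => by simp only [rf, cond_true] at h; constructor <;> linarith [h.1, h.2],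
    fun h => by simp only [rf, cond_true]; constructor <;> linarith [h.1, h.2]⟩]

theorem len_mono {t : ℝ} (ht : t < 1) : StrictMono (len t false) := fun _ _ h =>
  strictMonoOn_len t false (.inl ht) (.inl ht) h

theorem cd_len {t : ℝ} (ht : t < 1) : ContDiff ℝ ∞ (len t false) :=
  contDiffOn_univ.1 ((contDiffOn_len t false).mono fun _ _ => .inl ht)

variable {κ lam : Type} [Fintype κ] [Fintype lam] [DecidableEq lam]
  {X : Mf 4} {A : Type} [Fintype A] {M : Mark X A κ}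
  {Wi : Type} {W : World M} {N : ML M lam} {Λ : Lns W N} {A' h : Type} [Fintype A']
  [DecidableEq A'] [Fintype h] {r n : ℕ} {J : Job Wi Λ A' h r n} {c : M.Cl} {s : A' → ℝ}

section one
variable {x : A} (hx : Act J.m c x none (J.Θ s))

/-- the neck -/
abbrev ix : Ix J c s := ⟨(x, none), hx⟩

variable (J c s x) in
/-- the depth, measured from the end on the side `e` -/
def dp (e : Bool) (z : (W.Z c).M) : ℝ :=
  rf e (nl ((J.Θ s).2 x)) (len ((J.Θ s).2 x) false (hZ W.toCaps c x z))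

variable {e : Bool} {z : (W.Z c).M} {d : ℝ}
include hx

theorem lt1 : (J.Θ s).2 x < 1 := hx.2.2.1 x hx.2.2.2.2.1

theorem sm_dp : Sm (W.Z c).I (dp J c s x e) := by
  have k : Sm (W.Z c).I fun z => len ((J.Θ s).2 x) false (hZ W.toCaps c x z) :=
    Sob92.sm_comp (cd_len (lt1 hx)) (Cht98.sm_hZ W.toCaps (.inr hx.2.2.2.2.1))
  cases e
  exacts [k, contMDiff_const.sub k]

theorem dp_pos : 0 < dp J c s x e z ↔ hb W.toCaps c x e z < 1 := by
  have m := len_mono (lt1 hx)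
  cases e
  · rw [dp, rf, cond_false, ← len_pm ((J.Θ s).2 x) false, m.lt_iff_lt, hb]
    simp only [pm, Bool.false_eq_true, if_false]
    constructor <;> intro <;> linarith
  · rw [dp, rf, cond_true, sub_pos, nl, m.lt_iff_lt, hb]
    simp [pm]

variable (hJ : J.OK)
include hJ

theorem ix_p : (nk J (ix hx)).p = some 0 := (hJ.nk _ _ _ _ hx).lo

theorem ix_q : (nk J (ix hx)).q = some (nl ((J.Θ s).2 x)) := (hJ.nk _ _ _ _ hx).hi

theorem mem_tgt : z ∈ (nk J (ix hx)).ψ.target ↔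
    0 < dp J c s x e z ∧ dp J c s x e z < nl ((J.Θ s).2 x) := by
  have m := len_mono (lt1 hx)
  have := rf_mem (e := e) (L := nl ((J.Θ s).2 x)) (d := 0)
    (r := len ((J.Θ s).2 x) false (hZ W.toCaps c x z))
  rw [sub_zero] at this
  rw [Pat85.nk_target hJ, mem_preimage, Cht98.act_Hs hx, dp, this, nl, m.lt_iff_lt,
    ← len_pm ((J.Θ s).2 x) false, m.lt_iff_lt]
  simp [pm]

theorem dp_tm (hz : z ∈ (nk J (ix hx)).ψ.target) :
    dp J c s x e z = rf e (nl ((J.Θ s).2 x)) ((nk J (ix hx)).tm z) :=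
  congrArg _ (Cht98.isNk_tm hx (hJ.nk _ _ _ _ hx) hz).symm

theorem mem_O (hd : 0 ≤ d) : z ∈ O (nk J (ix hx)) d ↔
    d < dp J c s x e z ∧ dp J c s x e z < nl ((J.Θ s).2 x) - d := by
  have k : z ∈ O (nk J (ix hx)) d ↔ d < (nk J (ix hx)).tm z ∧
      (nk J (ix hx)).tm z < nl ((J.Θ s).2 x) - d := by
    rw [O, mem_preimage, mem_Dq, ix_p hx hJ, ix_q hx hJ]; simp
  refine ⟨fun h => ?_, fun h => ?_⟩
  · rw [dp_tm hx hJ (O_sub _ hd h), rf_mem]; exact k.1 h
  · rwa [dp_tm hx hJ ((mem_tgt hx hJ).2 ⟨by linarith [h.1], by linarith [h.2]⟩), rf_mem, ← k] at h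

theorem arc_dp (p : Pm J c s) (hz : z ∈ O (nk J (ix hx)) 1) : Arc (J.G c s).F (dp J c s x e) z := by
  have a := arc_prd (pn (nk J (ix hx)) (hJ.xs _).1.yd (Λ.B_ok _ _) (p.ok hJ).1 le_rfl).toPrd hz
  have k : dp J c s x e =ᶠ[𝓝 z] fun z => rf e (nl ((J.Θ s).2 x)) ((nk J (ix hx)).τ z) :=
    eventually_of_mem ((isOpen_O _).mem_nhds hz) fun y hy =>
      (dp_tm hx hJ (O_sub _ zero_le_one hy)).trans (congrArg _ (τ_eq _ hy).symm)
  cases e
  exacts [a.congr k, (a.sub (nk J (ix hx)).sm_τ _).congr k]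

theorem chi_dp (p : Pm J c s) {a : ℝ} (h1 : 2 ≤ a) (h2 : a + 1 ≤ nl ((J.Θ s).2 x)) :
    Chi (J.G c s).F nA fun z => dn a (dp J c s x e z) :=
  chi_dn (sm_dp hx) fun _ k k' => arc_dp hx hJ p ((mem_O (e := e) hx hJ zero_le_one).2
    ⟨by linarith, by linarith⟩)

end one

section two
variable {x : Bool → A} {z : (W.Z c).M} {b : Bool → ℝ} {U : Set (W.Z c).M} {e : Bool}

variable (J c s x) in
/-- `1` between the depths `b e - 1` -/
def G2 (b : Bool → ℝ) (z : (W.Z c).M) : ℝ :=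
  dn (b true) (dp J c s (x true) true z) * dn (b false) (dp J c s (x false) false z)

variable (J c s x) in
/-- the cut-off of the outer part of `U` -/
def Y2 (U : Set (W.Z c).M) (b : Bool → ℝ) : (W.Z c).M → ℝ := U.indicator fun z => 1 - G2 J c s x b z

theorem G2_mem : G2 J c s x b z ∈ Icc (0 : ℝ) 1 :=
  ⟨mul_nonneg ct_mem.1 ct_mem.1, mul_le_one₀ ct_mem.2 ct_mem.1 ct_mem.2⟩

theorem Y2_mem : Y2 J c s x U b z ∈ Icc (0 : ℝ) 1 := by
  have := G2_mem (J := J) (s := s) (x := x) (b := b) (z := z)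
  by_cases k : z ∈ U
  · rw [Y2, indicator_of_mem k]; exact ⟨sub_nonneg.2 this.2, sub_le_self _ this.1⟩
  · rw [Y2, indicator_of_notMem k]; exact ⟨le_rfl, zero_le_one⟩

theorem Y2_ne (k : Y2 J c s x U b z ≠ 0) : z ∈ U ∧ ∃ e, b e - 1 < dp J c s (x e) e z :=
  have m := mem_of_indicator_ne_zero k
  ⟨m, by_contra fun u => k (by
    push Not at u
    rw [Y2, indicator_of_mem m, G2, dn_one (u true), dn_one (u false), mul_one, sub_self])⟩

theorem Y2_one (m : z ∈ U) (k : b e ≤ dp J c s (x e) e z) : Y2 J c s x U b z = 1 := by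
  rw [Y2, indicator_of_mem m, G2]
  cases e <;> simp [dn_zero k]

variable (hx : ∀ e, Act J.m c (x e) none (J.Θ s)) (hJ : J.OK) (p : Pm J c s)
include hx hJ p

theorem chi_Y2 (hU : IsClopen U) (hb : ∀ e, 2 ≤ b e ∧ b e + 1 ≤ nl ((J.Θ s).2 (x e))) :
    Chi (J.G c s).F (4 * nA) (Y2 J c s x U b) :=
  (((chi_dp (hx true) hJ p (hb true).1 (hb true).2).mul
    (chi_dp (hx false) hJ p (hb false).1 (hb false).2)).one_sub fun _ => G2_mem.1).ind
    (by have := nA_pos; positivity) hU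

end two

theorem Ps.clopen {C : Caps M} {a : A} {x : Bool → A} (P : Ps C c a x) :
    IsClopen {z | 0 < hZ C c a z} :=
  have k := (Cht98.sm_hZ C (.inl ⟨P.ac, P.np⟩)).continuous
  ⟨(Set.ext fun z => (Cht98.hZ_ne C P.ac P.np z).symm.le_iff_lt :
      {z | 0 ≤ hZ C c a z} = {z | 0 < hZ C c a z}) ▸ isClosed_le continuous_const k,
    isOpen_lt continuous_const k⟩

/-- **the spinor is bounded on head and tail** -/
theorem c0_two {σ q} {y : J.Obc c} {a : A} {x : Bool → A} {v K : ℝ} (hJ : J.OK) (hσ : σ ∈ J.𝒦)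
    (S : Sol σ q y) (P : Ps W.toCaps c a x) (g : Ge J c y.s (Rs W.toCaps c a x) v)
    (hb : ∃ σ, ∀ z, ‖y.x.Φ z‖ ^ 2 ≤ σ) (nm : Nm (J.G c y.s) y.x (J.τ c q y.s) K) (K1 : 1 ≤ K)
    (hx : ∀ e, Act J.m c (x e) none (J.Θ y.s)) (hL : ∀ e, 3 ≤ nl ((J.Θ y.s).2 (x e))) {z e}
    (h0 : 0 < hZ W.toCaps c a z) (h2 : 2 ≤ dp J c y.s (x e) e z) :
    ‖y.x.Φ z‖ ^ 2 ≤ kL v K (4 * nA) := by
  have p : Pm J c y.s := ⟨σ, hσ, S.cell, S.inf⟩
  obtain ⟨_, hb⟩ := hb
  obtain ⟨hG, _, t⟩ := p.ok hJ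
  refine sol_loc (Mp86.bumps_of_tame _ t) (Λ.B_ok _ _) hG S.sol hb nm K1
    (chi_Y2 (b := fun _ => 2) hx hJ p P.clopen fun e => ⟨le_rfl, by linarith [hL e]⟩)
    (by have := nA_pos; positivity) (measureReal_nonneg.trans g.vol) (fun z k => ?_) (Y2_one h0 h2)
  obtain ⟨k, e, k'⟩ := Y2_ne k
  exact g.cv z ⟨k, e, (dp_pos (hx e)).1 (by linarith)⟩

end Crest.Agent.X212.St29.Sb
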