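import Crest.Agent.X212.St29.Cel
import Crest.Agent.X212.Sm10.Rho

/-!
# X212 / St29 (helper29): coordinates on the shell

* `kap t (t, r, φ)` : tube coordinates read in the stereographic chart (period one);
* `Sm k η` : the mesh is small; `Psi g h` : the homeomorphism `(t, r, φ) ↦ (t, ρ^, θ^)`;
* `JJ g h b` : the point with longitude `b.1`, PL radius `b.2.1` and PL angle `b.2.2`.
-/

set_option autoImplicit false
set_option linter.unusedSectionVars false

open Set Filter Topology Function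
open scoped ContDiff Manifold NNReal Real
open Crest.GeometryTopology.DehnSurgery Crest.Agent.X212.Glue52 Crest.Agent.X212.Ext52
open Crest.Agent.X212.Hp13 Crest.Agent.X212.Sm10

noncomputable section

namespace Crest.Agent.X212.St29

abbrev R3 : Type := ℝ × ℝ × ℝ

/-- the exponential of period one -/
def ex (t : ℝ) : Circle := Circle.exp (2 * π * t)

theorem ex_add (s t : ℝ) : ex (s + t) = ex s * ex t := by rw [ex, mul_add, Circle.exp_add]; rfl

theorem ex_int (n : ℤ) : ex n = 1 := by rw [ex, mul_comm]; exact Circle.exp_int_mul_two_pi n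

theorem ex_zero : ex 0 = 1 := by simpa using ex_int 0

theorem ex_add_int (t : ℝ) (n : ℤ) : ex (t + n) = ex t := by rw [ex_add, ex_int, mul_one]

theorem ex_sub (s t : ℝ) : ex (s - t) = ex s / ex t := by rw [ex, mul_sub, Circle.exp_sub]; rfl

theorem ex_eq {s t : ℝ} : ex s = ex t ↔ ∃ n : ℤ, s = t + n := by
  rw [ex, ex, Circle.exp_eq_exp]
  refine exists_congr fun n => ⟨fun h => ?_, fun h => by rw [h]; ring⟩
  exact mul_left_cancel₀ Real.two_pi_pos.ne' (by linarith)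

theorem ex_surj (u : Circle) : ∃ t, ex t = u :=
  ⟨Complex.arg u / (2 * π), by
    rw [ex, mul_div_cancel₀ _ Real.two_pi_pos.ne', Circle.exp_arg]⟩

theorem contMDiff_ex : ContMDiff 𝓘(ℝ, ℝ) (𝓡 1) ∞ ex :=
  ld_circleExp.contMDiff.comp (contDiff_const.mul contDiff_id).contMDiff

@[fun_prop] theorem continuous_ex : Continuous ex := contMDiff_ex.continuous

/-- polar coordinates -/
def pol (a : R3) : Circle × ℂ := (ex a.1, (a.2.1 : ℂ) * ex a.2.2)

theorem norm_pol (a : R3) : ‖(pol a).2‖ = |a.2.1| := by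
  rw [pol, norm_mul, Circle.norm_coe, mul_one, Complex.norm_real, Real.norm_eq_abs]

theorem pol_ne {a : R3} (h : a.2.1 ≠ 0) : (pol a).2 ≠ 0 :=
  norm_ne_zero_iff.1 (by rwa [norm_pol, abs_ne_zero])

theorem contMDiff_pol : ContMDiff 𝓘(ℝ, R3) IT ∞ pol :=
  (contMDiff_ex.comp contDiff_fst.contMDiff).prodMk (contMDiff_polar.comp
    ((contMDiff_ex.comp contDiff_snd.snd.contMDiff).prodMk contDiff_snd.fst.contMDiff))

theorem exists_pol (z : Circle × ℂ) : ∃ a, a.2.1 = ‖z.2‖ ∧ pol a = z := by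
  obtain ⟨s, hs⟩ := ex_surj z.1
  obtain ⟨u, hu⟩ := ex_surj (dir z.2)
  exact ⟨(s, ‖z.2‖, u), rfl, Prod.ext hs (by simp only [pol, hu]; exact norm_mul_dir _)⟩

section tube

variable (t : Tube)

/-- the inverse of `sg` -/
def si : S3 → E3 := chartAt E3 (-t.τ (1, 0))

theorem si_sg (p : E3) : si t (sg t p) = p :=
  (chartAt E3 (-t.τ (1, 0))).right_inv ((chart_target t).ge (mem_univ p))

theorem sg_si {x : S3} (h : x ≠ t.τ (1, 0)) : sg t (si t x) = x :=
  (chartAt E3 (-t.τ (1, 0))).left_inv ((chart_source t).ge h)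

theorem contMDiffAt_si {x : S3} (h : x ≠ t.τ (1, 0)) : ContMDiffAt (𝓡 3) (𝓡 3) ∞ (si t) x :=
  contMDiffOn_chart.contMDiffAt ((chartAt E3 _).open_source.mem_nhds ((chart_source t).ge h))

theorem τ_ne {z : Circle × ℂ} (h : z.2 ≠ 0) : t.τ z ≠ t.τ (1, 0) := fun e =>
  h (congrArg Prod.snd (t.inj e))

/-- tube coordinates -/
def kap (a : R3) : E3 := si t (t.τ (pol a))

variable {t} {a b : R3}

theorem sg_kap (h : a.2.1 ≠ 0) : sg t (kap t a) = t.τ (pol a) := sg_si t (τ_ne t (pol_ne h))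

theorem rho_kap (h : 0 < a.2.1) (h' : a.2.1 ≤ 4) : rho t (kap t a) = a.2.1 := by
  rw [rho, sg_kap h.ne', rhoS_τ, norm_pol, abs_of_pos h, min_eq_left h']

theorem th_kap (k : KD) (h : 0 < a.2.1) : th k (kap k.toTube a) = ex a.2.2 := by
  rw [th, sg_kap h.ne']
  exact (Subtype.val_injective.extend_apply k.θ 1 (k.τE ⟨pol a, pol_ne h.ne'⟩)).trans
    ((k.θτ _).trans (dir_mul h _))

theorem contDiffAt_kap (h : a.2.1 ≠ 0) : ContDiffAt ℝ ∞ (kap t) a :=
  ((contMDiffAt_si t (τ_ne t (pol_ne h))).comp a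
    ((t.ld.contMDiff.comp contMDiff_pol) a)).contDiffAt

theorem kap_congr (h1 : ex a.1 = ex b.1) (h2 : a.2.1 = b.2.1) (h3 : ex a.2.2 = ex b.2.2) :
    kap t a = kap t b := by simp only [kap, pol, h1, h2, h3]

theorem kap_inj (ha : 0 < a.2.1) (hb : 0 < b.2.1) (h : kap t a = kap t b) :
    ex a.1 = ex b.1 ∧ a.2.1 = b.2.1 ∧ ex a.2.2 = ex b.2.2 := by
  have e := congrArg (sg t) h
  rw [sg_kap ha.ne', sg_kap hb.ne'] at e
  have e := t.inj e
  refine ⟨congrArg Prod.fst e, ?_, ?_⟩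
  · have := congrArg (fun z => ‖z.2‖) e
    simpa only [norm_pol, abs_of_pos ha, abs_of_pos hb] using this
  · have := congrArg (fun z => dir z.2) e
    simpa only [pol, dir_mul ha, dir_mul hb] using this

theorem kap_eq (a : R3) : kap t a = tb t (pol a) := rfl

theorem exists_kap {p : E3} (h : rho t p < 4) : ∃ a, a.2.1 = rho t p ∧ kap t a = p := by
  obtain ⟨z, h1, h2⟩ := exists_τ h
  obtain ⟨a, h3, rfl⟩ := exists_pol z
  exact ⟨a, h3.trans h2.symm, tb_of_sg h1⟩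

variable (t)

theorem rho_le (p : E3) : rho t p ≤ 4 := by
  by_contra h
  by_cases e : sg t p ∈ range t.τ
  · obtain ⟨z, e⟩ := e
    exact h (by rw [rho, ← e, rhoS_τ]; exact min_le_right _ _)
  · exact h (rhoS_out t e).le

theorem exists_K : ∃ K : ℝ≥0, ∀ a : R3, a.2.1 ∈ Icc (1 / 4 : ℝ) 3 →
    ∀ᶠ b in 𝓝 a, dist (kap t a) (kap t b) ≤ K * dist a b := by
  have hQ : IsCompact (Icc (-1 : ℝ) 2 ×ˢ Icc (1 / 8 : ℝ) 4 ×ˢ Icc (-1 : ℝ) 2) :=
    isCompact_Icc.prod (isCompact_Icc.prod isCompact_Icc)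
  obtain ⟨K, hK⟩ := LocallyLipschitzOn.exists_lipschitzOnWith_of_compact (f := kap t) hQ
    fun a ha => by
      obtain ⟨K, U, h1, h2⟩ := ((contDiffAt_kap (t := t) (a := a) (by linarith [ha.2.1.1])).of_le
        (by exact_mod_cast le_top : (1 : WithTop ℕ∞) ≤ ∞)).exists_lipschitzOnWith
      exact ⟨K, U, mem_nhdsWithin_of_mem_nhds h1, h2⟩
  refine ⟨K, fun a ha => ?_⟩
  set v : R3 := ((⌊a.1⌋ : ℝ), 0, (⌊a.2.2⌋ : ℝ))
  have hv : ∀ b : R3, kap t (b - v) = kap t b := fun b =>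
    kap_congr (ex_eq.2 ⟨-⌊a.1⌋, by simp [v, sub_eq_add_neg]⟩) (by simp [v])
      (ex_eq.2 ⟨-⌊a.2.2⌋, by simp [v, sub_eq_add_neg]⟩)
  have hm : Icc (-1 : ℝ) 2 ×ˢ Icc (1 / 8 : ℝ) 4 ×ˢ Icc (-1 : ℝ) 2 ∈ 𝓝 (a - v) := by
    have h1 := Int.floor_le a.1
    have h2 := Int.lt_floor_add_one a.1
    have h3 := Int.floor_le a.2.2
    have h4 := Int.lt_floor_add_one a.2.2
    refine prod_mem_nhds (Icc_mem_nhds ?_ ?_) (prod_mem_nhds (Icc_mem_nhds ?_ ?_) (Icc_mem_nhds ?_ ?_))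
      <;> dsimp only [v, Prod.fst_sub, Prod.snd_sub] <;> linarith [ha.1, ha.2]
  filter_upwards [(continuous_sub_right v).continuousAt hm] with b hb
  have := hK.dist_le_mul _ (mem_of_mem_nhds hm) _ hb
  rwa [hv, hv, dist_sub_right] at this

end tube

/-- the mesh is small -/
def Sm (k : KD) (η : ℝ≥0) : Prop := η ≤ 1 / 16 ∧ ∃ K : ℝ≥0, η * K ≤ 1 / 2 ∧
  ∀ a : R3, a.2.1 ∈ Icc (1 / 4 : ℝ) 3 →
    ∀ᶠ b in 𝓝 a, dist (kap k.toTube a) (kap k.toTube b) ≤ K * dist a b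

theorem exists_sm (k : KD) : ∃ η0 : ℝ≥0, 0 < η0 ∧ ∀ η ≤ η0, Sm k η := by
  obtain ⟨K, hK⟩ := exists_K k.toTube
  refine ⟨(1 / 16) / (K + 1), by positivity, fun η h => ⟨h.trans ?_, K, ?_, hK⟩⟩
  · exact div_le_self zero_le (by simp)
  · rw [le_div_iff₀ (by positivity)] at h
    calc η * K ≤ η * (K + 1) := by gcongr; simp
      _ ≤ 1 / 16 := h
      _ ≤ 1 / 2 := by rw [div_le_div_iff₀ (by norm_num) (by norm_num)]; norm_num

/-- the retraction onto the shell -/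
def cl (a : R3) : R3 := (a.1, max (1 / 2) (min a.2.1 (5 / 2)), a.2.2)

theorem cl_mem (a : R3) : (cl a).2.1 ∈ Icc (1 / 2 : ℝ) (5 / 2) :=
  ⟨le_max_left _ _, max_le (by norm_num) (min_le_right _ _)⟩

theorem cl_eq {a : R3} (h : a.2.1 ∈ Icc (1 / 2 : ℝ) (5 / 2)) : cl a = a := by
  rw [cl, min_eq_left h.2, max_eq_right h.1]

theorem lip_cl : LipschitzWith 1 cl := LipschitzWith.of_dist_le_mul fun a b => by
  have := ((LipschitzWith.id.min_const (5 / 2 : ℝ)).const_max (1 / 2 : ℝ)).dist_le_mul a.2.1 b.2.1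
  simp only [NNReal.coe_one, one_mul] at this ⊢
  exact max_le_max le_rfl (max_le_max this le_rfl)

variable {k : KD} {η : ℝ≥0} {s : St} (g : Geo k η s) {a b : R3} {p : E3}

/-- the PL angle -/
def Th (p : E3) : Circle := th k p * ex (g.δ p)

theorem mem_B (h : 1 / 16 ≤ rho k.toTube p) : p ∈ g.R.B := interior_subset (g.far p h)

/-- the error term -/
def dd (a : R3) : R3 :=
  (0, (g.ρ - rho k.toTube) (kap k.toTube (cl a)), g.δ (kap k.toTube (cl a)))

theorem rho_cl (a : R3) : rho k.toTube (kap k.toTube (cl a)) = (cl a).2.1 :=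
  rho_kap (by linarith [(cl_mem a).1]) (by linarith [(cl_mem a).2])

theorem lip_dd (h : Sm k η) : LipschitzWith (1 / 2) (dd g) := by
  obtain ⟨-, K, h1, h2⟩ := h
  refine lipschitzOnWith_univ.1 (lip_of_loc convex_univ fun a _ => ?_)
  have ha := cl_mem a
  obtain ⟨r, r0, hr⟩ := Metric.isOpen_iff.1 (isOpen_Ioo.preimage (continuous_rho k.toTube))
    (kap k.toTube (cl a)) (show _ ∈ Ioo (1 / 4 : ℝ) 3 by
      rw [rho_cl]; constructor <;> linarith [ha.1, ha.2])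
  have c1 := lip_cl.continuous.continuousAt (x := a)
  have c2 := (contDiffAt_kap (t := k.toTube) (a := cl a) (by linarith [ha.1])).continuousAt
  filter_upwards [c1.eventually (h2 (cl a) ⟨by linarith [ha.1], by linarith [ha.2]⟩),
    c1.eventually (c2.eventually (eventually_mem_set.2 (Metric.ball_mem_nhds _ r0)))] with b e1 e2 _
  have e3 : η * dist (kap k.toTube (cl a)) (kap k.toTube (cl b)) ≤ (1 / 2 : ℝ≥0) * dist a b :=
    calc _ ≤ η * (K * dist (cl a) (cl b)) := by gcongr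
      _ = (η * K : ℝ≥0) * dist (cl a) (cl b) := by push_cast; ring
      _ ≤ _ := by gcongr; simpa using lip_cl.dist_le_mul a b
  have l1 := ((g.ρ_lip _ (convex_ball _ r) (hr.trans fun _ h => Ioo_subset_Icc_self h)).dist_le_mul
    _ (Metric.mem_ball_self r0) _ e2).trans e3
  have l2 := ((g.δ_lip _ (convex_ball _ r) (hr.trans fun _ h => h.1.le)).dist_le_mul
    _ (Metric.mem_ball_self r0) _ e2).trans e3
  rw [dd, dd, Prod.dist_eq, Prod.dist_eq, dist_self]
  exact max_le (by positivity) (max_le l1 l2)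

theorem norm_dd (a : R3) : ‖dd g a‖ ≤ η := by
  have ha := cl_mem a
  refine max_le (by simp [dd]) (max_le (g.ρ_near _ (mem_B g ?_)) (g.δ_near _ (g.mem_W _ ?_))) <;>
    rw [rho_cl] <;> linarith [ha.1]

/-- identity plus a contraction -/
def idAdd {E : Type*} [NormedAddCommGroup E] [NormedSpace ℝ E] [CompleteSpace E] {f : E → E}
    (hf : LipschitzWith (1 / 2) f) : E ≃ₜ E :=
  ApproximatesLinearOn.toHomeomorph (fun a => a + f a) (f' := ContinuousLinearEquiv.refl ℝ E)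
    (c := 1 / 2) (fun a _ b _ => by
      have := hf.dist_le_mul a b
      rw [dist_eq_norm, dist_eq_norm] at this
      rwa [show a + f a - (b + f b) - (ContinuousLinearEquiv.refl ℝ E : E →L[ℝ] E) (a - b) =
        f a - f b by simp only [ContinuousLinearEquiv.coe_refl, ContinuousLinearMap.id_apply]; abel])
    (by
      rcases subsingleton_or_nontrivial E with h | h
      · exact Or.inl h
      · right
        rw [ContinuousLinearEquiv.refl_symm, ContinuousLinearEquiv.coe_refl,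
          ContinuousLinearMap.nnnorm_id]
        norm_num)

theorem idAdd_apply {E : Type*} [NormedAddCommGroup E] [NormedSpace ℝ E] [CompleteSpace E]
    {f : E → E} (hf : LipschitzWith (1 / 2) f) (a : E) : idAdd hf a = a + f a := rfl

variable (h : Sm k η)

/-- the PL coordinates -/
def Psi : R3 ≃ₜ R3 := idAdd (lip_dd g h)

theorem Psi_eq (ha : a.2.1 ∈ Icc (1 / 2 : ℝ) (5 / 2)) :
    Psi g h a = (a.1, g.ρ (kap k.toTube a), a.2.2 + g.δ (kap k.toTube a)) := by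
  rw [Psi, idAdd_apply, dd, cl_eq ha, Pi.sub_apply,
    rho_kap (by linarith [ha.1]) (by linarith [ha.2])]
  ext <;> simp

theorem Psi_add (a : R3) (m n : ℤ) :
    Psi g h (a + ((m : ℝ), 0, (n : ℝ))) = Psi g h a + ((m : ℝ), 0, (n : ℝ)) := by
  have : kap k.toTube (cl (a + ((m : ℝ), 0, (n : ℝ)))) = kap k.toTube (cl a) :=
    kap_congr (ex_add_int _ _) (by simp [cl]) (ex_add_int _ _)
  simp only [Psi, idAdd_apply, dd, this]
  abel

theorem symm_add (b : R3) (m n : ℤ) :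
    (Psi g h).symm (b + ((m : ℝ), 0, (n : ℝ))) = (Psi g h).symm b + ((m : ℝ), 0, (n : ℝ)) :=
  (Psi g h).injective (by rw [Psi_add, Homeomorph.apply_symm_apply, Homeomorph.apply_symm_apply])

theorem symm_near (b : R3) : ‖b - (Psi g h).symm b‖ ≤ η := by
  have := norm_dd g ((Psi g h).symm b)
  rwa [← add_sub_cancel_left ((Psi g h).symm b) (dd g _), ← idAdd_apply (lip_dd g h),
    show idAdd (lip_dd g h) ((Psi g h).symm b) = b from (Psi g h).apply_symm_apply b] at this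

include h in
theorem eta_le : (η : ℝ) ≤ 1 / 16 := by exact_mod_cast h.1

theorem symm_rad (b : R3) : |b.2.1 - ((Psi g h).symm b).2.1| ≤ 1 / 16 :=
  ((norm_fst_le _).trans (norm_snd_le _)).trans ((symm_near g h b).trans (eta_le h))

theorem symm_mem (hb : b.2.1 ∈ Icc (5 / 8 : ℝ) (19 / 8)) :
    ((Psi g h).symm b).2.1 ∈ Icc (1 / 2 : ℝ) (5 / 2) := by
  have := abs_le.1 (symm_rad g h b)
  constructor <;> linarith [hb.1, hb.2]

/-- the point with given PL coordinates -/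
def JJ (b : R3) : E3 := kap k.toTube ((Psi g h).symm b)

theorem JJ_spec (hb : b.2.1 ∈ Icc (5 / 8 : ℝ) (19 / 8)) :
    ((Psi g h).symm b).1 = b.1 ∧ g.ρ (JJ g h b) = b.2.1 ∧ Th g (JJ g h b) = ex b.2.2 := by
  have h1 := symm_mem g h hb
  have h2 := Psi_eq g h h1
  rw [Homeomorph.apply_symm_apply] at h2
  refine ⟨(congrArg Prod.fst h2).symm, (congrArg (fun x => x.2.1) h2).symm, ?_⟩
  rw [Th, JJ, th_kap k (by linarith [h1.1]), ← ex_add]
  exact congrArg ex (congrArg (fun x => x.2.2) h2).symm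

theorem rho_JJ (hb : b.2.1 ∈ Icc (5 / 8 : ℝ) (19 / 8)) :
    rho k.toTube (JJ g h b) ∈ Icc (1 / 2 : ℝ) (5 / 2) := by
  have h1 := symm_mem g h hb
  rwa [JJ, rho_kap (by linarith [h1.1]) (by linarith [h1.2])]

theorem JJ_W (hb : b.2.1 ∈ Icc (5 / 8 : ℝ) (19 / 8)) : JJ g h b ∈ g.R.spx g.W :=
  g.mem_W _ (by linarith [(rho_JJ g h hb).1])

theorem continuousAt_JJ (hb : b.2.1 ∈ Icc (5 / 8 : ℝ) (19 / 8)) : ContinuousAt (JJ g h) b :=
  (contDiffAt_kap (by linarith [(symm_mem g h hb).1])).continuousAt.comp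
    (Psi g h).symm.continuous.continuousAt

theorem JJ_add (b : R3) (m n : ℤ) : JJ g h (b + ((m : ℝ), 0, (n : ℝ))) = JJ g h b := by
  rw [JJ, symm_add]
  exact kap_congr (ex_add_int _ _) (by simp) (ex_add_int _ _)

theorem JJ_congr (h1 : ex a.1 = ex b.1) (h2 : a.2.1 = b.2.1) (h3 : ex a.2.2 = ex b.2.2) :
    JJ g h a = JJ g h b := by
  obtain ⟨m, h1⟩ := ex_eq.1 h1
  obtain ⟨n, h3⟩ := ex_eq.1 h3
  rw [← JJ_add g h b m n]
  exact congrArg _ (Prod.ext h1 (Prod.ext (by simpa using h2) h3))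

theorem JJ_inj (ha : a.2.1 ∈ Icc (5 / 8 : ℝ) (19 / 8)) (hb : b.2.1 ∈ Icc (5 / 8 : ℝ) (19 / 8))
    (e : JJ g h a = JJ g h b) : ex a.1 = ex b.1 ∧ a.2.1 = b.2.1 ∧ ex a.2.2 = ex b.2.2 := by
  obtain ⟨a1, a2, a3⟩ := JJ_spec g h ha
  obtain ⟨b1, b2, b3⟩ := JJ_spec g h hb
  refine ⟨?_, by rw [← a2, e, b2], by rw [← a3, e, b3]⟩
  rw [← a1, ← b1]
  exact (kap_inj (by linarith [(symm_mem g h ha).1]) (by linarith [(symm_mem g h hb).1]) e).1

theorem exists_JJ (hp : rho k.toTube p ∈ Icc (1 / 2 : ℝ) (5 / 2)) :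
    ∃ b, b.2.1 = g.ρ p ∧ JJ g h b = p := by
  obtain ⟨a, h1, rfl⟩ := exists_kap (t := k.toTube) (p := p) (by linarith [hp.2])
  exact ⟨Psi g h a, by rw [Psi_eq g h (h1 ▸ hp)], by rw [JJ, Homeomorph.symm_apply_apply]⟩

include h in
theorem rho_near (hp : p ∈ g.R.B) : |g.ρ p - rho k.toTube p| ≤ 1 / 16 :=
  (g.ρ_near p hp).trans (eta_le h)

theorem exists_JJ' (hp : p ∈ g.R.B) (h1 : g.ρ p ∈ Icc (5 / 8 : ℝ) (19 / 8)) :
    ∃ b, b.2.1 = g.ρ p ∧ JJ g h b = p := by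
  have := abs_le.1 (rho_near g h hp)
  exact exists_JJ g h ⟨by linarith [h1.1], by linarith [h1.2]⟩

include h in
/-- the PL radius increases along the rays -/
theorem ray_mono (t φ : ℝ) {r r' : ℝ} (h1 : 1 / 2 ≤ r) (h2 : r ≤ r') (h3 : r' ≤ 5 / 2) :
    g.ρ (kap k.toTube (t, r, φ)) + (r' - r) / 2 ≤ g.ρ (kap k.toTube (t, r', φ)) := by
  have l := (lip_dd g h).dist_le_mul (t, r, φ) (t, r', φ)
  have e : dist ((t, r, φ) : R3) (t, r', φ) = r' - r := by
    simp [Prod.dist_eq, Real.dist_eq, abs_sub_comm r r', abs_of_nonneg (sub_nonneg.2 h2), h2]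
  have m1 : ((t, r, φ) : R3).2.1 ∈ Icc (1 / 2 : ℝ) (5 / 2) := ⟨h1, h2.trans h3⟩
  have m2 : ((t, r', φ) : R3).2.1 ∈ Icc (1 / 2 : ℝ) (5 / 2) := ⟨h1.trans h2, h3⟩
  have l' := ((le_max_left _ _).trans (le_max_right _ _)).trans l
  simp only [dd, cl_eq m1, cl_eq m2, Pi.sub_apply, e] at l'
  rw [rho_kap (by linarith) (by linarith), rho_kap (by linarith) (by linarith), Real.dist_eq] at l'
  have := (abs_le.1 l').2
  push_cast at this
  linarith

end Crest.Agent.X212.St29
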