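import Crest.Agent.X212.St29.TowE
import Crest.Agent.X212.Rad96.Ift

/-!
# Row 212, ES-TOW (helper29): the tower over a reducible point
-/

set_option autoImplicit false
set_option linter.unusedSectionVars false
noncomputable section
open scoped Manifold ContDiff Topology InnerProductSpace
open MeasureTheory Set Function Filter Module

namespace Crest.Agent.X212.St29.Tow
open An An.Pre Sob92 Cyf70 Sw Sw.En3 End23 Rad96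
open Dl42 hiding dl
open Map77 (P2 f2 s2 i1 i2 sm2 pj ij f2_i1 f2_i2 s2_i1 s2_i2 f2_sm2 s2_sm2)
open Crt72 (symA)

variable {κ lam ν : Type} [Fintype κ] [Fintype lam] [Fintype ν] [DecidableEq ν]
  {e : En3 κ lam ν} {θ : (lf e).YC} {m : ℕ} {w : ℝ} {b : ℝ → ℝ} {S : Set ℝ} {ψ : ℝ → ℝ}

/-- constant gauge transformations -/
theorem eqv_rot (he : e.OK) (a) (u u' : SV e) {t : ℝ}
    (h : tk e m u' = rot (PH e m) (JH e m) t (tk e m u)) :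
    Eqv (pt (e.re w b S ψ) a u.1) (pt (e.re w b S ψ) a u'.1) := by
  obtain ⟨w1, p4, p5⟩ := rP he m u
  obtain ⟨w2, p6, p7⟩ := rJ he m u
  rw [rot, p5, p7, ← map_sub, ← map_smul, ← map_smul, ← map_add, ← map_add,
    (Ell97.toH_inj _ _ _).eq_iff, Subtype.ext_iff, funext_iff] at h
  have p8 := fun y => (pV_iff.1 (u.2.2.2 y)).2
  refine ⟨fun _ => Complex.exp (t * Complex.I), ⟨contMDiff_const, fun _ =>
    Complex.norm_exp_ofReal_mul_I t⟩, Cfg.ext (funext fun i => funext fun z => ?_) (funext fun z => ?_)⟩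
  · cases i with
    | none => simp [Bg.act, fz, Nd18.ca, Pre.D_def]
    | some i => simpa [Bg.act, fz, Nd18.ca, Pre.D_def, pt, p4, p6] using congrArg (cp (some i)) (h z.1)
  · have := congrArg (s2 _ _) (h z.1)
    simp [p4, p6, p8] at this
    simpa [Bg.act, fz, pt, cs, Complex.exp_ofReal_mul_I_re, Complex.exp_ofReal_mul_I_im] using! this

variable (hS : SfStmt κ lam ν) (hA : AhStmt κ lam ν) (he : e.OK) (h0 : (lf e).OK) (hθ : Red θ)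
include hS hA he h0 hθ

/-- critical points near the reducible point are solutions -/
theorem near (hm : 7 ≤ m) (hq : ∀ᶠ ρ in 𝓝 0, Ql e (hol θ) ρ) {ε : ℝ} (hε : 0 < ε) : ∃ ε' > 0,
    ∀ w b S ψ, (e.re w b S ψ).OK → ∀ v : (e.re w b S ψ).YC, Crit v → (∃ y, v.Φ y ≠ 0) →
      (∀ y, dvg e (v.a - θ.a) y = 0) → (∀ i, e.D.F.nrm (m + 1) (v.a i - θ.a i) ≤ ε') →
      ∃ u : SV e, pt (e.re w b S ψ) θ.a u.1 = v ∧ Sol (ic e (m + 1) m) (TK θ m) (ic e m 0) (PH e m) (RH e m)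
        (BH e (m + 1) (m + 1) m (q4 e)) b w (tk e (m + 1) u) ∧ PH e (m + 1) (tk e (m + 1) u) ≠ 0 ∧
        ‖tk e (m + 1) u - PH e (m + 1) (tk e (m + 1) u)‖ < ε := by
  obtain ⟨Λ, hΛ⟩ := exists_hl he (m + 1)
  obtain ⟨ρ, hρ, q⟩ := Metric.eventually_nhds_iff.1 hq
  simp only [dist_zero_right] at q
  obtain ⟨C', c0, hC'⟩ := form_le (e := e) (m + 1)
  obtain ⟨ε', e1, e2, e3⟩ : ∃ ε' > (0 : ℝ), C' * |ε'| < ε ∧ ‖Λ‖ * C' * |ε'| < ρ :=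
    (eventually_mem_nhdsWithin.and ((ev_lt hε).and (ev_lt hρ))).exists
  rw [abs_of_pos e1] at e2 e3
  refine ⟨ε', e1, fun w b S ψ hE v h1 h2 h3 h4 => ?_⟩
  have a0 := ay_lf (e := e) (φ := θ.Φ) hθ.1.1
  have a3 := ay_of h1.1
  have a4 : ∀ Φ, Sm e.Y.I Φ → (∀ y, e.cyl.pp (y, 0) (Φ y) = Φ y) →
      sc e 0 (v.a - θ.a) Φ ∈ Sec e.Y.I (pV e) := fun Φ s p => sc_mem (v := ⟨v.a - θ.a, Φ⟩)
    contMDiff_const ⟨fun k => (a3.sa k).sub (a0.sa k), s, fun k y => by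
      simp only [Pi.sub_apply, smul_sub, Finset.sum_sub_distrib]
      exact congrArg₂ _ (a3.pa k y) (a0.pa k y), p⟩
  obtain ⟨u₀, d0⟩ : ∃ u : SV e, u.1 = sc e 0 (v.a - θ.a) v.Φ :=
    ⟨⟨_, a4 v.Φ a3.sΦ a3.pΦ⟩, rfl⟩
  obtain ⟨u₁, d1⟩ : ∃ u : SV e, u.1 = sc e 0 (v.a - θ.a) 0 :=
    ⟨⟨_, a4 0 contMDiff_const fun _ => map_zero _⟩, rfl⟩
  have n1 := hC' u₁ _ ε' d1 h4
  have p0 : ∀ y, e.cyl.pp (y, 0) (v.Φ y) = v.Φ y := a3.pΦ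
  obtain ⟨w0, p1, p2⟩ := rP he (m + 1) u₀
  have e0 : pt (e.re w b S ψ) θ.a u₀.1 = v := by ext <;> simp [pt, d0]
  refine ⟨u₀, e0, sol_re hS hA h0 hθ hE hm u₀ (q ?_) (e0 ▸ h1) (fun y => by simpa [tg, d0] using! h3 y)
    fun y => by simp [d0], fun h => ?_, ?_⟩
  · rw [show hl e u₀.1 = Λ (tk e (m + 1) u₁) by rw [hΛ]; simp [hl, hol, tg, d0, d1]]
    exact ((Λ.le_opNorm _).trans (mul_le_mul_of_nonneg_left n1 (norm_nonneg _))).trans_lt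
      (by rwa [← mul_assoc])
  · rw [p2, map_eq_zero_iff _ (Ell97.toH_inj _ _ _)] at h
    obtain ⟨y, hy⟩ := h2
    simpa [p1, d0, p0, hy] using congrArg (fun w : SV e => s2 _ _ (w.1 y)) h
  · rw [p2, ← map_sub, show u₀ - w0 = u₁ from Subtype.ext (funext fun y => ext3 (by simp [p1, d0, d1])
      (by simp [p1, d0, d1]) (by simp [p1, d0, d1, p0]))]
    exact n1.trans_lt e2

/-- one branch -/
theorem one (hD : DatStmt κ lam ν) (hn : NdF θ) (hq : ∀ᶠ ρ in 𝓝 0, Ql e (hol θ) ρ) (hz : 0 ∉ spec θ)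
    (hs : ∀ l ≥ 0, Smp θ l) (b1 : Bijective (Crt72.Op (iH e) (L0 e) (rf (th e)))) (hm : 7 ≤ m)
    (hb : ContDiff ℝ ∞ b) (hE : ∀ w > 0, (e.re w b S ψ).OK) {l φ} (hl : 0 < l) (h : Eg θ l φ)
    (h1 : φ ≠ 0) (h2 : b (nm (⟨θ.a, φ⟩ : (lf e).YC)) = l)
    (h3 : deriv b (nm (⟨θ.a, φ⟩ : (lf e).YC)) < 0) {x : ℝ → XH e (m + 1)} {K η : ℝ} (hη : 0 < η)
    (hx : ∀ᶠ w in 𝓝[>] (0 : ℝ), Sol (ic e (m + 1) m) (TK θ m) (ic e m 0) (PH e m) (RH e m)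
      (BH e (m + 1) (m + 1) m (q4 e)) b w (x w) ∧ ‖x w - tk e (m + 1) (eg h)‖ ≤ K * |w|) :
    ∀ᶠ w in 𝓝[>] (0 : ℝ), ∃ u : SV e, tk e (m + 1) u = x w ∧
      Crit (pt (e.re w b S ψ) θ.a u.1) ∧ Bijective (TT (pt (e.re w b S ψ) θ.a u.1)) ∧
      mu (pt (e.re w b S ψ) θ.a u.1) = mu0 θ + 2 * (spec θ ∩ Ioo 0 l).ncard ∧
      En3.dist (m + 1) (pt (e.re w b S ψ) θ.a u.1) ⟨θ.a, φ⟩ ≤ η := by
  obtain ⟨Λ, hΛ⟩ := exists_hl he (m + 1)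
  obtain ⟨ρ, hρ, q⟩ := Metric.eventually_nhds_iff.1 hq
  simp only [dist_zero_right] at q
  obtain ⟨C, hC⟩ := dist_le (e := e) (m + 1)
  have n : nm (⟨θ.a, φ⟩ : (lf e).YC) = _ := (norm_pH he (k := m + 1) θ.a (eg h)).symm
  have a : ∀ᶠ w in 𝓝[>] (0 : ℝ), ‖x w - tk e (m + 1) (eg h)‖ ≤ K * |w| ∧ ∃ u : SV e,
      tk e (m + 1) u = x w ∧ Crit (pt (e.re w b S ψ) θ.a u.1) ∧
      GG θ b (m + 1) (x w) + √(w / 2) • BH e (m + 1) 0 0 (cc e) (x w) ∈ symA _ ∧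
      aH (pt (e.re w b S ψ) θ.a u.1) =
        GG θ b (m + 1) (x w) + √(w / 2) • BH e (m + 1) 0 0 (cc e) (x w) := by
    filter_upwards [hx, ev_lt (A := ‖Λ‖ * K) hρ, self_mem_nhdsWithin] with w ⟨a3, a4⟩ a2 (hw : 0 < w)
    obtain ⟨u, hu⟩ := smooth he hS hA h0 hθ hm a3
    have a5 : Ql e (hol θ) (Tow.hl e u.1) := q (by
      rw [show Tow.hl e u.1 = Λ (x w - tk e (m + 1) (eg h)) by
        rw [map_sub, ← hu, hΛ, hΛ, hl_eg, sub_zero]]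
      exact ((Λ.le_opNorm _).trans (mul_le_mul_of_nonneg_left a4 (norm_nonneg _))).trans_lt
        (by rwa [← mul_assoc]))
    exact ⟨a4, u, hu, crit_re hS hA h0 hθ (hE w hw) hm u a5 hw (hu ▸ a3),
      hu ▸ hess_re hA h0 hθ (hE w hw) (hm.trans m.le_succ) u a5 hw⟩
  filter_upwards [a, ev_lt (A := |C| * K) hη, branch hS hA he h0 hθ hD hn hq.self_of_nhds hz hs b1
    (hm.trans m.le_succ) hb hl h h1 (n ▸ h2) (n ▸ h3)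
    (a.mono fun w ⟨a1, _, _, _, a2, _⟩ => ⟨a1, a2⟩)] with w ⟨a1, u, a2, a3, _, a4⟩ a5 a6
  rw [← a4] at a6
  refine ⟨u, a2, a3, a6.1, a6.2, (hC θ.a φ u (eg h) fun _ => rfl).trans ?_⟩
  rw [a2]
  exact ((mul_le_mul (le_abs_self _) a1 (norm_nonneg _) (abs_nonneg _)).trans_eq
    (mul_assoc _ _ _).symm).trans a5.le

theorem main (hD : DatStmt κ lam ν) (hn : NdF θ) (hq : ∀ᶠ ρ in 𝓝 0, Ql e (hol θ) ρ)
    (hz : 0 ∉ spec θ) (hs : ∀ l ≥ 0, Smp θ l)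
    (b1 : Bijective (Crt72.Op (iH e) (L0 e) (rf (th e)))) {c : ℝ} (hb : ContDiff ℝ ∞ b)
    (B : Prof b c) (hc : c ∉ spec θ) (hE : ∀ w > 0, (e.re w b S ψ).OK) (k : ℕ) {η : ℝ} (hη : 0 < η) :
    ∃ k', ∃ ε > 0, ∀ᶠ w in 𝓝[>] (0 : ℝ), ∃ x : ℝ → (e.re w b S ψ).YC,
      (∀ l ∈ spec θ ∩ Ioo 0 c, Crit (x l) ∧ Bijective (TT (x l)) ∧
      mu (x l) = mu0 θ + 2 * (spec θ ∩ Ioo 0 l).ncard ∧ ∃ φ, Eg θ l φ ∧
        b (nm (⟨θ.a, φ⟩ : (lf e).YC)) = l ∧ En3.dist k (x l) ⟨θ.a, φ⟩ ≤ η) ∧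
    ∀ v : (e.re w b S ψ).YC, Crit v → (∃ y, v.Φ y ≠ 0) → (∀ y, dvg e (v.a - θ.a) y = 0) →
      (∀ i, e.D.F.nrm k' (v.a i - θ.a i) ≤ ε) → ∃ l ∈ spec θ ∩ Ioo 0 c, Eqv (x l) v := by
  obtain ⟨m, hm, hk⟩ : ∃ m, 7 ≤ m ∧ k ≤ m + 1 := ⟨k + 7, by omega, by omega⟩
  obtain ⟨D, E⟩ := (hD e h0 θ hθ hn).2 m
  replace E : Ev θ m := E
  have s1 := E.spec
  obtain ⟨fin, U, x, ε, K, hε, hU, hx⟩ := ift D (nl he hm D.cpt) B (E.simple he hs c) (s1 ▸ hz)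
    (s1 ▸ hc)
  rw [s1] at fin hU hx
  obtain ⟨ε', e1, e2⟩ := near hS hA he h0 hθ hm hq hε
  have e3 : ∀ᶠ w in 𝓝[>] (0 : ℝ), |w| < ε := by simpa using ev_lt (A := 1) hε
  have key : ∀ l ∈ spec θ ∩ Ioo 0 c, ∀ᶠ w in 𝓝[>] (0 : ℝ), ∃ u : SV e, tk e (m + 1) u = x l w ∧
      Crit (pt (e.re w b S ψ) θ.a u.1) ∧ Bijective (TT (pt (e.re w b S ψ) θ.a u.1)) ∧
      mu (pt (e.re w b S ψ) θ.a u.1) = mu0 θ + 2 * (spec θ ∩ Ioo 0 l).ncard ∧ ∃ φ, Eg θ l φ ∧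
        b (nm (⟨θ.a, φ⟩ : (lf e).YC)) = l ∧
          En3.dist k (pt (e.re w b S ψ) θ.a u.1) ⟨θ.a, φ⟩ ≤ η := fun l hl => by
    obtain ⟨u1, u2, u3⟩ := hU l hl
    obtain ⟨φ, h, u4⟩ := E.iff.1 u1
    have n : ‖ic e m 0 (ic e (m + 1) m (U l))‖ ^ 2 = nm (⟨θ.a, φ⟩ : (lf e).YC) := by
      rw [← (mem_Eig.1 u1).1, D.iP, jPi he, u4]
      exact norm_pH he θ.a (eg h)
    have h1 : φ ≠ 0 := fun h1 => by rw [u4, (eg_ne h).2 h1] at u2; simp at u2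
    rw [n] at u2 u3
    exact (one hS hA he h0 hθ hD hn hq hz hs b1 hm hb hE hl.2.1 h h1 u3 (B.neg _ ⟨u2.1.le, u2.2⟩) hη
      (e3.mono fun w hw => u4 ▸ (hx w hw).1 l hl)).mono fun w ⟨u, a1, a2, a3, a4, a5⟩ =>
        ⟨u, a1, a2, a3, a4, φ, h, u3, le_trans (add_le_add (Finset.sum_le_sum fun i _ =>
          nrm_mono hk _) (nrm_mono hk _)) a5⟩
  refine ⟨m + 1, ε', e1, ?_⟩
  filter_upwards [fin.eventually_all.2 key, e3, self_mem_nhdsWithin] with w a1 a2 (hw : 0 < w)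
  choose! u hu using a1
  refine ⟨fun l => pt (e.re w b S ψ) θ.a (u l).1, fun l hl => (hu l hl).2, fun v h1 h2 h3 h4 => ?_⟩
  obtain ⟨u₀, rfl, p1, p2, p3⟩ := e2 w b S ψ (hE w hw) v h1 h2 h3 h4
  obtain ⟨l, hl, t, ht⟩ := (hx w a2).2 _ p1 p2 p3
  exact ⟨l, hl, eqv_rot he _ _ _ (ht.trans (congrArg _ (hu l hl).1.symm))⟩

end Crest.Agent.X212.St29.Tow

namespace Crest.Agent.X212.St29
open End23

/-- **ES-TOW** -/
theorem tow {κ lam ν : Type} [Fintype κ] [Fintype lam] [Fintype ν] [DecidableEq ν]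
    (hS : SfStmt κ lam ν) (hA : AhStmt κ lam ν) (hD : DatStmt κ lam ν) (hB : BijStmt κ lam ν)
    (hM : MuStmt κ lam ν) (hL : LvlStmt) (hN : NbStmt κ lam ν) : TowStmt κ lam ν := by
  intro e M h j c hc hc' k η hη
  have r : Red (M.θ j) := ⟨h.crit (.inr j), h.red j⟩
  obtain ⟨-, C, hC⟩ := hN (lf e) h.ok h.om
  obtain ⟨k', ε, hε, H⟩ := Tow.main (e := lf e) hS hA h.ok h.ok r hD
    ((hB.red _ h.ok two_pos _ r).1 (h.nd (.inr j))).1 (Tow.ql (h.quad j)) (h.z j) (h.smp j)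
    (hM.rf e M h).1 (contDiff_const.mul hL.2.1) (hL.2.2.1 c hc) hc'
    (fun w hw => (hC c hc.le w ∅ 0 hw isCompact_empty contDiff_const monotone_const).1) k hη
  obtain ⟨w₀, h1, h2⟩ := mem_nhdsGT_iff_exists_Ioc_subset.1 H
  exact ⟨k', ε, hε, w₀, h1, h2⟩

end Crest.Agent.X212.St29
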