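import Crest.Agent.X212.Deg23.Main
import Crest.Agent.X212.Ell97.Main

/-!
# Row 212, ES-TOW (helper29): abstract lemmas
-/

set_option autoImplicit false
set_option linter.unusedSectionVars false
noncomputable section
open scoped Manifold ContDiff Topology InnerProductSpace
open MeasureTheory Set Function Filter Asymptotics

namespace Crest.Agent.X212.St29.Tow
open An An.Pre Sob92

/-- the expansion of the Hessian -/
theorem oδ {E F : Type*} [NormedAddCommGroup E] [NormedSpace ℝ E] [NormedAddCommGroup F]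
    [NormedSpace ℝ F] {G : E → F} (C : E →L[ℝ] F) {U : E} (hG : DifferentiableAt ℝ G U) {X : ℝ → E}
    {K : ℝ} (hX : ∀ᶠ δ in 𝓝[>] (0 : ℝ), ‖X δ - U‖ ≤ K * |2 * δ ^ 2|) {a : ℝ → F}
    (ha : ∀ᶠ δ in 𝓝[>] (0 : ℝ), a δ = G (X δ) + δ • C (X δ)) :
    (fun δ => a δ - G U - δ • C U) =o[𝓝[>] 0] fun δ : ℝ => δ := by
  have t0 : Tendsto (fun δ : ℝ => δ) (𝓝[>] 0) (𝓝 0) := tendsto_nhdsWithin_of_tendsto_nhds tendsto_id
  have h1 : (fun δ => X δ - U) =o[𝓝[>] 0] fun δ : ℝ => δ := by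
    refine (IsBigO.of_bound (2 * K) (hX.mono fun δ h => ?_)).trans_isLittleO
      ((isLittleO_pow_id (by norm_num : 1 < 2)).mono nhdsWithin_le_nhds)
    rwa [Real.norm_eq_abs, mul_comm 2 K, mul_assoc, ← abs_two, ← abs_mul]
  have h2 : Tendsto (fun δ => X δ - U) (𝓝[>] 0) (𝓝 0) := h1.isBigO.trans_tendsto t0
  have h3 : (fun δ : ℝ => δ • C (X δ - U)) =o[𝓝[>] 0] fun δ : ℝ => δ := by
    simpa only [smul_eq_mul, mul_one] using (isBigO_refl (fun δ : ℝ => δ) _).smul_isLittleO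
      ((isLittleO_one_iff ℝ).2 (map_zero C ▸ (C.continuous.tendsto 0).comp h2 :
        Tendsto (fun δ => C (X δ - U)) _ (𝓝 0)))
  refine (((hG.isBigO_sub.comp_tendsto (tendsto_sub_nhds_zero_iff.1 h2)).trans_isLittleO h1).add
    h3).congr' (ha.mono fun δ h => ?_) .rfl
  simp only [h, comp_apply, map_sub, smul_sub]
  abel

/-- the main part of the Hessian is differentiable -/
theorem dG {E H : Type*} [NormedAddCommGroup E] [NormedSpace ℝ E] [NormedAddCommGroup H]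
    [InnerProductSpace ℝ H] [CompleteSpace H] (h P : H →L[ℝ] H) (N : E →L[ℝ] H →L[ℝ] H)
    (p : E →L[ℝ] H) {b : ℝ → ℝ} (hb : ContDiff ℝ ∞ b) (U : E) : DifferentiableAt ℝ (fun X =>
      h + N X - b (‖p X‖ ^ 2) • P - (2 * deriv b (‖p X‖ ^ 2)) • Rad96.tt (p X)) U := by
  have h1 : Differentiable ℝ fun X => ‖p X‖ ^ 2 := (p.contDiff.norm_sq ℝ (n := 1)).differentiable one_ne_zero
  have h2 := hb.differentiable (by simp)
  have h3 := (hb.iterate_deriv 1).differentiable (by simp)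
  have h4 : Differentiable ℝ fun X => Rad96.tt (p X) :=
    ((ContinuousLinearMap.smulRightL ℝ H H ∘L (innerSL ℝ : H →L[ℝ] H →L[ℝ] ℝ) ∘L
      p).differentiable.clm_apply p.differentiable :)
  exact ((((differentiable_const h).add N.differentiable).sub ((h2.comp h1).smul_const P)).sub
    (((h3.comp h1).const_mul 2).smul h4)) U

open Rad96 Crt72 in
/-- the degree along a branch -/
theorem deg' {E X₁ X₀ : Type} [NormedAddCommGroup E] [NormedSpace ℝ E] [NormedAddCommGroup X₁]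
    [NormedSpace ℝ X₁] [CompleteSpace X₁] [NormedAddCommGroup X₀] [InnerProductSpace ℝ X₀]
    [CompleteSpace X₀] {i L : X₁ →L[ℝ] X₀} {A : Submodule ℝ (X₀ →L[ℝ] X₀)}
    {sf : (X₀ →L[ℝ] X₀) → (X₀ →L[ℝ] X₀) → ℤ} {P₁ J₁ : X₁ →L[ℝ] X₁} {P J h : X₀ →L[ℝ] X₀}
    {e u : X₁} {l β : ℝ} (H : SF i L A sf) (D : Dat i (Crt72.Op i L h) (.id ℝ X₀) P₁ J₁ P J e)
    (hh : h ∈ A) (hP : P ∈ A) {G : E → X₀ →L[ℝ] X₀} {C : E →L[ℝ] X₀ →L[ℝ] X₀} {U : E}
    (hc : C U ∈ A) (hl : 0 < l) (hβ : 0 < β) (h0 : u ≠ 0) (hu : u ∈ Eig i (Crt72.Op i L h) P₁ l)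
    (hs : Simple i (Crt72.Op i L h) P₁ (Icc 0 l)) (hz : 0 ∉ Spec i (Crt72.Op i L h) P₁)
    (h1 : C U (i e) = J (i u)) (h2 : ∀ x, P (C U (P x)) = 0) (hG : DifferentiableAt ℝ G U)
    (hU : G U = h - l • P + β • tt (i u)) {x : ℝ → E} {K : ℝ}
    (hx : ∀ᶠ w in 𝓝[>] (0 : ℝ), ‖x w - U‖ ≤ K * |w| ∧ G (x w) + √(w / 2) • C (x w) ∈ A) :
    h - tt (i e) ∈ A ∧ Bijective (Crt72.Op i L (h - tt (i e))) ∧ ∀ᶠ w in 𝓝[>] (0 : ℝ),
      Bijective (Crt72.Op i L (G (x w) + √(w / 2) • C (x w))) ∧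
      sf (h - tt (i e)) (G (x w) + √(w / 2) • C (x w)) =
        -2 * ((Spec i (Crt72.Op i L h) P₁ ∩ Ioo 0 l).ncard : ℤ) := by
  classical
  have t1 : Tendsto (fun δ : ℝ => 2 * δ ^ 2) (𝓝[>] 0) (𝓝[>] 0) :=
    tendsto_nhdsWithin_iff.2 ⟨tendsto_nhdsWithin_of_tendsto_nhds (Continuous.tendsto'
      (by fun_prop) _ _ (by simp)), eventually_mem_nhdsWithin.mono fun δ (h : 0 < δ) =>
        (by positivity : 0 < 2 * δ ^ 2)⟩
  have t2 : Tendsto (fun w : ℝ => √(w / 2)) (𝓝[>] 0) (𝓝[>] 0) :=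
    tendsto_nhdsWithin_iff.2 ⟨tendsto_nhdsWithin_of_tendsto_nhds (Continuous.tendsto'
      (by fun_prop) _ _ (by simp)), eventually_mem_nhdsWithin.mono fun δ (h : 0 < δ) =>
        (by positivity : 0 < √(δ / 2))⟩
  let a : ℝ → X₀ →L[ℝ] X₀ := fun δ => if G (x (2 * δ ^ 2)) + δ • C (x (2 * δ ^ 2)) ∈ A then
    G (x (2 * δ ^ 2)) + δ • C (x (2 * δ ^ 2)) else 0
  obtain ⟨k1, k2, k3⟩ := Deg23.deg (a := a) H D hh hP hc
    (fun δ => by simp only [a]; split_ifs with h; exacts [h, A.zero_mem]) hl hβ h0 hu hs hz h1 h2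
    (hU ▸ oδ C hG ((t1.eventually hx).mono fun _ h => h.1) (by
      filter_upwards [t1.eventually hx, eventually_mem_nhdsWithin] with δ h (hδ : 0 < δ)
      rw [mul_div_cancel_left₀ _ two_ne_zero, Real.sqrt_sq hδ.le] at h
      exact if_pos h.2))
  refine ⟨k1, k2, ?_⟩
  filter_upwards [t2.eventually k3, hx, eventually_mem_nhdsWithin] with w h h' (hw : 0 < w)
  have e : 2 * √(w / 2) ^ 2 = w := by rw [Real.sq_sqrt (by positivity)]; ring
  simpa only [a, e, if_pos h'.2] using h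

variable {E : Type} [NormedAddCommGroup E] [NormedSpace ℝ E] [FiniteDimensional ℝ E]
  [MeasurableSpace E] [BorelSpace E]
  {HM : Type} [TopologicalSpace HM] {I : ModelWithCorners ℝ E HM} [I.Boundaryless]
  {M : Type} [TopologicalSpace M] [ChartedSpace HM M] [IsManifold I ∞ M]
  [MeasurableSpace M] {ι : Type} [Fintype ι]
  {V W : Type} [NormedAddCommGroup V] [InnerProductSpace ℝ V] [FiniteDimensional ℝ V]
  [NormedAddCommGroup W] [InnerProductSpace ℝ W] [FiniteDimensional ℝ W]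
  [T2Space M] [BorelSpace M] [SecondCountableTopology M] [CompactSpace M]
  {F : Fr I M ι} {A : Op M ι V W} {C C' : ℕ → ℝ}

/-- bootstrap -/
theorem boot (hF : F.Tame C) (hA : A.Good F C') (hc : A.CliffL F) {k : ℕ}
    (Z : ∀ m, F.H m A.p → F.H m A.q)
    (hZ : ∀ m, k ≤ m → ∀ y, F.incl (m + 1) m _ (Z (m + 1) y) = Z m (F.incl (m + 1) m _ y))
    {x : F.H (k + 1) A.p} (h : A.H F k x = Z k (F.incl (k + 1) k _ x)) :
    ∃ u, F.toH (k + 1) A.p u = x := by
  have key : ∀ m, k ≤ m → ∃ y : F.H (m + 1) A.p, F.incl (m + 1) (k + 1) _ y = x ∧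
      A.H F m y = Z m (F.incl (m + 1) m _ y) := fun m hm => by
    induction m, hm using Nat.le_induction with
    | base => exact ⟨x, incl_self x, h⟩
    | succ m hm ih =>
      obtain ⟨y, h1, h2⟩ := ih
      obtain ⟨z, h3, h4⟩ := Ell97.reg_up hF hA hc (Nat.le_succ m) (h2.trans (hZ m hm y).symm)
      exact ⟨z, by rw [← h1, ← h3, incl_incl (by omega) (by omega)], by rw [h4, h3]⟩
  refine Ell97.sec_of_all hF fun j hj => ?_
  obtain ⟨m, rfl⟩ : ∃ m, j = m + 1 := ⟨j - 1, by omega⟩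
  exact (key m (by omega)).imp fun _ h => h.1

omit [FiniteDimensional ℝ V] [FiniteDimensional ℝ W] [I.Boundaryless] in
theorem nrm_clm (F : Pre I M ι) (L : V →L[ℝ] W) (k : ℕ) {u : M → V} (hu : Sm I u) :
    F.nrm k (fun x => L (u x)) ≤ cK ι k * ‖L‖ * F.nrm k u := by
  simpa using nrm_app (f := fun _ => L) contMDiff_const hu (CB_const k L)
    (FL_of_hcs k hu (.of_compactSpace _))

omit [FiniteDimensional ℝ V] [FiniteDimensional ℝ W] in
theorem zero_of_int (F : Pre I M ι) {f : M → ℝ} (hf : Continuous f) (h0 : ∀ x, 0 ≤ f x)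
    (h : ∫ x, f x ∂F.μ = 0) (x : M) : f x = 0 := by
  have := openPos F
  exact by_contra fun hx => (hf.integral_pos_of_hasCompactSupport_nonneg_nonzero
    (.of_compactSpace _) h0 hx).ne' h

omit [FiniteDimensional ℝ V] [FiniteDimensional ℝ W] in
theorem vol_pos [Nonempty M] (F : Pre I M ι) : 0 < √(F.μ univ).toReal := by
  have := openPos F
  exact Real.sqrt_pos.2 (ENNReal.toReal_pos (isOpen_univ.measure_ne_zero _ univ_nonempty)
    isCompact_univ.measure_lt_top.ne)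

end Crest.Agent.X212.St29.Tow
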