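import Crest.Agent.X212.End23.Crt
import Crest.Agent.X212.Dl42.Main
import Crest.Agent.X212.St29.TowA

/-!
# Row 212, ES-TOW (helper29): the quadratic terms and the equations at function level
-/

set_option autoImplicit false
set_option linter.unusedSectionVars false
noncomputable section
open scoped Manifold ContDiff Topology InnerProductSpace
open MeasureTheory Set Function Filter

namespace Crest.Agent.X212.St29.Tow
open An An.Pre Sob92 Cyf70 Sw Sw.En3 End23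
open Dl42 hiding dl
open Map77 (P2 f2 s2 i1 i2 sm2 pj ij f2_i1 f2_i2 s2_i1 s2_i2 f2_sm2 s2_sm2)
open Wz78 (SA)

variable {κ lam ν : Type} [Fintype κ] [Fintype lam] [Fintype ν] [DecidableEq ν]

section gen
variable {V E : Type} [NormedAddCommGroup V] [InnerProductSpace ℝ V] [NormedAddCommGroup E]
  [InnerProductSpace ℝ E]
open ContinuousLinearMap

variable (V) in
/-- bilinear maps -/
abbrev B2 : Type := V →L[ℝ] V →L[ℝ] V

/-- `X, U ↦ a X • i T s U` -/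
def blG (a : V →L[ℝ] ℝ) (i : E →L[ℝ] V) (s : V →L[ℝ] E) : CL (CL E E) (B2 V) :=
  smulRightL ℝ V (V →L[ℝ] V) a ∘L compL ℝ V E V i ∘L (compL ℝ V E E).flip s

/-- `X, U ↦ ⟪T s X, s U⟫ v` -/
def brG (v : V) (s : V →L[ℝ] E) : CL (CL E E) (B2 V) :=
  compL ℝ V E (V →L[ℝ] V) ((smulRightL ℝ V V).flip v ∘L (compL ℝ V E ℝ).flip s ∘L
    (innerSL ℝ : E →L[ℝ] E →L[ℝ] ℝ)) ∘L (compL ℝ V E E).flip s

/-- exchange of the arguments -/
def fl : CL (B2 V) (B2 V) := (flipₗᵢ ℝ V V V).toContinuousLinearEquiv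

@[simp] theorem fl_apply (β : B2 V) (X U : V) : fl β X U = β U X := rfl

end gen

/-- bilinear maps on the fibre -/
abbrev B3 (κ ν : Type) [Fintype κ] [Fintype ν] : Type := B2 (VV κ ν)

/-- a component -/
def cp (a : Option κ) : CL (VV κ ν) ℝ := pj ℝ a ∘L f2 _ _

@[simp] theorem cp_apply (a : Option κ) (X : VV κ ν) : cp a X = f2 _ _ X a := rfl

/-- the inclusion of a component -/
def ci (a : Option κ) : CL ℝ (VV κ ν) := i1 _ _ ∘L ij ℝ a

/-- `X, U ↦ X_a T U` -/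
def bl (a : Option κ) : CL (En ν) (B3 κ ν) := blG (cp a) (i2 _ _) (s2 _ _)

/-- `X, U ↦ ⟪T X, U⟫ e_a` -/
def br (a : Option κ) : CL (En ν) (B3 κ ν) := brG (ci a 1) (s2 _ _)

theorem bl_apply (a : Option κ) (T : En ν) (X U : VV κ ν) :
    bl a T X U = f2 _ _ X a • i2 _ _ (T (s2 _ _ U)) := rfl

theorem br_apply (a : Option κ) (T : En ν) (X U : VV κ ν) :
    br a T X U = ⟪T (s2 _ _ X), s2 _ _ U⟫_ℝ • i1 _ _ (ij ℝ a 1) := rfl

open Classical in
theorem ij_one (a b : Option κ) : ij ℝ a (1 : ℝ) b = if b = a then 1 else 0 := by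
  simp only [ij, Map77.tp_apply]
  split_ifs <;> rfl

theorem ext3 {u v : VV κ ν} (h0 : f2 _ _ u none = f2 _ _ v none)
    (h1 : ∀ k, f2 _ _ u (some k) = f2 _ _ v (some k)) (h2 : s2 _ _ u = s2 _ _ v) : u = v :=
  Map77.ext2 (PiLp.ext fun o => by cases o; exacts [h0, h1 _]) h2

variable (e : En3 κ lam ν)

/-- Clifford multiplication by the one-form -/
def nn (y : e.Y.M) : B3 κ ν := -∑ k, bl (some k) (e.m.J * τ e k y)

/-- multiplication by the function -/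
def ff (_ : e.Y.M) : B3 κ ν := bl none e.m.J

/-- the moment map -/
def qv (y : e.Y.M) : B3 κ ν := ∑ k, br (some k) (e.m.J * τ e k y)

/-- the gauge fixing term -/
def gg (_ : e.Y.M) : B3 κ ν := br none e.m.J

/-- the off-diagonal part of the Hessian -/
def cc (y : e.Y.M) : B3 κ ν := gg e y - qv e y + fl (ff e y) + fl (nn e y)

/-- the square root of the volume -/
def rv : ℝ := √(e.D.F.μ univ).toReal

/-- the spinor valued quadratic term -/
def rr (y : e.Y.M) : B3 κ ν := rv e • ff e y + nn e y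

/-- the form valued quadratic term -/
def q4 (y : e.Y.M) : B3 κ ν := (-1 / 4 : ℝ) • qv e y

/-- the section with the given components -/
def sc (f : e.Y.M → ℝ) (a : κ → e.Y.M → ℝ) (φ : e.Y.M → Eu ν) (y : e.Y.M) : VV κ ν :=
  i1 _ _ (WithLp.toLp 2 fun o : Option κ => o.elim (f y) fun k => a k y) + i2 _ _ (φ y)

/-- the configuration of a section -/
def pt (a : κ → e.Y.M → ℝ) (u : e.Y.M → VV κ ν) : e.YC :=
  ⟨fun k y => a k y + f2 _ _ (u y) (some k), fun y => s2 _ _ (u y)⟩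

/-- the holonomy of a section -/
def hl (u : e.Y.M → VV κ ν) : ℝ := hol (tg e u)

/-- the holonomy term is linear between `h` and `h + ρ` -/
def Ql (h ρ : ℝ) : Prop := deriv e.f (h + ρ) = deriv e.f h + deriv (deriv e.f) h * ρ ∧
  deriv (deriv e.f) (h + ρ) = deriv (deriv e.f) h

variable {e} {y : e.Y.M} {X U : VV κ ν} {u : e.Y.M → VV κ ν}

section comp
variable (X U)
@[simp] theorem f_nn : f2 _ _ (nn e y X U) = 0 := by simp [nn, bl_apply]
@[simp] theorem s_nn : s2 _ _ (nn e y X U) =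
    -∑ k, f2 _ _ X (some k) • e.m.J (τ e k y (s2 _ _ U)) := by simp [nn, bl_apply]
@[simp] theorem f_ff : f2 _ _ (ff e y X U) = 0 := by simp [ff, bl_apply]
@[simp] theorem s_ff : s2 _ _ (ff e y X U) = f2 _ _ X none • e.m.J (s2 _ _ U) := by
  simp [ff, bl_apply]
@[simp] theorem n_qv : f2 _ _ (qv e y X U) none = 0 := by simp [qv, br_apply, ij_one]
@[simp] theorem f_qv (k : κ) :
    f2 _ _ (qv e y X U) (some k) = ⟪e.m.J (τ e k y (s2 _ _ X)), s2 _ _ U⟫_ℝ := by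
  classical
  simp [qv, br_apply, ij_one]
@[simp] theorem s_qv : s2 _ _ (qv e y X U) = 0 := by simp [qv, br_apply]
@[simp] theorem n_gg : f2 _ _ (gg e y X U) none = ⟪e.m.J (s2 _ _ X), s2 _ _ U⟫_ℝ := by
  simp [gg, br_apply, ij_one]
@[simp] theorem f_gg (k : κ) : f2 _ _ (gg e y X U) (some k) = 0 := by simp [gg, br_apply, ij_one]
@[simp] theorem s_gg : s2 _ _ (gg e y X U) = 0 := by simp [gg, br_apply]
@[simp] theorem f_pS : f2 _ _ (pS e y X) = 0 := by simp [pS]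
@[simp] theorem s_pS : s2 _ _ (pS e y X) = e.cyl.pp (y, 0) (s2 _ _ X) := by simp [pS]
@[simp] theorem f_jS : f2 _ _ (jS e y X) = 0 := by simp [jS]
@[simp] theorem s_jS : s2 _ _ (jS e y X) = e.m.J (e.cyl.pp (y, 0) (s2 _ _ X)) := by simp [jS]
@[simp] theorem n_cst : f2 _ _ (cst e y) none = (rv e)⁻¹ := rfl
@[simp] theorem f_cst (k : κ) : f2 _ _ (cst e y) (some k) = 0 := rfl
@[simp] theorem s_cst : s2 _ _ (cst e y) = 0 := rfl
variable {f : e.Y.M → ℝ} {a : κ → e.Y.M → ℝ} {φ : e.Y.M → Eu ν}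
@[simp] theorem n_sc : f2 _ _ (sc e f a φ y) none = f y := by simp [sc]
@[simp] theorem f_sc (k : κ) : f2 _ _ (sc e f a φ y) (some k) = a k y := by simp [sc]
@[simp] theorem s_sc : s2 _ _ (sc e f a φ y) = φ y := by simp [sc]
end comp

theorem pV_iff : pV e y X = X ↔ (∀ k, ∑ j, e.D.F.P k j y * f2 _ _ X (some j) = f2 _ _ X (some k)) ∧
    e.cyl.pp (y, 0) (s2 _ _ X) = s2 _ _ X := by
  have h : ∀ o, f2 _ _ (pV e y X) o = ∑ b, cP e.D.F.P o b (y, 0) * f2 _ _ X b := fun o => by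
    rw [pV, f2_sm2]; exact Map77.idx_apply _ _ _ _
  have h0 : f2 _ _ (pV e y X) none = f2 _ _ X none := by simp [h, cP]
  have h1 : ∀ k, f2 _ _ (pV e y X) (some k) = ∑ j, e.D.F.P k j y * f2 _ _ X (some j) := fun k => by
    simp [h, cP]
  have h2 : s2 _ _ (pV e y X) = e.cyl.pp (y, 0) (s2 _ _ X) := by rw [pV, s2_sm2]
  exact ⟨fun h => ⟨fun k => by rw [← h1, h], by rw [← h2, h]⟩,
    fun h => ext3 h0 (fun k => (h1 k).trans (h.1 k)) (h2.trans h.2)⟩

theorem sm_f (hu : Sm e.Y.I u) (o : Option κ) : Sm e.Y.I fun y => f2 _ _ (u y) o :=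
  fun y => SA.clm (cp o) (hu y)

theorem sm_s (hu : Sm e.Y.I u) : Sm e.Y.I fun y => s2 _ _ (u y) := fun y => SA.clm _ (hu y)

theorem sc_eq (f : e.Y.M → ℝ) (a : κ → e.Y.M → ℝ) (φ : e.Y.M → Eu ν) (y : e.Y.M) : sc e f a φ y =
    ci none (f y) + ∑ k, ci (some k) (a k y) + i2 _ _ (φ y) := by
  classical
  have h : ∀ (o : Option κ) (r : ℝ), ij ℝ o r = r • ij ℝ o (1 : ℝ) := fun o r => by
    rw [← map_smul, smul_eq_mul, mul_one]
  refine ext3 ?_ (fun k => ?_) ?_ <;> simp [ci, h _ (f y), h _ (a _ y), ij_one]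

theorem sm_sc {f : e.Y.M → ℝ} {a φ} (hf : Sm e.Y.I f) (ha : ∀ k, Sm e.Y.I (a k)) (h : Sm e.Y.I φ) :
    Sm e.Y.I (sc e f a φ) := by
  rw [show sc e f a φ = _ from funext (sc_eq f a φ)]
  exact fun y => ((SA.clm _ (hf y)).add (SA.sum _ fun k _ => SA.clm _ (ha k y))).add (SA.clm _ (h y))

theorem sc_mem {f : e.Y.M → ℝ} (hf : Sm e.Y.I f) {v : e.YC} (h : Ay v) :
    sc e f v.a v.Φ ∈ Sec e.Y.I (pV e) :=
  ⟨sm_sc hf h.sa h.sΦ, .of_compactSpace _, fun y => pV_iff.2 ⟨fun k => by simpa using h.pa k y,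
    by simpa using h.pΦ y⟩⟩

theorem ay_pt {a : κ → e.Y.M → ℝ} {φ} (h : Ay (⟨a, φ⟩ : e.YC)) (hu : u ∈ Sec e.Y.I (pV e)) :
    Ay (pt e a u) :=
  ⟨fun k => (h.sa k).add (sm_f hu.1 _), sm_s hu.1, fun k y => by
    simp only [pt, smul_eq_mul, mul_add, Finset.sum_add_distrib]
    exact congrArg₂ _ (h.pa k y) ((pV_iff.1 (hu.2.2 y)).1 k), fun y => (pV_iff.1 (hu.2.2 y)).2⟩

theorem ay_tg (hu : u ∈ Sec e.Y.I (pV e)) : Ay (tg e u) :=
  ⟨fun _ => sm_f hu.1 _, fun y => SA.clm ((dl e)⁻¹ • s2 _ _) (hu.1 y),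
    fun k y => (pV_iff.1 (hu.2.2 y)).1 k,
    fun y => (map_smul _ _ _).trans (congrArg _ (pV_iff.1 (hu.2.2 y)).2)⟩

theorem cst_mem : cst e ∈ Sec e.Y.I (pV e) :=
  ⟨contMDiff_const, .of_compactSpace _, fun y => pV_iff.2 ⟨fun k => by simp, by simp⟩⟩

theorem rv_pos : 0 < rv e := vol_pos _

theorem ql {h : ℝ} (hq : ∃ s, ∀ᶠ r in 𝓝 h, deriv e.f r = s * (r - h)) : ∀ᶠ ρ in 𝓝 0, Ql e h ρ := by
  obtain ⟨s, hs⟩ := hq
  have h1 : ∀ᶠ r in 𝓝 h, deriv (deriv e.f) r = s := hs.eventually_nhds.mono fun r hr => by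
    rw [EventuallyEq.deriv_eq hr]
    simp
  have h2 : Tendsto (h + ·) (𝓝 0) (𝓝 h) := by
    simpa using (continuous_const_add h).tendsto (0 : ℝ)
  filter_upwards [h2 hs, h2 h1] with ρ a b
  exact ⟨by rw [show _ = _ from a, hs.self_of_nhds, h1.self_of_nhds]; ring,
    (show _ = _ from b).trans h1.self_of_nhds.symm⟩

variable (he : e.OK)
include he

theorem pp_J {s : Eu ν} (h : e.cyl.pp (y, 0) s = s) : e.cyl.pp (y, 0) (e.m.J s) = e.m.J s :=
  (Sw88.p8 he.cyl (y, 0)).pp_J h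

theorem pp_τ {s : Eu ν} (h : e.cyl.pp (y, 0) s = s) (k : κ) :
    e.cyl.pp (y, 0) (τ e k y s) = τ e k y s :=
  (Sw88.p8 he.cyl (y, 0)).pp_ρ ((Sw88.p8 he.cyl (y, 0)).pm_ρ h (some k)) none

theorem pp_pp (s : Eu ν) : e.cyl.pp (y, 0) (e.cyl.pp (y, 0) s) = e.cyl.pp (y, 0) s :=
  congrArg (· s) (Sw88.p8 he.cyl (y, 0)).pp_pp

theorem JJ (s : Eu ν) : e.m.J (e.m.J s) = -s := congrArg (· s) he.cyl.m.Jsq

theorem P_τ (k : κ) (s : Eu ν) : ∑ j, e.D.F.P k j y • τ e j y s = τ e k y s := by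
  have := congrArg (e.m.ρ none y) ((Sw88.p8 he.cyl (y, 0)).sum_ρ (some k) s)
  rw [Fintype.sum_option] at this
  simpa [En3.cyl, Nd18.YD.B, cP, τ] using this

theorem cb_Jτ (k : κ) : e.D.F.Cb fun y => e.m.J * τ e k y :=
  Cb_comp (Cb_const _) (Cb_of_compact ((sy he).sm k))

theorem cb_nn : e.D.F.Cb (nn e) := Cb_neg (Cb_sum _ fun k _ => Cb_clm _ (cb_Jτ he k))

theorem cb_qv : e.D.F.Cb (qv e) := Cb_sum _ fun k _ => Cb_clm _ (cb_Jτ he k)

theorem cb_cc : e.D.F.Cb (cc e) :=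
  have h1 : e.D.F.Cb (gg e) := Cb_const _
  have h2 : e.D.F.Cb fun y => fl (ff e y) := Cb_const (fl (bl none e.m.J))
  have h3 : e.D.F.Cb fun y => fl (nn e y) := Cb_clm fl (cb_nn he)
  Cb_add (Cb_add (Cb_sub h1 (cb_qv he)) h2) h3

theorem cb_rr : e.D.F.Cb (rr e) := Cb_add (Cb_const (rv e • bl none e.m.J)) (cb_nn he)

theorem cb_q4 : e.D.F.Cb (q4 e) := Cb_smul (Cb_const _) (cb_qv he)

theorem cb_pp : e.D.F.Cb fun y => e.cyl.pp (y, 0) :=
  have hb := he.cyl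
  have h1 : e.cyl.F.Cb e.cyl.vol := Cb_smul (Cb_const _) (Cb_sum _ fun i _ => Cb_sum _ fun j _ =>
    Cb_sum _ fun k _ => Cb_sum _ fun l _ => Cb_smul (hb.co i j k l)
      (Cb_comp (Cb_comp (Cb_comp (hb.cρ i) (hb.cρ j)) (hb.cρ k)) (hb.cρ l)))
  have h2 : e.cyl.F.Cb e.cyl.pp := Cb_smul (Cb_const _) (Cb_sub hb.cp h1)
  Cb_of_compact (sm_slice_fst h2.choose_spec.1 0)

theorem cb_pS : e.D.F.Cb (pS e) :=
  Map77.Cb_pr2 (Cb_const _) (Cb_comp (cb_pp he) (Cb_const _))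

theorem cb_jS : e.D.F.Cb (jS e) :=
  Map77.Cb_pr2 (Cb_const _) (Cb_comp (Cb_comp (Cb_const _) (cb_pp he)) (Cb_const _))

theorem mp_pS : Maps (pV e) (pV e) (pS e) := fun _ _ _ =>
  pV_iff.2 ⟨fun k => by simp, by simp [pp_pp he]⟩

theorem mp_jS : Maps (pV e) (pV e) (jS e) := fun _ _ _ =>
  pV_iff.2 ⟨fun k => by simp, by simp [pp_J he (pp_pp he _)]⟩

theorem mp_nn : Maps₂ (pV e) (pV e) (pV e) (nn e) := fun _ _ _ _ h =>
  pV_iff.2 ⟨fun k => by simp, by simp [fun k => pp_J he (pp_τ he (pV_iff.1 h).2 k)]⟩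

theorem mp_qv (X U : VV κ ν) : pV e y (qv e y X U) = qv e y X U :=
  pV_iff.2 ⟨fun k => by
    simp only [f_qv, ← P_τ he k, map_sum, map_smul, sum_inner, real_inner_smul_left], by simp⟩

theorem mp_rr : Maps₂ (pV e) (pV e) (pV e) (rr e) := fun _ _ _ _ h =>
  pV_iff.2 ⟨fun k => by simp [rr], by
    simp [rr, fun k => pp_J he (pp_τ he (pV_iff.1 h).2 k), pp_J he (pV_iff.1 h).2]⟩

theorem mp_q4 : Maps₂ (pV e) (pV e) (pV e) (q4 e) := fun _ _ _ _ _ => by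
  simp only [q4, smul_apply, map_smul, mp_qv he]

theorem mp_cc : Maps₂ (pV e) (pV e) (pV e) (cc e) := fun _ _ _ h _ =>
  pV_iff.2 ⟨fun k => by simpa [cc] using (pV_iff.1 (mp_qv he _ _)).1 k, by
    simp [cc, fun k => pp_J he (pp_τ he (pV_iff.1 h).2 k), pp_J he (pV_iff.1 h).2]⟩

theorem sd_add {a a' : κ → e.Y.M → ℝ} (h : ∀ k, Sm e.Y.I (a k)) (h' : ∀ k, Sm e.Y.I (a' k)) (k : κ)
    (y : e.Y.M) : sd e (fun k y => a k y + a' k y) k y = sd e a k y + sd e a' k y := by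
  simp only [sd, st, Wz78.d1, fun i j => Wz78.dv_add' (e := e.D.F.e i) (h j y) (h' j y), smul_add,
    ← Finset.sum_add_distrib]
  exact Finset.sum_congr rfl fun i _ => Finset.sum_congr rfl fun j _ => by
    rw [Finset.sum_add_distrib]; ring

theorem hol_pt {a : κ → e.Y.M → ℝ} {φ} (h : Ay (⟨a, φ⟩ : e.YC)) (hu : Sm e.Y.I u) :
    hol (pt e a u) = hol (⟨a, φ⟩ : e.YC) + hl e u := by
  have i : ∀ {a : κ → e.Y.M → ℝ}, (∀ k, Sm e.Y.I (a k)) →
      Integrable (fun y => 4 * ∑ k, e.ζ y (none, some k) * a k y) e.D.F.μ := fun h =>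
    ii _ fun y => SA.mul contMDiffAt_const (SA.sum _ fun k _ => SA.mul (sm_ζ he _ y) (h k y))
  rw [hl, hol, hol, hol, ← integral_add (i h.sa) (i (a := (tg e u).a) fun k => sm_f hu _)]
  simp only [pt, tg, mul_add, Finset.sum_add_distrib]

/-- the Hessian at a reducible point -/
theorem hs_red (hw : dl e = 1) (hb : e.b = 0) {θ : e.YC} (h : Ay θ) (h0 : θ.Φ = 0)
    (hu : u ∈ Sec e.Y.I (pV e)) (y : e.Y.M) : hs θ u y = sc e (dvg e (tg e u).a)
      (fun k y => sd e (tg e u).a k y / 2 + 2 * (deriv (deriv e.f) (hol θ) * hl e u) *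
        e.ζ y (none, some k) - e.D.F.D k (fun z => f2 _ _ (u z) none) y)
      (GP (⟨θ.a, fun y => s2 _ _ (u y)⟩ : e.YC)) y := by
  have ht := ay_tg hu
  have e0 : θ.vr (tg e u) 0 = θ := by ext <;> simp [YC.vr]
  have c : ∀ {N : Type} [NormedAddCommGroup N] [NormedSpace ℝ N] {g : e.Y.M → N}, Sm e.Y.I g →
      Fam e.Y.I (fun _ => g) fun _ _ => 0 := fun h => ⟨sm_fst h, fun s _ => hasDerivAt_const s _⟩
  have F : FY (θ.vr (tg e u)) fun _ => tg e u :=
    ⟨fun k => by simpa only [zero_add] using! (c (h.sa k)).add (fam_sc (ht.sa k)),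
      by simpa only [zero_add] using! (c h.sΦ).add (fam_sc ht.sΦ), fun r => ⟨fun k => (h.sa k).add
        (contMDiff_const.mul (ht.sa k)), h.sΦ.add (fam_sc ht.sΦ |>.sm.sl r), fun k y => by
          have := h.pa k y
          simp only [YC.vr, mul_add, Finset.sum_add_distrib, ← ht.pa k y, smul_eq_mul,
            Finset.mul_sum, mul_left_comm r] at this ⊢
          rw [this], fun y => by
          simp only [YC.vr, map_add, map_smul, h.pΦ, ht.pΦ]⟩⟩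
  have d1 : ∀ k, HasDerivAt (fun r => (gr (θ.vr (tg e u) r)).a k y) (sd e (tg e u).a k y / 2 +
      2 * (deriv (deriv e.f) (hol θ) * hl e u) * e.ζ y (none, some k)) 0 := fun k => by
    simp only [fun r => gr_a he (F.ay r), Ga]
    have a1 := (((he.sf.iterate_deriv 1).differentiable (by simp)
      (hol (θ.vr (tg e u) 0))).hasDerivAt.comp 0 ((F.hol he).int e.D.F.toPre 0))
    have := (((((fam_sd he F.a k).dr 0 y).div_const 2).const_add (2 * g0 e k y)).sub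
      (((fam_qq he F.Φ F.Φ k).dr 0 y).const_mul (e.w / 4))).add
        ((a1.const_mul 2).mul_const (e.ζ y (none, some k)))
    simp only [e0, qq, h0, Pi.zero_apply, map_zero, inner_zero_left, inner_zero_right, add_zero,
      mul_zero, sub_zero] at this
    exact this
  have d2 : HasDerivAt (fun r => (gr (θ.vr (tg e u) r)).Φ y)
      (GP (⟨θ.a, fun y => s2 _ _ (u y)⟩ : e.YC) y) 0 := by
    simp only [fun r => gr_Φ he (F.ay r), GP, hb, Pi.zero_apply, zero_smul, sub_zero]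
    have := ((fam_D0 he F.Φ).dr 0 y).sub (HasDerivAt.fun_sum (u := Finset.univ) fun k _ =>
      ((F.a k).dr 0 y).smul ((fam_Jτ he F.Φ k).dr 0 y))
    simp only [e0, h0, Pi.zero_apply, map_zero, smul_zero, add_zero,
      show (tg e u).Φ = fun y => s2 _ _ (u y) by simp [tg, hw]] at this
    exact this
  simp only [hs, sc, fun k => (d1 k).deriv, d2.deriv, hw, h0, Pi.zero_apply, map_zero,
    inner_zero_left, mul_zero, add_zero, smul_zero, one_smul]

end Crest.Agent.X212.St29.Tow
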