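import Crest.Agent.X212.St29.TowB

/-!
# Row 212, ES-TOW (helper29): the gradient and the Hessian near a reducible point
-/

set_option autoImplicit false
set_option linter.unusedSectionVars false
noncomputable section
open scoped Manifold ContDiff Topology InnerProductSpace
open MeasureTheory Set Function Filter

namespace Crest.Agent.X212.St29.Tow
open An An.Pre Sob92 Cyf70 Sw Sw.En3 End23
open Dl42 hiding dl
open Map77 (P2 f2 s2 i1 i2 sm2 pj ij f2_i1 f2_i2 s2_i1 s2_i2 f2_sm2 s2_sm2)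
open Wz78 (SA)

variable {κ lam ν : Type} [Fintype κ] [Fintype lam] [Fintype ν] [DecidableEq ν]
  {e : En3 κ lam ν} {θ : (lf e).YC} {u u' : e.Y.M → VV κ ν}

theorem dl_lf : dl (lf e) = 1 := by simp [dl]

theorem ay_lf {a φ} (h : (lf e).cyl.Adm (fz (⟨a, φ⟩ : (lf e).YC))) : Ay (⟨a, φ⟩ : e.YC) :=
  have h := ay_of h
  ⟨h.sa, h.sΦ, h.pa, h.pΦ⟩

theorem sq_zero {a : κ → ℝ} {b r : ℝ} (hr : 0 < r) (h : 2 * ∑ k, a k ^ 2 + r * b ^ 2 = 0) :
    (∀ k, a k = 0) ∧ b = 0 := by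
  have h1 := Finset.sum_nonneg (s := Finset.univ) fun k _ => sq_nonneg (a k)
  have h2 := mul_nonneg hr.le (sq_nonneg b)
  exact ⟨fun k => pow_eq_zero_iff two_ne_zero |>.1 ((Finset.sum_eq_zero_iff_of_nonneg fun k _ =>
    sq_nonneg _).1 (by linarith) k (Finset.mem_univ _)), pow_eq_zero_iff two_ne_zero |>.1
      ((mul_eq_zero.1 (by linarith : r * b ^ 2 = 0)).resolve_left hr.ne')⟩

/-- the equation of `Rad96.Sol` at function level -/
def Eqn (θ : (lf e).YC) (u : e.Y.M → VV κ ν) : Prop := ∀ y, hs (e := lf e) θ u y +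
  rr e y (u y) (u y) + e.w • q4 e y (u y) (u y) = e.b (nm (pt e θ.a u)) • pS e y (u y)

variable (he : e.OK) (h0 : (lf e).OK) (hθ : Red θ) (hu : u ∈ Sec e.Y.I (pV e))
  (hq : Ql e (hol θ) (hl e u))
include he h0 hθ hu hq

theorem eqn_iff : Eqn θ u ↔ (∀ y, dvg e (tg e u).a y = 0) ∧
    (∀ k y, (gr (pt e θ.a u)).a k y = e.D.F.D k (fun z => f2 _ _ (u z) none) y) ∧
    ∀ y, (gr (pt e θ.a u)).Φ y = -(rv e * f2 _ _ (u y) none) • e.m.J (s2 _ _ (u y)) := by
  have a0 : Ay (⟨θ.a, θ.Φ⟩ : e.YC) := ay_lf hθ.1.1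
  have H : ∀ y, hs (e := lf e) θ u y = sc e (dvg e (tg e u).a)
      (fun k y => sd e (tg e u).a k y / 2 + 2 * (deriv (deriv e.f) (hol θ) * hl e u) *
        e.ζ y (none, some k) - e.D.F.D k (fun z => f2 _ _ (u z) none) y)
      (GP (⟨θ.a, fun y => s2 _ _ (u y)⟩ : e.YC)) y :=
    hs_red (e := lf e) h0 dl_lf rfl (ay_of hθ.1.1) hθ.2 hu
  have c : ∀ k y, 2 * g0 e k y + sd e θ.a k y / 2 + 2 * deriv e.f (hol θ) * e.ζ y (none, some k) = 0 :=
    fun k y => by
    have := (gr_a h0 (ay_of hθ.1.1) k y).symm.trans (hθ.1.2.1 k y)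
    simp only [Ga, qq, hθ.2, Pi.zero_apply, inner_zero_right, mul_zero, sub_zero] at this
    exact this
  have h1 : ∀ k y, (gr (pt e θ.a u)).a k y = sd e (tg e u).a k y / 2 +
      2 * (deriv (deriv e.f) (hol θ) * hl e u) * e.ζ y (none, some k) -
        e.w / 4 * ⟪e.m.J (τ e k y (s2 _ _ (u y))), s2 _ _ (u y)⟫_ℝ := fun k y => by
    rw [gr_a he (ay_pt a0 hu), hol_pt he a0 hu.1, show hol (⟨θ.a, θ.Φ⟩ : e.YC) = hol θ from rfl,
      hq.1, Ga, show sd e (pt e θ.a u).a k y = _ from sd_add he a0.sa (ay_tg hu).sa k y]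
    simp only [qq, pt]
    linear_combination c k y
  have h2 : ∀ y, (gr (pt e θ.a u)).Φ y = GP (⟨θ.a, fun y => s2 _ _ (u y)⟩ : e.YC) y -
      ∑ k, f2 _ _ (u y) (some k) • e.m.J (τ e k y (s2 _ _ (u y))) -
        e.b (nm (pt e θ.a u)) • s2 _ _ (u y) := fun y => by
    rw [gr_Φ he (ay_pt a0 hu)]
    simp only [GP, pt, add_smul, Finset.sum_add_distrib]
    abel
  have p := fun y => (pV_iff.1 (hu.2.2 y)).2
  simp only [Eqn, H, h1, h2]
  refine ⟨fun h => ⟨fun y => ?_, fun k y => ?_, fun y => ?_⟩, fun h y => ext3 ?_ (fun k => ?_) ?_⟩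
  · simpa [rr, q4] using congrArg (cp none) (h y)
  · have := congrArg (cp (some k)) (h y)
    simp [rr, q4] at this
    linarith
  · have := congrArg (s2 _ _) (h y)
    simp [rr, q4, p, smul_smul] at this
    rw [← this]
    module
  · simpa [rr, q4] using h.1 y
  · have := h.2.1 k y
    simp [rr, q4]
    linarith
  · have := h.2.2 y
    simp [rr, q4, p, smul_smul]
    rw [← sub_eq_zero] at this ⊢
    rw [← this]
    module

theorem crit_of (hw : 0 < e.w) (h : Eqn θ u) : Crit (pt e θ.a u) := by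
  obtain ⟨-, h1, h2⟩ := (eqn_iff he h0 hθ hu hq).1 h
  have a0 := ay_pt (ay_lf (φ := θ.Φ) hθ.1.1) hu
  have s := sm_f hu.1 none
  have e1 : ∀ y, ipd (gr (pt e θ.a u)) (gau (pt e θ.a u) fun z => f2 _ _ (u z) none) y =
      2 * ∑ k, e.D.F.D k (fun z => f2 _ _ (u z) none) y ^ 2 +
        e.w * rv e * ‖f2 _ _ (u y) none • e.m.J (s2 _ _ (u y))‖ ^ 2 := fun y => by
    simp only [ipd, gau, h1, h2, neg_smul, inner_neg_neg, mul_smul, real_inner_smul_left _ _ (rv e),
      sq, mul_assoc, ← real_inner_self_eq_norm_mul_norm]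
    rfl
  have r := mul_pos hw (rv_pos (e := e))
  have z := fun y => sq_zero r (zero_of_int e.D.F.toPre (((continuous_finsetSum _ fun k _ =>
    (e.D.F.sm_D s k).continuous.pow 2).const_mul 2).add (((s.continuous.smul (e.m.J.continuous.comp
      (sm_s hu.1).continuous)).norm.pow 2).const_mul (e.w * rv e))) (fun y => add_nonneg
      (mul_nonneg zero_le_two (Finset.sum_nonneg fun _ _ => sq_nonneg _)) (mul_nonneg r.le (sq_nonneg _)))
    ((integral_congr_ae (.of_forall e1)).symm.trans (nul_gau he a0 s).zero) y)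
  exact ⟨a0.adm, fun k y => (h1 k y).trans ((z y).1 k), fun y => by
    rw [h2, neg_smul, mul_smul, show f2 _ _ (u y) none • e.m.J (s2 _ _ (u y)) = 0 from
      norm_eq_zero.1 (z y).2, smul_zero, neg_zero]⟩

/-- the Hessian -/
theorem av_eq (hw : 0 < e.w) (hu' : u' ∈ Sec e.Y.I (pV e)) (y : e.Y.M) :
    End23.av (pt e θ.a u) u' y = End23.av (e := lf e) θ u' y + nn e y (u y) (u' y) -
      e.b (nm (pt e θ.a u)) • pS e y (u' y) - (2 * deriv e.b (nm (pt e θ.a u))) •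
        (∫ z, ⟪s2 _ _ (u z), s2 _ _ (u' z)⟫_ℝ ∂e.D.F.μ) • pS e y (u y) +
      dl e • cc e y (u y) (u' y) := by
  have p := (pV_iff.1 (hu.2.2 y)).2
  have p' := (pV_iff.1 (hu'.2.2 y)).2
  have d : 0 < dl e := Real.sqrt_pos.2 (by positivity)
  have w : e.w = 2 * dl e ^ 2 := by rw [dl, Real.sq_sqrt (by positivity)]; ring
  have H : End23.av (e := lf e) θ u' y = sc e 0 (fun k y => 2 * (deriv (deriv e.f) (hol θ) *
      hol (tg e u') * e.ζ y (none, some k))) (fun y => -∑ k, θ.a k y •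
        e.m.J (τ e k y (s2 _ _ (u' y)))) y := by
    have z : ∀ a, (lf e).cyl.qd (y, 0) a 0 = 0 ∧ (lf e).cyl.qd (y, 0) 0 a = 0 := fun a => by
      constructor <;> ext <;> simp [Bg.qd]
    refine ext3 ?_ (fun k => ?_) ?_ <;> simp [End23.av, hθ.2, dl_lf, tg, z, τ, Jρ he, hol]
  have q : ∀ (a b : Eu ν) k, e.cyl.pp (y, 0) b = b → e.cyl.p2 (y, 0) (e.cyl.qd (y, 0) a b)
      (none, some k) = 1 / 8 * ⟪e.m.J (τ e k y b), a⟫_ℝ := fun a b k h => by
    rw [Sw88.p2_qd he.cyl h]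
    exact (congrArg (_ + · / 8) (zero_mul _)).trans (by rw [zero_div, add_zero]; rfl)
  rw [H]
  refine ext3 ?_ (fun k => ?_) ?_
  · simp [End23.av, cc, pt]
  · have c := qq_comm he k (fun _ => s2 _ _ (u y)) (fun _ => s2 _ _ (u' y)) y
    simp only [qq] at c
    have := hol_pt he (ay_lf (φ := θ.Φ) hθ.1.1) hu.1
    simp [End23.av, cc, this, show hol (⟨θ.a, θ.Φ⟩ : e.YC) = hol θ from rfl, hq.2]
    simp only [pt, tg, q _ _ k p, q _ _ k ((map_smul _ _ _).trans (congrArg _ p')), map_smul,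
      real_inner_smul_left, real_inner_smul_right, ← c, w]
    field_simp
    ring
  · simp [End23.av, cc, p, p', tg, τ, Jρ he, real_inner_smul_right, integral_const_mul]
    have i : ∀ a, dl e * (a * (dl e)⁻¹) = a := fun a => by field_simp
    have i' : ∀ a b, dl e * (a * (2 * ((dl e)⁻¹ * b))) = 2 * a * b := fun a b => by field_simp
    simp only [pt, smul_sub, smul_add, smul_smul, Finset.smul_sum, Finset.sum_add_distrib, i, i',
      add_smul]
    abel

end Crest.Agent.X212.St29.Tow
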