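import Crest.Agent.X212.St29.TowC
import Crest.Agent.X212.Cht98.Br

/-!
# Row 212, ES-TOW (helper29): the equations on Sobolev spaces
-/

set_option autoImplicit false
set_option linter.unusedSectionVars false
noncomputable section
open scoped Manifold ContDiff Topology InnerProductSpace
open MeasureTheory Set Function Filter Module

namespace Crest.Agent.X212.St29.Tow
open An An.Pre Sob92 Cyf70 Sw Sw.En3 End23 Rad96
open Dl42 hiding dl
open Map77 (P2 f2 s2 i1 i2 sm2 pj ij f2_i1 f2_i2 s2_i1 s2_i2 f2_sm2 s2_sm2)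
open Wz78 (SA)

variable {κ lam ν : Type} [Fintype κ] [Fintype lam] [Fintype ν] [DecidableEq ν]
  (e : En3 κ lam ν)

/-- smooth sections -/
abbrev SV : Type := Sec e.Y.I (pV e)

/-- the class of a section -/
abbrev tk (k : ℕ) : SV e →ₗ[ℝ] XH e k := e.D.F.toH k (pV e)

/-- inclusions -/
abbrev ic (k j : ℕ) : XH e k →L[ℝ] XH e j := e.D.F.incl k j (pV e)

/-- products -/
abbrev BH (k j l : ℕ) (β : e.Y.M → B3 κ ν) : XH e k →L[ℝ] XH e j →L[ℝ] XH e l :=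
  e.D.F.bilH k j (pV e) (pV e) (pV e) l β

abbrev PH (k : ℕ) : XH e k →L[ℝ] XH e k := e.D.F.mulH k _ _ (pS e)

abbrev JH (k : ℕ) : XH e k →L[ℝ] XH e k := e.D.F.mulH k _ _ (jS e)

/-- the spinor valued quadratic term -/
def RH (k : ℕ) : XH e (k + 1) →L[ℝ] XH e (k + 1) →L[ℝ] XH e k :=
  BH e k (k + 1) k (rr e) ∘L ic e (k + 1) k

/-- the spinor in `L²` -/
def pH (k : ℕ) : XH e k →L[ℝ] XH e 0 := PH e 0 ∘L ic e k 0

variable {e}

/-- the linear part -/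
abbrev TK (θ : (lf e).YC) (k : ℕ) : XH e (k + 1) →L[ℝ] XH e k :=
  e.D.F.lift (k + 1) k (pV e) (pV e) (hs (e := lf e) θ)

/-- the main part of the Hessian -/
def GG (θ : (lf e).YC) (b : ℝ → ℝ) (k : ℕ) (X : XH e k) : XH e 0 →L[ℝ] XH e 0 :=
  aL θ + BH e k 0 0 (nn e) X - b (‖pH e k X‖ ^ 2) • PH e 0 -
    (2 * deriv b (‖pH e k X‖ ^ 2)) • tt (pH e k X)

theorem tH_eq (k : ℕ) (u : SV e) : tH e k u.1 = tk e k u := dif_pos u.2

theorem tame : ∃ C, e.D.F.Tame C := Cht98.exists_tame _ (by rw [e.Y.dim]; norm_num)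

theorem sup : ∃ S, Sob92.Sup e.D.F.toPre S := ⟨_, .of_tame tame.choose_spec⟩

theorem is_ext {k : ℕ} {x y : XH e k} {u v} (hx : Is e.D.F.toPre k _ x u)
    (hy : Is e.D.F.toPre k _ y v) (h : ∀ᵐ z ∂e.D.F.μ, u z = v z) : x = y := (hx.congr h).unique hy

theorem is_self {k : ℕ} (x : XH e k) : Is e.D.F.toPre k _ x (e.D.F.toL2 k _ x) := .rfl

theorem ae_pp {k : ℕ} (x : XH e k) : ∀ᵐ z ∂e.D.F.μ,
    e.cyl.pp (z, 0) (s2 _ _ (e.D.F.toL2 k _ x z)) = s2 _ _ (e.D.F.toL2 k _ x z) :=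
  (toL2_proj x).mono fun _ h => (pV_iff.1 h).2

/-- the holonomy is a bounded functional -/
theorem exists_hl (he : e.OK) (k : ℕ) : ∃ Λ : XH e k →L[ℝ] ℝ, ∀ u : SV e, Λ (tk e k u) = hl e u.1 := by
  let z : Sec e.Y.I (triv e.Y.M (VV κ ν)) := ⟨sc e 0 (fun k y => 4 * e.ζ y (none, some k)) 0,
    mem_triv (sm_sc contMDiff_const (fun k => contMDiff_const.mul (sm_ζ he _)) contMDiff_const)
      (.of_compactSpace _)⟩
  refine ⟨innerSL ℝ (e.D.F.toH 0 _ z) ∘L fg _ 0 _ ∘L ic e k 0, fun u => ?_⟩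
  obtain ⟨w, h1, h2⟩ := rep_fg (F := e.D.F.toPre) (k := 0) u
  simp only [ContinuousLinearMap.comp_apply, incl_toH (Nat.zero_le k), h2, innerSL_apply_apply,
    inner_toH, h1, Pre.ip, hl, hol, Map77.inner2, Map77.inner_fm, Fintype.sum_option, z]
  simp [tg, Finset.mul_sum, mul_comm, mul_assoc]

variable (he : e.OK) {k : ℕ}
include he

theorem rP (k : ℕ) : e.D.F.Rep (PH e k) fun u y => pS e y (u y) := rep_mulH (cb_pS he) (mp_pS he)

theorem rJ (k : ℕ) : e.D.F.Rep (JH e k) fun u y => jS e y (u y) := rep_mulH (cb_jS he) (mp_jS he)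

theorem inner_pH (u v : SV e) :
    ⟪pH e k (tk e k u), tk e 0 v⟫_ℝ = ∫ z, ⟪s2 _ _ (u.1 z), s2 _ _ (v.1 z)⟫_ℝ ∂e.D.F.μ := by
  obtain ⟨w, h1, h2⟩ := rP he 0 u
  simp only [pH, ContinuousLinearMap.comp_apply, incl_toH (Nat.zero_le k), h2, inner_toH, h1, Pre.ip,
    Map77.inner2, f_pS, s_pS, inner_zero_left, zero_add, fun z => (pV_iff.1 (u.2.2.2 z)).2]

theorem norm_pH (a) (u : SV e) : ‖pH e k (tk e k u)‖ ^ 2 = nm (pt e a u.1) := by
  obtain ⟨w, h1, h2⟩ := rP he 0 u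
  have := inner_pH he (k := k) u w
  rw [← h2, ← incl_toH (Nat.zero_le k) u, h1] at this
  simp only [s_pS, fun z => (pV_iff.1 (u.2.2.2 z)).2, real_inner_self_eq_norm_sq] at this
  exact (real_inner_self_eq_norm_sq _).symm.trans this

theorem jPi (x : XH e (k + 1)) : ic e k 0 (PH e k (ic e (k + 1) k x)) = pH e (k + 1) x := by
  rw [incl_mulH (cb_pS he) (mp_pS he) (Nat.zero_le k), incl_incl (by omega) (by omega)]; rfl

/-- the quadratic terms -/
theorem nl (hk : 7 ≤ k) (hc : IsCompactOperator (ic e (k + 1) k)) :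
    Nl (ic e (k + 1) k) (ic e k 0) (PH e (k + 1)) (JH e (k + 1)) (PH e k) (JH e k)
      (tH e (k + 1) (cst e)) (RH e k) (BH e (k + 1) (k + 1) k (q4 e)) := by
  obtain ⟨S, hS⟩ := sup (e := e)
  have R : ∀ {x y X Y}, Is e.D.F.toPre _ _ x X → Is e.D.F.toPre _ _ y Y →
      Is e.D.F.toPre _ _ (RH e k x y) fun z => rr e z (X z) (Y z) := fun hx hy =>
    Is.bilH hS ((Lev.self hk).of_le le_rfl k.le_succ le_rfl) (cb_rr he) (mp_rr he)
      (hx.incl k.le_succ) hy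
  have Q : ∀ {x y X Y}, Is e.D.F.toPre _ _ x X → Is e.D.F.toPre _ _ y Y →
      Is e.D.F.toPre _ _ (BH e (k + 1) (k + 1) k (q4 e) x y) fun z => q4 e z (X z) (Y z) :=
    fun hx hy => Is.bilH hS ((Lev.self hk).of_le k.le_succ k.le_succ le_rfl) (cb_q4 he) (mp_q4 he)
      hx hy
  have P : ∀ {m x X}, Is e.D.F.toPre m _ x X → Is e.D.F.toPre m _ (PH e m x) _ := fun h =>
    h.mulH (cb_pS he) (mp_pS he)
  have J : ∀ {m x X}, Is e.D.F.toPre m _ x X → Is e.D.F.toPre m _ (JH e m x) _ := fun h =>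
    h.mulH (cb_jS he) (mp_jS he)
  have c : tH e (k + 1) (cst e) = _ := tH_eq (k + 1) (⟨cst e, cst_mem⟩ : SV e)
  have c' : Is e.D.F.toPre _ _ (tH e (k + 1) (cst e)) (cst e) := c ▸ Is.toH _
  have sk : ∀ a b, ⟪e.m.J a, b⟫_ℝ = -⟪a, e.m.J b⟫_ℝ := J_skw he
  have pJ : ∀ z s, e.cyl.pp (z, 0) (e.m.J s) = e.m.J (e.cyl.pp (z, 0) s) := fun z s =>
    (congrArg (· s) (Pb50.Jpp he.cyl (z, 0))).symm
  have pτ : ∀ z i s, e.cyl.pp (z, 0) (τ e i z s) = τ e i z (e.cyl.pp (z, 0) s) := fun z i s =>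
    have h := Sw88.p8 he.cyl (z, 0)
    ((congrArg (e.m.ρ none z) (congrArg (· s) (h.ρ_pp (some i)))).trans
      (congrArg (· (e.m.ρ (some i) z s)) (h.ρ_pm none))).symm
  refine ⟨fun x y => is_ext (R (P (is_self x)) (is_self y)) .zero (.of_forall fun z => ?_),
    fun x y => is_ext (R (is_self x) (P (is_self y))) (R (is_self x) (is_self y))
      ((ae_pp y).mono fun z h => ?_),
    fun x y => is_ext (P (R (is_self x) (is_self y))) (R (is_self x) (is_self y))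
      ((ae_pp y).mono fun z h => ?_),
    fun x y => is_ext (R (is_self x) (J (is_self y))) (J (R (is_self x) (is_self y)))
      ((ae_pp y).mono fun z h => ?_),
    fun y => is_ext (R c' (is_self y)) (J ((is_self y).incl k.le_succ))
      ((ae_pp y).mono fun z h => ?_),
    fun y => hc.clm_comp ((BH e k (k + 1) k (rr e)).flip y),
    fun x y => is_ext (Q (P (is_self x)) (P (is_self y))) (Q (is_self x) (is_self y))
      (((ae_pp x).and (ae_pp y)).mono fun z h => ?_),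
    fun x y => is_ext (P (Q (is_self x) (is_self y))) .zero (.of_forall fun z => ?_),
    fun x => is_ext (Q (J (is_self x)) (J (is_self x))) (Q (is_self x) (is_self x))
      ((ae_pp x).mono fun z h => ?_),
    fun x => is_ext ((Q (J (is_self x)) (is_self x)).add (Q (is_self x) (J (is_self x)))) .zero
      ((ae_pp x).mono fun z h => ?_), fun x => ?_⟩
  iterate 9 refine ext3 ?_ (fun k => ?_) ?_ <;>
    simp [rr, q4, *, ← Jτ he, JJ he, (rv_pos (e := e)).ne', smul_smul]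
  rw [c, incl_toH k.le_succ, incl_toH (Nat.zero_le k), (Q (is_self x) (is_self x)).inner_toH]
  simp only [Pre.ip, Map77.inner2, Map77.inner_fm, Fintype.sum_option]
  simp [q4]

variable (hS : SfStmt κ lam ν) (hA : AhStmt κ lam ν) (h0 : (lf e).OK) {θ : (lf e).YC} (hθ : Red θ)
include hS hA h0 hθ

omit he in
theorem dT : ∃ σ B C, (⟨pV e, pV e, σ, B⟩ : An.Op e.Y.M κ (VV κ ν) (VV κ ν)).Good e.D.F C ∧
    (⟨pV e, pV e, σ, B⟩ : An.Op e.Y.M κ (VV κ ν) (VV κ ν)).CliffL e.D.F ∧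
    ∃ Z : ∀ m, XH e m →L[ℝ] XH e m, (∀ m, e.D.F.Rep (Z m) (End23.av (e := lf e) θ)) ∧
      ∀ m, e.D.F.Rep (e.D.F.opH m _ _ σ B + Z m ∘L ic e (m + 1) m) (hs (e := lf e) θ) := by
  obtain ⟨⟨σ, B, C, h1, h2, -, h3⟩, -⟩ := hS (lf e) h0
  obtain ⟨h4, -, -, h5, -⟩ := hA (lf e) h0 two_pos θ hθ.1.1
  exact ⟨σ, B, C, h1, h2, _, h5, fun m => RepT_congr (RepT_add (rep_OpH h1 m).1
    (RepT_comp (h5 m) (rep_incl m.le_succ))) fun u => funext fun y =>
      (congrArg₂ _ (congrFun (h3 u) y) (h4 u.1 u.2 y).symm).trans (add_sub_cancel _ _)⟩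

omit he in
theorem rT (m : ℕ) : e.D.F.Rep (TK θ m) (hs (e := lf e) θ) := by
  obtain ⟨σ, B, C, -, -, Z, -, h⟩ := dT hS hA h0 hθ
  rw [TK, lift, (h m).liftT_eq]
  exact h m

/-- solutions are smooth -/
theorem smooth (hk : 7 ≤ k) {b t} {x : XH e (k + 1)} (h : Sol (ic e (k + 1) k) (TK θ k) (ic e k 0)
    (PH e k) (RH e k) (BH e (k + 1) (k + 1) k (q4 e)) b t x) : ∃ u, tk e (k + 1) u = x := by
  obtain ⟨σ, B, C, h1, h2, Z, h3, h4⟩ := dT hS hA h0 hθ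
  obtain ⟨C', hF⟩ := tame (e := e)
  have S := Sup.of_tame hF
  refine boot hF h1 h2 (fun m y => b (‖ic e k 0 (PH e k (ic e (k + 1) k x))‖ ^ 2) • PH e m y -
    t • BH e m m m (q4 e) y y - BH e m m m (rr e) y y - Z m y) (fun m hm y => ?_) ?_
  · have L := Lev.self (hk.trans hm)
    have L' := Lev.self (hk.trans (hm.trans m.le_succ))
    simp only [map_sub, map_smul, incl_mulH (cb_pS he) (mp_pS he) m.le_succ,
      incl_bilH S L' L m.le_succ m.le_succ m.le_succ (cb_q4 he) (mp_q4 he),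
      incl_bilH S L' L m.le_succ m.le_succ m.le_succ (cb_rr he) (mp_rr he),
      Rep_incl (h3 (m + 1)) (h3 m) m.le_succ m.le_succ]
  · have L := Lev.self hk
    rw [← h, (h4 k).unique (rT hS hA h0 hθ k) |>.symm, ← incl_bilH S (L.of_le k.le_succ k.le_succ le_rfl)
      L k.le_succ k.le_succ le_rfl (cb_q4 he) (mp_q4 he), incl_self]
    have := incl_bilH S (L.of_le le_rfl k.le_succ le_rfl) L le_rfl k.le_succ le_rfl (cb_rr he)
      (mp_rr he) (ic e (k + 1) k x) x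
    rw [incl_self, incl_self] at this
    rw [← this]
    simp [RH, Op.H]

theorem sol_iff (hk : 7 ≤ k) (u : SV e) : Sol (ic e (k + 1) k) (TK θ k) (ic e k 0)
    (PH e k) (RH e k) (BH e (k + 1) (k + 1) k (q4 e)) e.b e.w (tk e (k + 1) u) ↔ Eqn θ u.1 := by
  obtain ⟨S, S⟩ := sup (e := e)
  have L := Lev.self hk
  obtain ⟨w1, a1, b1⟩ := rT hS hA h0 hθ k u
  obtain ⟨w2, a2, b2⟩ := rep_bilH S (L.of_le le_rfl k.le_succ le_rfl) (cb_rr he) (mp_rr he) u u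
  obtain ⟨w3, a3, b3⟩ := rep_bilH S (L.of_le k.le_succ k.le_succ le_rfl) (cb_q4 he) (mp_q4 he) u u
  obtain ⟨w4, a4, b4⟩ := rP he k u
  rw [Sol, jPi he, norm_pH he θ.a, RH, ContinuousLinearMap.comp_apply, incl_toH k.le_succ, b1, b2, b3,
    b4, ← map_smul, ← map_smul, ← map_add, ← map_add, (Ell97.toH_inj _ _ _).eq_iff, Subtype.ext_iff,
    funext_iff]
  simp only [Submodule.coe_add, Submodule.coe_smul, a1, a2, a3, a4, Pi.add_apply, Pi.smul_apply, Eqn]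

omit hS in
/-- the Hessian -/
theorem hess (hk : 7 ≤ k) (hw : 0 < e.w) (u : SV e) (hq : Ql e (hol θ) (hl e u.1)) :
    aH (pt e θ.a u.1) ∈ Crt72.symA _ ∧
      aH (pt e θ.a u.1) = GG θ e.b k (tk e k u) + dl e • BH e k 0 0 (cc e) (tk e k u) := by
  obtain ⟨S, S⟩ := sup (e := e)
  have L : Lev k 0 0 := .left hk (Nat.zero_le k)
  obtain ⟨-, a1, a2, -⟩ := hA e he hw _ (ay_pt (ay_lf (φ := θ.Φ) hθ.1.1) u.2).adm
  have a3 : e.D.F.Rep (aL θ) (End23.av (e := lf e) θ) := (hA (lf e) h0 two_pos θ hθ.1.1).2.1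
  obtain ⟨w, b1, b2⟩ := rP he 0 u
  have a4 : e.D.F.Rep (tt (pH e k (tk e k u))) fun v => (∫ z, ⟪s2 _ _ (u.1 z), s2 _ _ (v z)⟫_ℝ
      ∂e.D.F.μ) • fun y => pS e y (u.1 y) := fun v => ⟨_ • w, congrArg (_ • ·) b1, by
    rw [tt_apply, inner_pH he, map_smul, ← b2, ← incl_toH (Nat.zero_le k) u]; rfl⟩
  refine ⟨a2, RepT_eq a1 (RepT_add (RepT_sub (RepT_sub (RepT_add a3 (Rep₂_left (rep_bilH S L
    (cb_nn he) (mp_nn he)) u)) (RepT_smul _ (rP he 0))) (RepT_smul _ a4)) (RepT_smul _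
      (Rep₂_left (rep_bilH S L (cb_cc he) (mp_cc he)) u))) fun v => funext fun y => ?_⟩
  rw [norm_pH he θ.a]
  exact av_eq he h0 hθ u.2 hq hw v.2 y

end Crest.Agent.X212.St29.Tow
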