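import Crest.Agent.X212.St29.TowD

/-!
# Row 212, ES-TOW (helper29): eigenspinors and the degree
-/

set_option autoImplicit false
set_option linter.unusedSectionVars false
noncomputable section
open scoped Manifold ContDiff Topology InnerProductSpace
open MeasureTheory Set Function Filter Module

namespace Crest.Agent.X212.St29.Tow
open An An.Pre Sob92 Cyf70 Sw Sw.En3 End23 Rad96
open Dl42 hiding dl
open Map77 (P2 f2 s2 i1 i2 sm2 pj ij f2_i1 f2_i2 s2_i1 s2_i2 f2_sm2 s2_sm2)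
open Wz78 (SA)
open Crt72 (symA)

variable {κ lam ν : Type} [Fintype κ] [Fintype lam] [Fintype ν] [DecidableEq ν]
  {e : En3 κ lam ν} {θ : (lf e).YC} {l : ℝ} {φ : e.Y.M → Eu ν} {k : ℕ}

/-- the section of an eigenspinor -/
def eg (h : Eg θ l φ) : SV e := ⟨fun y => i2 _ _ (φ y),
  fun y => SA.clm _ ((ay_lf h.1).sΦ y), .of_compactSpace _, fun y =>
    pV_iff.2 ⟨fun k => by simp, (ay_lf h.1).pΦ y⟩⟩

theorem eg_ne (h : Eg θ l φ) : tk e k (eg h) = 0 ↔ φ = 0 := by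
  rw [map_eq_zero_iff _ (Ell97.toH_inj _ _ _), Subtype.ext_iff]
  exact ⟨fun h => funext fun y => congrArg (s2 _ _) (congrFun h y), fun h => funext fun y => by
    simp [eg, h]⟩

/-- the eigenspaces consist of eigenspinors -/
def Ev (θ : (lf e).YC) (k : ℕ) : Prop := ∀ l x, x ∈ Eig (ic e (k + 1) k) (TK θ k) (PH e (k + 1)) l ↔
  ∃ φ, Eg θ l φ ∧ x = tH e (k + 1) fun y => i2 _ _ (φ y)

theorem Ev.iff (H : Ev θ k) {x} : x ∈ Eig (ic e (k + 1) k) (TK θ k) (PH e (k + 1)) l ↔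
    ∃ φ, ∃ h : Eg θ l φ, x = tk e (k + 1) (eg h) := (H l x).trans
  ⟨fun ⟨φ, h, h'⟩ => ⟨φ, h, h'.trans (tH_eq _ (eg h))⟩,
    fun ⟨φ, h, h'⟩ => ⟨φ, h, h'.trans (tH_eq _ (eg h)).symm⟩⟩

theorem Ev.spec (H : Ev θ k) : Spec (ic e (k + 1) k) (TK θ k) (PH e (k + 1)) = spec θ := by
  ext l
  refine (Submodule.ne_bot_iff _).trans ⟨fun ⟨x, h1, h2⟩ => ?_, fun ⟨φ, h1, h2⟩ =>
    ⟨_, H.iff.2 ⟨φ, h2, rfl⟩, (eg_ne h2).not.2 h1⟩⟩
  obtain ⟨φ, h, rfl⟩ := H.iff.1 h1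
  exact ⟨φ, (eg_ne h).not.1 h2, h⟩

theorem Ev.simple (H : Ev θ k) (he : e.OK) (hs : ∀ l ≥ 0, Smp θ l) (c : ℝ) :
    Simple (ic e (k + 1) k) (TK θ k) (PH e (k + 1)) (Icc 0 c) := fun l hl => by
  classical
  by_cases h : l ∈ End23.spec θ
  · obtain ⟨φ, h1, h2⟩ := h
    obtain ⟨w, a, b⟩ := rJ he (k + 1) (eg h2)
    have := FiniteDimensional.span_of_finite ℝ (finite_range ![tk e (k + 1) (eg h2), tk e _ w])
    refine (Submodule.finrank_mono (t := .span ℝ (range ![tk e _ (eg h2), tk e _ w]))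
      fun x hx => ?_).trans ((finrank_range_le_card _).trans (by simp))
    obtain ⟨ψ, h3, rfl⟩ := H.iff.1 hx
    obtain ⟨z, hz⟩ := hs l hl.1 φ ψ h1 h2 h3
    refine (Submodule.mem_span_range_iff_exists_fun _).2 ⟨![z.re, z.im], ?_⟩
    simp only [Fin.sum_univ_two, Matrix.cons_val_zero, Matrix.cons_val_one, ← map_smul, ← map_add]
    refine congrArg _ (Subtype.ext (funext fun y => ext3 ?_ (fun k => ?_) ?_)) <;>
      simp [a, eg, hz, cs, show e.cyl.pp (y, 0) (φ y) = φ y from (ay_lf h2.1).pΦ y]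
  · rw [← H.spec] at h
    rw [not_not.1 h, finrank_bot]
    norm_num

theorem dist_le (k : ℕ) : ∃ C, ∀ (a φ) (u v : SV e), (∀ y, v.1 y = i2 _ _ (φ y)) →
    En3.dist k (pt e a u.1) ⟨a, φ⟩ ≤ C * ‖tk e k u - tk e k v‖ := by
  refine ⟨∑ i : κ, cK κ k * ‖(cp (some i) : CL (VV κ ν) ℝ)‖ +
    cK κ k * ‖s2 (Fm (Option κ) ℝ) (Eu ν)‖, fun a φ u v h => ?_⟩
  rw [← map_sub, norm_toH, add_mul, Finset.sum_mul]
  refine add_le_add (Finset.sum_le_sum fun i _ => le_of_eq_of_le (congrArg _ (funext fun y => ?_))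
    (nrm_clm _ _ k (u - v).2.1)) (le_of_eq_of_le (congrArg _ (funext fun y => ?_))
      (nrm_clm _ _ k (u - v).2.1)) <;> simp [pt, h]

theorem form_le (k : ℕ) : ∃ C ≥ 0, ∀ (u : SV e) (a : κ → e.Y.M → ℝ) (ε : ℝ), u.1 = sc e 0 a 0 →
    (∀ i, e.D.F.nrm k (a i) ≤ ε) → ‖tk e k u‖ ≤ C * ε := by
  refine ⟨∑ i : κ, cK κ k * ‖(ci (some i) : CL ℝ (VV κ ν))‖, Finset.sum_nonneg fun i _ =>
    mul_nonneg (cK_nonneg _) (norm_nonneg _), fun u a ε h h' => ?_⟩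
  have s : ∀ i, Sm e.Y.I (a i) := fun i => by simpa [h] using sm_f u.2.1 (some i)
  rw [norm_toH, h, show sc e 0 a 0 = fun y => ∑ i, ci (some i) (a i y) from
    funext fun y => by simp [sc_eq], Finset.sum_mul]
  exact (nrm_sum_le _ k (fun i _ y => SA.clm _ (s i y)) fun i _ => .of_compactSpace _).trans
    (Finset.sum_le_sum fun i _ => (nrm_clm _ _ k (s i)).trans (mul_le_mul_of_nonneg_left (h' i)
      (mul_nonneg (cK_nonneg _) (norm_nonneg _))))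

theorem ev_lt {A B : ℝ} (hB : 0 < B) : ∀ᶠ w in 𝓝[>] (0 : ℝ), A * |w| < B :=
  nhdsWithin_le_nhds ((Continuous.tendsto' (by fun_prop) 0 0 (by simp)).eventually_lt_const hB)

theorem hl_eg (h : Eg θ l φ) : hl e (eg h).1 = 0 := by simp [hl, hol, tg, eg]

theorem tt_smul {H : Type*} [NormedAddCommGroup H] [InnerProductSpace ℝ H] [CompleteSpace H] (r : ℝ)
    (x : H) : tt (r • x) = r ^ 2 • tt x := by
  ext y
  simp only [tt_apply, smul_apply, real_inner_smul_left, smul_smul]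
  congr 1
  ring

theorem tt_sym {H : Type*} [NormedAddCommGroup H] [InnerProductSpace ℝ H] [CompleteSpace H] (x : H) :
    tt x ∈ symA H := fun y z => by
  simp only [tt_apply, real_inner_smul_left, real_inner_smul_right, real_inner_comm x, mul_comm]

section eg
variable (he : e.OK) (hk : 7 ≤ k) (h : Eg θ l φ)
include he hk

theorem r0 {β} (h1 : e.D.F.Cb β) (h2 : Maps₂ (pV e) (pV e) (pV e) β) (u : SV e) :
    e.D.F.Rep (BH e k 0 0 β (tk e k u)) fun v y => β y (u.1 y) (v y) :=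
  Rep₂_left (rep_bilH sup.choose_spec (.left hk (Nat.zero_le k)) h1 h2) u

theorem GG_eg (b : ℝ → ℝ) : GG θ b k (tk e k (eg h)) =
    aL θ - b (‖pH e k (tk e k (eg h))‖ ^ 2) • PH e 0 +
      (-2 * deriv b (‖pH e k (tk e k (eg h))‖ ^ 2)) • tt (tk e 0 (eg h)) := by
  have n0 : BH e k 0 0 (nn e) (tk e k (eg h)) = 0 :=
    RepT_eq (r0 he hk (cb_nn he) (mp_nn he) _) RepT_zero fun u => funext fun y =>
      ext3 (by simp) (by simp) (by simp [eg])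
  have p : ∀ y, e.cyl.pp (y, 0) (φ y) = φ y := (ay_lf h.1).pΦ
  have p0 : pH e k (tk e k (eg h)) = tk e 0 (eg h) := by
    rw [pH, ContinuousLinearMap.comp_apply, incl_toH (Nat.zero_le k)]
    exact RepT_toH' (rP he 0) _ _ (funext fun y => ext3 (by simp [eg]) (by simp [eg]) (by simp [eg, p]))
  rw [GG, n0, ← p0, add_zero, neg_mul, neg_smul, ← sub_eq_add_neg]

theorem cc_cst : BH e k 0 0 (cc e) (tk e k (eg h)) (tk e 0 ⟨cst e, cst_mem⟩) =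
    JH e 0 ((rv e)⁻¹ • tk e 0 (eg h)) := by
  have p : ∀ y, e.cyl.pp (y, 0) (φ y) = φ y := (ay_lf h.1).pΦ
  obtain ⟨w, a, b⟩ := rJ he 0 (eg h)
  rw [map_smul, b, ← map_smul]
  exact RepT_toH' (r0 he hk (cb_cc he) (mp_cc he) _) _ _ (funext fun y => ext3 (by simp [cc, a, eg])
    (by simp [cc, a, eg]) (by simp [cc, a, eg, p]))

theorem cc_P (u : SV e) (x : XH e 0) : PH e 0 (BH e k 0 0 (cc e) (tk e k u) (PH e 0 x)) = 0 :=
  DFunLike.congr_fun (RepT_eq (RepT_comp (rP he 0) (RepT_comp (r0 he hk (cb_cc he) (mp_cc he) u)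
    (rP he 0))) RepT_zero fun u => funext fun y => ext3 (by simp) (by simp) (by simp [cc])) x

end eg

variable (hS : SfStmt κ lam ν) (hA : AhStmt κ lam ν) (he : e.OK) (h0 : (lf e).OK) (hθ : Red θ)

section re
variable {w : ℝ} {b : ℝ → ℝ} {S : Set ℝ} {ψ : ℝ → ℝ} (hE : (e.re w b S ψ).OK) (hk : 7 ≤ k) (u : SV e)
  (hq : Ql e (hol θ) (hl e u.1))
include hA h0 hθ hE hk hq

theorem hess_re (hw : 0 < w) :
    GG θ b k (tk e k u) + √(w / 2) • BH e k 0 0 (cc e) (tk e k u) ∈ symA _ ∧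
      aH (pt (e.re w b S ψ) θ.a u.1) =
        GG θ b k (tk e k u) + √(w / 2) • BH e k 0 0 (cc e) (tk e k u) := by
  obtain ⟨h1, h2⟩ := hess (e := e.re w b S ψ) hE hA h0 hθ hk hw u hq
  exact ⟨(h2 ▸ h1 :), h2⟩

include hS

theorem crit_re (hw : 0 < w) (h : Sol (ic e (k + 1) k) (TK θ k) (ic e k 0) (PH e k) (RH e k)
    (BH e (k + 1) (k + 1) k (q4 e)) b w (tk e (k + 1) u)) : Crit (pt (e.re w b S ψ) θ.a u.1) :=
  crit_of (e := e.re w b S ψ) hE h0 hθ u.2 hq hw ((sol_iff (e := e.re w b S ψ) hE hS hA h0 hθ hk u).1 h)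

theorem sol_re (h : Crit (pt (e.re w b S ψ) θ.a u.1)) (h1 : ∀ y, dvg e (tg e u.1).a y = 0)
    (h2 : ∀ y, f2 _ _ (u.1 y) none = 0) : Sol (ic e (k + 1) k) (TK θ k) (ic e k 0) (PH e k) (RH e k)
      (BH e (k + 1) (k + 1) k (q4 e)) b w (tk e (k + 1) u) :=
  (sol_iff (e := e.re w b S ψ) hE hS hA h0 hθ hk u).2 ((eqn_iff (e := e.re w b S ψ) hE h0 hθ u.2 hq).2
    ⟨h1, fun k y => by simp [h.2.1, h2, Pre.D_def], fun y => by simp [h.2.2, h2]⟩)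

end re

include hS hA he h0 hθ

/-- the degree along a branch -/
theorem branch (hD : DatStmt κ lam ν) (hn : NdF θ) (hq : Ql e (hol θ) 0) (hz : 0 ∉ spec θ)
    (hs : ∀ l ≥ 0, Smp θ l) (b1 : Bijective (Crt72.Op (iH e) (L0 e) (rf (th e)))) (hk : 7 ≤ k)
    {b : ℝ → ℝ} (hb : ContDiff ℝ ∞ b) (hl : 0 < l) (h : Eg θ l φ) (h1 : φ ≠ 0)
    (h2 : b (‖pH e k (tk e k (eg h))‖ ^ 2) = l) (h3 : deriv b (‖pH e k (tk e k (eg h))‖ ^ 2) < 0)
    {x : ℝ → XH e k} {K : ℝ} (hx : ∀ᶠ w in 𝓝[>] (0 : ℝ), ‖x w - tk e k (eg h)‖ ≤ K * |w| ∧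
      GG θ b k (x w) + √(w / 2) • BH e k 0 0 (cc e) (x w) ∈ symA _) : ∀ᶠ w in 𝓝[>] (0 : ℝ),
    Bijective (Crt72.Op (iH e) (L0 e) (GG θ b k (x w) + √(w / 2) • BH e k 0 0 (cc e) (x w))) ∧
    -sfE e (rf (th e)) (GG θ b k (x w) + √(w / 2) • BH e k 0 0 (cc e) (x w)) =
      mu0 θ + 2 * (spec θ ∩ Ioo 0 l).ncard := by
  have H := (hS e he).2
  obtain ⟨d1, d2⟩ := hD e h0 θ hθ hn
  obtain ⟨D, E⟩ := d2 0
  replace E : Ev θ 0 := E
  have s1 := E.spec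
  have s2 := E.simple he hs l
  have s3 := Submodule.smul_mem _ (rv e)⁻¹ (E.iff.2 ⟨φ, h, rfl⟩)
  rw [show e.D.F.incl 0 0 (pV e) = .id ℝ _ from ContinuousLinearMap.ext incl_self] at D
  rw [TK] at s1 s2 s3
  simp only [d1] at D s1 s2 s3
  have sL : ∀ θ : (lf e).YC, (lf e).cyl.Adm (fz θ) → aL θ ∈ symA (XH e 0) := fun θ h =>
    (hA (lf e) h0 two_pos θ h).2.2.1
  have r := rv_pos (e := e)
  have c0 : tH e 0 (cst e) = _ := tH_eq 0 (⟨cst e, cst_mem⟩ : SV e)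
  have c1 : tH e 1 (cst e) = _ := tH_eq 1 (⟨cst e, cst_mem⟩ : SV e)
  have c2 : iH e (tH e 1 (cst e)) = tH e 0 (cst e) := by rw [c0, c1, incl_toH zero_le_one]
  have c3 : iH e ((rv e)⁻¹ • tk e 1 (eg h)) = (rv e)⁻¹ • tk e 0 (eg h) := by
    rw [map_smul, incl_toH zero_le_one]
  have c4 : BH e k 0 0 (cc e) (tk e k (eg h)) ∈ symA _ := by
    simpa [GG_eg he hk h] using Submodule.sub_mem _
      (hess_re hA h0 hθ h0 hk (eg h) ((hl_eg h).symm ▸ hq) two_pos).1 (sL θ hθ.1.1)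
  obtain ⟨k1, k2, k3⟩ := deg' (β := -2 * deriv b (‖pH e k (tk e k (eg h))‖ ^ 2) * rv e ^ 2)
    (G := GG θ b k) H D (sL θ hθ.1.1) D.Psym c4 hl
    (mul_pos (mul_pos_of_neg_of_neg (by norm_num) h3) (pow_pos r 2))
    (smul_ne_zero (inv_ne_zero r.ne') ((eg_ne h).not.2 h1)) s3 s2 (s1 ▸ hz)
    (by rw [c2, c0, c3, cc_cst he hk]) (cc_P he hk _) (dG _ _ _ _ hb _) (by
      rw [GG_eg he hk, h2, c3, tt_smul, smul_smul, mul_assoc, ← mul_pow, mul_inv_cancel₀ r.ne',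
        one_pow, mul_one]) hx
  rw [c2] at k1 k2 k3
  have t : rf (th e) ∈ symA (XH e 0) := Submodule.sub_mem _ (sL _ (by
    rw [th, dif_pos ⟨θ, hθ⟩]; exact (Exists.choose_spec (⟨θ, hθ⟩ : ∃ θ, Red θ)).1.1)) (tt_sym _)
  filter_upwards [k3, hx] with w a a'
  refine ⟨a.1, ?_⟩
  rw [← H.add _ t _ k1 _ a'.2 b1 k2 a.1, a.2, s1, mu0]
  simp only [rf]
  ring

end Crest.Agent.X212.St29.Tow
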