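import Crest.Agent.X212.Tbs74.Defs
import Crest.Agent.X212.Taub88.Gau
import Crest.Agent.X212.Sw88.Wz
import Crest.Agent.X212.Pb50.Act
import Crest.Agent.X212.Sep15.SwB

/-!
# Row 212, T-U0 (helper29): Taubes' uniqueness theorem on `Sw.Bg`
-/

set_option autoImplicit false
set_option linter.unusedSectionVars false
noncomputable section
open scoped Manifold ContDiff Topology InnerProductSpace
open MeasureTheory Finset Filter

namespace Crest.Agent.X212.St29.U0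
open An Wz78 Sob92 Taub88 Tbs74
open Sw (Bg F2 Gau)
open M (Mf)
open Sw88 (cm tw_eq p_of)

section alg
variable {ι : Type*} [Fintype ι] {V : Type*} [NormedAddCommGroup V] [InnerProductSpace ℝ V]
  [FiniteDimensional ℝ V] {P θ : ι → ι → ℝ} {o : ι → ι → ι → ι → ℝ} {p J : V →L[ℝ] V}
  {ρ : ι → V →L[ℝ] V} {u v : V} (h : P8 P o p J ρ) (hθ : Cx P θ) (hs : SD o θ)
include h hθ hs

theorem pp_Q (hu : Qt o p J ρ θ u = u) : pp o p ρ u = u := by rw [← hu, h.pp_Q' hθ hs]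

omit hθ hs in
theorem Q_J (hu : Qt o p J ρ θ u = u) : Qt o p J ρ θ (J u) = J u := by
  rw [← mul_apply_eq_comp, ← h.J_Q, mul_apply_eq_comp, hu]

/-- pure spinors form a complex line -/
theorem line (hu : Qt o p J ρ θ u = u) (hv : Qt o p J ρ θ v = v) (u0 : u ≠ 0)
    (o1 : ⟪u, v⟫_ℝ = 0) (o2 : ⟪J u, v⟫_ℝ = 0) : v = 0 := by
  have p1 := pp_Q h hθ hs hu
  have pu := h.p_of (h.pp_J p1)
  have e := congrArg (fun T => ⟪T (J u), v⟫_ℝ) (h.Q_spin_Q hθ hs (X := mm J ρ u v) fun a b => by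
    simp only [mm, h.rel a b, pu, inner_sub_left, inner_neg_left, real_inner_smul_left, o2]; ring)
  simp only [mul_apply_eq_comp, h.Q_s hθ, hv, Q_J h hu, smul_apply, real_inner_smul_left,
    h.J_J (h.p_of p1), inner_neg_left, o1] at e
  have e' := congrArg (⟪·, v⟫_ℝ) (h.par2 (h.pp_J p1) v)
  simp only [sum_inner, real_inner_smul_left, pp_Q h hθ hs hv,
    real_inner_self_eq_norm_sq, h.norm_J (h.p_of p1)] at e'
  replace e' : dot (mm J ρ u v) (mm J ρ u v) = _ := e'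
  rw [dot_mm, e] at e'
  simpa [u0] using e'.symm

end alg

variable {κ lam ν : Type} [Fintype κ] [Fintype lam] [Fintype ν] [DecidableEq ν] {X : Mf 4}
  {b : Bg X.I X.M κ lam ν 0} {θ : Option κ → Option κ → X.M → ℝ} {c c' : Sw.Cfg X.M κ ν}
  {u : X.M → Eu ν} {x : X.M}

theorem nab_chg (c c' : Sw.Cfg X.M κ ν) (h : b.m.p x (u x) = u x) (i : Option κ) :
    nab X.I b.F.e (b.W c') i u x =
      nab X.I b.F.e (b.W c) i u x + (c'.a i x - c.a i x) • b.m.J (u x) := by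
  simp only [nab, Bg.W, Bg.jp, add_apply, smul_apply, mul_apply_eq_comp, h]
  module

theorem sk_fc (hb : b.OK) (hc : b.Adm c) (x : X.M) :
    Sk (fun i j => b.B.P i j x) fun i j => b.fc c x (i, j) := by
  refine sk_of (hb.B.pr x) (fun i j => ?_) fun i j => ?_
  · simp only [Bg.fc, (lc_gam b.F).curv_anti (cm hb hc).cc.toCon i, map_neg, inner_neg_right]
    ring
  · simp only [Bg.fc, ← (lc_gam b.F).curv_p1 (frm _) (sep _) (cm hb hc).cc.toCon i j x, map_sum,
      map_smul, inner_sum, real_inner_smul_right, mul_sum, ← hb.G.P]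
    exact sum_congr rfl fun _ _ => by ring

theorem qd_mm (hb : b.OK) (v : Eu ν) (s : Option κ × Option κ) :
    b.qd x v v s = 1 / 8 * mm b.m.J (fun a => b.m.ρ a x) v v s.1 s.2 := by
  simp only [Bg.qd, mm, (Sw88.p8 hb x).J_ρ]

variable (H : TP b θ u)
include H

theorem tm (hc : b.Adm c) :
    TM X.I b.F.e b.B.P b.F.c b.F.Gam b.B.o θ b.m.p b.m.J b.m.ρ (b.W c) :=
  ⟨gfrm H.ok.G, glc H.ok.G, gsep H.ok.G, fun a b c d x => H.ok.B.so a b c d x,
    ⟨fun a b x => H.ak.sm a b x, H.ak.cx, H.ak.cl⟩, H.ak.sd, H.ok.G.P ▸ (cm H.ok hc).cc,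
    fun x => (Sw88.p8 H.ok x).toPC, (cm H.ok hc).JW, (cm H.ok hc).sk⟩

theorem pu (x : X.M) : b.m.p x (u x) = u x :=
  p_of H.ok (pp_Q (Sw88.p8 H.ok x) (H.ak.cx x) (H.ak.sd x) (H.Q x))

theorem u0 (x : X.M) : u x ≠ 0 := norm_ne_zero_iff.1 (H.one x ▸ one_ne_zero)

theorem nJ (x : X.M) : ‖b.m.J (u x)‖ = 1 := ((Sw88.p8 H.ok x).norm_J (pu H x)).trans (H.one x)

theorem qd_eq (x : X.M) (s : Option κ × Option κ) : b.qd x (u x) (u x) s = -θ s.1 s.2 x / 8 := by
  rw [qd_mm H.ok, (Sw88.p8 H.ok x).mm_Q (H.ak.cx x) (H.ak.sd x) (H.Q x), H.one]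
  ring

variable (hc : b.Adm c) (hp : ∀ i x, ⟪b.m.J (u x), nab X.I b.F.e (b.W c) i u x⟫_ℝ = 0)
include hc hp

theorem par (i : Option κ) (x : X.M) :
    Qf b.B.o b.m.p b.m.J b.m.ρ θ x (nab X.I b.F.e (b.W c) i u x) = 0 := by
  have P := Sw88.p8 H.ok x
  refine line P (H.ak.cx x) (H.ak.sd x) (H.Q x) (P.Q_Q' (H.ak.cx x) (H.ak.sd x) _) (u0 H x) ?_ ?_
  · have e := dv_inner (e := b.F.e) i ((cm H.ok hc).sk i x) (H.sm x) (H.sm x)
    simp only [real_inner_self_eq_norm_sq, H.one, dv_const, Pi.zero_apply] at e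
    rw [Qf, ← P.Q_s (H.ak.cx x), show Qt _ _ _ _ _ (u x) = u x from H.Q x]
    linarith [real_inner_comm (u x) (nab X.I b.F.e (b.W c) i u x)]
  · rw [Qf, ← P.Q_s (H.ak.cx x), Q_J P (H.Q x), hp]

theorem dir0 (x : X.M) : dir X.I b.F.e b.m.ρ (b.W c) u x = 0 :=
  (tm H hc).dir_eq H.sm H.Q (par H hc hp) x

theorem fc_un (i j : Option κ) (x : X.M) : b.fc c x (i, j) = -uF b.F θ i j x := by
  have e := (tm H hc).flat H.sm H.Q (par H hc hp) i j x
  rw [tw_eq H.ok hc, smul_apply, Bg.jp, mul_apply_eq_comp, pu H, ← sub_eq_zero, ← sub_smul,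
    smul_eq_zero, sub_eq_zero] at e
  exact e.resolve_right (norm_ne_zero_iff.1 (nJ H x ▸ one_ne_zero))

variable [CompactSpace X.M]

/-- the degree does not depend on the connection -/
theorem deg (hc' : b.Adm c') : ∫ x, dot (fun i j => b.fc c' x (i, j) - b.fc c x (i, j))
    (fun i j => θ i j x) ∂b.F.μ = 0 := by
  have hb := H.ok
  have i : ∀ {f : X.M → ℝ}, Sm X.I f → Integrable f b.F.μ := fun hf =>
    hf.continuous.integrable_of_hasCompactSupport (HasCompactSupport.of_compactSpace _)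
  have e1 := Sw88.int_weitz hb hc H.sm (pu H) (HasCompactSupport.of_compactSpace _)
  have e2 := Sw88.int_weitz hb hc' H.sm (pu H) (HasCompactSupport.of_compactSpace _)
  have k1 : ∀ x, ‖dir X.I b.F.e b.m.ρ (b.W c') u x‖ ^ 2 = ∑ i, (c'.a i x - c.a i x) ^ 2 := fun x => by
    have P := Sw88.p8 hb x
    have d := dir0 H hc hp x
    have pJ : b.m.p x (b.m.J (u x)) = b.m.J (u x) := by
      rw [← mul_apply_eq_comp, ← P.Jp, mul_apply_eq_comp, pu H]
    simp only [dir] at d ⊢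
    simp only [nab_chg c c' (pu H x), map_add, sum_add_distrib, d, zero_add, map_smul]
    rw [← real_inner_self_eq_norm_sq, sum_inner]
    refine sum_congr rfl fun i _ => ?_
    simp only [inner_sum, real_inner_smul_left, real_inner_smul_right, P.inner_ρ _ _ pJ,
      real_inner_self_eq_norm_sq, nJ H, one_pow, mul_one, mul_left_comm _ (c'.a i x - c.a i x)]
    simp only [← mul_sum, mul_comm _ (b.B.P _ _ x), mul_sub (b.B.P _ _ x), sum_sub_distrib, hc.pa,
      hc'.pa, sq]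
  have k2 : ∀ x, ∑ i, ‖nab X.I b.F.e (b.W c') i u x‖ ^ 2 =
      ∑ i, ‖nab X.I b.F.e (b.W c) i u x‖ ^ 2 + ∑ i, (c'.a i x - c.a i x) ^ 2 := fun x => by
    rw [← sum_add_distrib]
    refine sum_congr rfl fun i _ => ?_
    rw [nab_chg c c' (pu H x), norm_add_sq_real, real_inner_smul_right, real_inner_comm, hp,
      norm_smul, nJ H, mul_one, Real.norm_eq_abs, sq_abs]
    ring
  have k3 : ∀ x, Sw88.sc b x / 4 * ‖u x‖ ^ 2 + 4 * ⟪b.fc c' x, b.qd x (u x) (u x)⟫_ℝ =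
      (Sw88.sc b x / 4 * ‖u x‖ ^ 2 + 4 * ⟪b.fc c x, b.qd x (u x) (u x)⟫_ℝ) + (-1 / 2) *
        dot (fun i j => b.fc c' x (i, j) - b.fc c x (i, j)) fun i j => θ i j x := fun x => by
    simp only [Sw88.inner_F2, qd_eq H, dot, mul_sum, add_assoc, ← sum_add_distrib]
    exact congrArg _ (sum_congr rfl fun _ _ => sum_congr rfl fun _ _ => by ring)
  have f : ∀ {c : Sw.Cfg X.M κ ν}, b.Adm c → ∀ s x, SA X.I (fun y => b.fc c y s) x :=
    fun hc s x => SA.clm (Map77.pj ℝ s) (Sep15.S.sa_fc hb (hc.sa · x))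
  have s1 : Sm X.I fun x => ∑ i, ‖nab X.I b.F.e (b.W c) i u x‖ ^ 2 := fun x =>
    SA.sum _ fun i _ => by
      have := Sep15.S.sa_nab hb (hc.sa · x) (H.sm x) i
      simpa only [real_inner_self_eq_norm_sq] using Sep15.S.sa_inner this this
  have s2 : Sm X.I fun x => ∑ i, (c'.a i x - c.a i x) ^ 2 := fun x =>
    SA.sum _ fun i _ => ((hc'.sa i x).sub (hc.sa i x)).pow 2
  have s3 : Sm X.I fun x =>
      Sw88.sc b x / 4 * ‖u x‖ ^ 2 + 4 * ⟪b.fc c x, b.qd x (u x) (u x)⟫_ℝ := fun x => by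
    simp only [H.one]
    exact (((SA.sum _ fun a _ => SA.sum _ fun k _ =>
      (lc_gam b.F).sRm (frm _) a k k a x).div_const 4).mul contMDiffAt_const).add
      (contMDiffAt_const.mul (Sep15.S.sa_inner (Sep15.S.sa_fc hb (hc.sa · x))
        (Sep15.S.sa_qd hb (H.sm x) (H.sm x))))
  simp only [dir0 H hc hp, norm_zero] at e1
  simp only [k1, k2, k3] at e2
  rw [integral_add (i s1) (i s2), integral_add (i s3) ((i fun x => sm_dot
    (fun a k => (f hc' _ x).sub (f hc _ x)) fun a k => H.ak.sm a k x).const_mul _),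
    integral_const_mul] at e2
  simp only [ne_eq, OfNat.ofNat_ne_zero, not_false_eq_true, zero_pow, integral_zero] at e1
  linarith

theorem uniq {B s : ℝ} (hB : ∀ x, bnd X.I b.F.e b.F.Gam θ x ≤ B) (B0 : 0 ≤ B)
    (hs : B < 1 / 8 * s ^ 2) (hc' : b.Adm c') (hD : b.eD c' = 0)
    (hC : b.eC c' = b.eC (sc ⟨c.a, u⟩ s)) (x : X.M) :
    Qf b.B.o b.m.p b.m.J b.m.ρ θ x (c'.Φ x) = c'.Φ x ∧ ‖c'.Φ x‖ ^ 2 = s ^ 2 ∧
      ∀ i, Qf b.B.o b.m.p b.m.J b.m.ρ θ x (nab X.I b.F.e (b.W c') i c'.Φ x) = 0 := by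
  have hb := H.ok
  obtain ⟨R, hR⟩ := (isCompact_range (hc'.sΦ.continuous.norm.pow 2)).bddAbove
  have := Sob92.openPos b.F.toPre
  have e := TM.err (F := b.F) (hb.G.P ▸ tm H hc') (riem_of_vol hb.G.vol) (k := 1 / 8) (r := s ^ 2)
    (R := R) (ε := 0) (by norm_num) hB B0 hs ⟨by norm_num, by simpa using sq_nonneg _⟩ hc'.sΦ
    hc'.pΦ (fun x => by
      have P := Sw88.p8 hb x
      rw [show b.F.P = b.B.P from hb.G.P]
      exact ⟨b.m.p x, by simpa only [P.cl.pr] using P, fun a => (P.cl.pl a).trans (P.cl.pr a).symm,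
        p_of hb (hc'.pΦ x)⟩)
    (fun x => by simpa [Bg.eD, H.ms] using congrFun hD x)
    (fun x => hR ⟨x, rfl⟩) (er := 0) (f := fun x i j => b.fc c' x (i, j))
    (fun x => (sk_fc hb hc' x).skew)
    (fun x i j => by rw [tw_eq hb hc', smul_apply, Bg.jp, mul_apply_eq_comp, p_of hb (hc'.pΦ x)])
    (fun _ _ => continuous_const) (g := fun x i j => b.fc c' x (i, j) - b.fc c x (i, j))
    (fun x => by funext i j; rw [fc_un H hc hp, sub_neg_eq_add])
    (fun x => by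
      funext i j
      have e := congrArg (· (i, j)) (congrFun hC x)
      have e2 := sd_sum hb.B ((sk_fc hb hc' x).add ((sk_fc hb hc x).mul (-1))) (i, j)
      simp only [neg_mul, one_mul, ← sub_eq_add_neg, mul_sub, sum_sub_distrib,
        ← Sw88.p2_apply] at e2
      simp only [Bg.eC, H.w, one_smul, map_sub, Tbs74.sc, Sw88.qd_smul, map_smul,
        Sw88.p2_qd_self hb (hc'.pΦ x), Sw88.p2_qd_self hb
          (pp_Q (Sw88.p8 hb x) (H.ak.cx x) (H.ak.sd x) (H.Q x)), PiLp.sub_apply, PiLp.smul_apply,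
        qd_eq H, qd_mm hb (c'.Φ x), smul_eq_mul] at e
      rw [← e2, Pi.zero_apply, Pi.zero_apply, Pi.zero_apply]
      change _ - _ - _ = b.p2 x (b.fc c x) _ - _ - _ at e
      linarith)
    (by simp [dot]) (deg H hc hp hc').le x
  exact ⟨e.1, e.2.1, e.2.2.1⟩

omit H hc hp in
variable (κ lam ν) in
/-- **T-U0** -/
theorem u0Stmt : U0Stmt κ lam ν := by
  intro X _ b θ c H hc hp
  have hb := H.ok
  refine ⟨funext fun x => by simpa [Bg.eD, H.ms] using dir0 H hc hp x, qd_eq H, ?_⟩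
  obtain ⟨B, hB⟩ := (isCompact_range (cont_bnd (gfrm hb.G) (glc hb.G)
    fun a k x => H.ak.sm a k x)).bddAbove
  refine ⟨8 * |B| + 1, fun s hs c' hc' hD hC => ?_⟩
  have s1 : 1 ≤ s := by linarith [abs_nonneg B]
  have s0 : s ≠ 0 := by positivity
  have U := uniq H hc hp (fun x => (hB ⟨x, rfl⟩).trans (le_abs_self B)) (abs_nonneg B)
    (by nlinarith [abs_nonneg B]) hc' hD hC
  set z : X.M → ℂ := fun x => (s⁻¹ * ⟪c.Φ x, c'.Φ x⟫_ℝ) • (1 : ℂ) +
    (s⁻¹ * ⟪b.m.J (c.Φ x), c'.Φ x⟫_ℝ) • Complex.I with hz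
  have P := Sw88.p8 hb
  have e : ∀ x, c'.Φ x = cs b.m.J (z x) (s • c.Φ x) := fun x => by
    have j := (P x).inner_J (c.Φ x)
    refine sub_eq_zero.1 (line (P x) (H.ak.cx x) (H.ak.sd x) (H.Q x) ?_ (u0 H x) ?_ ?_)
    · rw [map_sub, Pb50.cs_comm (P x).J_Q, map_smul]
      exact congrArg₂ (fun v w => v - cs _ _ (s • w)) (U x).1 (H.Q x)
    · simp [cs, hz, inner_sub_right, inner_add_right, real_inner_smul_right, H.one,
        real_inner_comm (b.m.J (c.Φ x)), j]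
      field_simp
      ring
    · simp [cs, hz, inner_sub_right, inner_add_right, real_inner_smul_right, nJ H, j]
      field_simp
      ring
  have G : Gau X.I z := ⟨fun x => (SA.smul (contMDiffAt_const.mul (Sep15.S.sa_inner (hc.sΦ x)
    (hc'.sΦ x))) contMDiffAt_const).add (SA.smul (contMDiffAt_const.mul (Sep15.S.sa_inner
      (SA.clm _ (hc.sΦ x)) (hc'.sΦ x))) contMDiffAt_const), fun x => by
    have k := (U x).2.1
    rw [e x, cs, map_smul, norm_add_sq_real, smul_smul, smul_smul, real_inner_smul_left,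
      real_inner_smul_right, real_inner_comm, (P x).inner_J, norm_smul, norm_smul, H.one, nJ H,
      Real.norm_eq_abs, Real.norm_eq_abs, mul_one, mul_one, sq_abs, sq_abs] at k
    rw [← sq_eq_sq₀ (norm_nonneg _) zero_le_one, Complex.sq_norm, Complex.normSq_apply]
    exact mul_right_cancel₀ (pow_ne_zero 2 s0) (by linarith)⟩
  refine ⟨z, G, Sw.Cfg.ext (funext₂ fun i x => ?_) (funext e)⟩
  have L : Pb50.LA b (sc c s) x := ⟨fun i => hc.sa i x, SA.smul contMDiffAt_const (hc.sΦ x),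
    fun i => hc.pa i x, by simp only [Tbs74.sc, map_smul, hc.pΦ]⟩
  have k1 := Pb50.nab_act hb L (.of_gau G x) i
  rw [show (b.act z (sc c s)).Φ = c'.Φ from (funext e).symm] at k1
  have k2 := (U x).2.2 i
  rw [nab_chg (b.act z (sc c s)) c' (p_of hb (hc'.pΦ x)), k1, map_add, Qf,
    Pb50.cs_comm (P x).J_Q, show nab X.I b.F.e (b.W (sc c s)) i (sc c s).Φ x =
      s • nab X.I b.F.e (b.W c) i c.Φ x from (nab_smul i contMDiffAt_const (hc.sΦ x)).trans
        (by simp [dv_const]; rfl), map_smul, map_smul, Q_J (P x) (U x).1] at k2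
  erw [par H hc hp] at k2
  rw [smul_zero, ← Pb50.cB_apply, map_zero, zero_add, smul_eq_zero, sub_eq_zero] at k2
  refine k2.resolve_right fun k => ?_
  have k3 := (U x).2.1
  rw [← (P x).norm_J (p_of hb (hc'.pΦ x)), k, norm_zero] at k3
  nlinarith

end Crest.Agent.X212.St29.U0
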